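import Crest.Agent.R149.Stmts
import Crest.Agent.R149.PrProps
import Crest.Prelude.Def_PairPotential
import Crest.Prelude.Def_UnitPacking
import Crest.Agent.R149.Packing

-- ▼ part R149/Attraction
section

/-!
Deterministic bounds for the attraction of the multi-scale Kac potential (row 149):
`e1 : KernelProps → E1Stmt`, `e2 : KernelProps → E2Stmt`, `decouple : DecoupleStmt`.
-/

set_option autoImplicit false

namespace Crest.Agent.R149.Attraction

open MeasureTheory Crest.ProbabilityR.Continuum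

/-! ### shifted grids -/

theorem card_sep_le_aux (n : ℕ) (hn : 0 < n) (u v : ℝ) (huv : u ≤ v) :
    (((Finset.univ : Finset (Fin n)).filter
      (fun m : Fin n => ⌊(u + (m : ℕ)) / n⌋ ≠ ⌊(v + (m : ℕ)) / n⌋)).card : ℝ) ≤ v - u + 1 := by
  have hn' : (0 : ℝ) < n := by exact_mod_cast hn
  have h1 : ((Finset.univ : Finset (Fin n)).filter
      (fun m : Fin n => ⌊(u + (m : ℕ)) / n⌋ ≠ ⌊(v + (m : ℕ)) / n⌋)).card ≤ (Finset.Ioc ⌊u⌋ ⌊v⌋).card := by
    apply Finset.card_le_card_of_injOn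
      (fun m : Fin n => (n : ℤ) * ⌊(v + (m : ℕ)) / n⌋ - ((m : ℕ) : ℤ))
    · intro m hm
      rw [Finset.mem_coe, Finset.mem_filter] at hm
      obtain ⟨_, hs2⟩ := hm
      have hle : ⌊(u + (m : ℕ)) / n⌋ ≤ ⌊(v + (m : ℕ)) / n⌋ := by
        apply Int.floor_le_floor
        gcongr
      have hlt : ⌊(u + (m : ℕ)) / n⌋ < ⌊(v + (m : ℕ)) / n⌋ := lt_of_le_of_ne hle hs2
      rw [Finset.mem_coe, Finset.mem_Ioc]
      constructor
      · rw [Int.floor_lt]
        push_cast
        rw [Int.floor_lt, div_lt_iff₀ hn'] at hlt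
        linarith
      · rw [Int.le_floor]
        push_cast
        have := Int.floor_le ((v + (m : ℕ)) / n)
        rw [le_div_iff₀ hn'] at this
        linarith
    · intro m _ m' _ h
      have h2 : (((m : ℕ) : ℤ) - ((m' : ℕ) : ℤ)) =
          (n : ℤ) * (⌊(v + (m : ℕ)) / n⌋ - ⌊(v + (m' : ℕ)) / n⌋) := by
        have : (n : ℤ) * ⌊(v + (m : ℕ)) / n⌋ - ((m : ℕ) : ℤ) =
          (n : ℤ) * ⌊(v + (m' : ℕ)) / n⌋ - ((m' : ℕ) : ℤ) := h
        linarith
      have h3 : (n : ℤ) ∣ (((m : ℕ) : ℤ) - ((m' : ℕ) : ℤ)) := ⟨_, h2⟩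
      have h4 : |((m : ℕ) : ℤ) - ((m' : ℕ) : ℤ)| < n := by
        have := m.2
        have := m'.2
        rw [abs_lt]
        constructor <;> omega
      have h5 := Int.eq_zero_of_abs_lt_dvd h3 h4
      apply Fin.ext
      omega
  have h2 : ((Finset.Ioc ⌊u⌋ ⌊v⌋).card : ℝ) ≤ v - u + 1 := by
    rw [Int.card_Ioc]
    have h3 : (0 : ℤ) ≤ ⌊v⌋ - ⌊u⌋ := by
      have := Int.floor_le_floor huv
      omega
    have h4 : (((⌊v⌋ - ⌊u⌋).toNat : ℤ) : ℝ) = ((⌊v⌋ - ⌊u⌋ : ℤ) : ℝ) := by
      rw [Int.toNat_of_nonneg h3]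
    have h5 : (((⌊v⌋ - ⌊u⌋).toNat : ℕ) : ℝ) = ((⌊v⌋ - ⌊u⌋ : ℤ) : ℝ) := by
      exact_mod_cast h4
    rw [h5]
    push_cast
    have := Int.floor_le v
    have := Int.lt_floor_add_one u
    linarith
  have h3 : (((Finset.univ : Finset (Fin n)).filter
      (fun m : Fin n => ⌊(u + (m : ℕ)) / n⌋ ≠ ⌊(v + (m : ℕ)) / n⌋)).card : ℝ) ≤
      ((Finset.Ioc ⌊u⌋ ⌊v⌋).card : ℝ) := by exact_mod_cast h1
  exact h3.trans h2

theorem card_sep_le (n : ℕ) (hn : 0 < n) (u v : ℝ) :
    (((Finset.univ : Finset (Fin n)).filter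
      (fun m : Fin n => ⌊(u + (m : ℕ)) / n⌋ ≠ ⌊(v + (m : ℕ)) / n⌋)).card : ℝ) ≤ |u - v| + 1 := by
  rcases le_total u v with h | h
  · have := card_sep_le_aux n hn u v h
    rw [abs_sub_comm, abs_of_nonneg (sub_nonneg.mpr h)]
    exact this
  · have := card_sep_le_aux n hn v u h
    rw [abs_of_nonneg (sub_nonneg.mpr h)]
    simpa only [ne_comm] using this

theorem abs_coord_sub_le_dist (x y : Pt) (k : Fin 3) : |x k - y k| ≤ dist x y := by
  rw [EuclideanSpace.dist_eq]
  apply Real.le_sqrt_of_sq_le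
  rw [sq_abs]
  have : (x k - y k) ^ 2 = dist (x k) (y k) ^ 2 := by rw [Real.dist_eq, sq_abs]
  rw [this]
  exact Finset.single_le_sum (f := fun i => dist (x i) (y i) ^ 2) (fun i _ => by positivity)
    (Finset.mem_univ k)

theorem sum_abs_coord_le (x y : Pt) : ∑ k, |x k - y k| ≤ 2 * dist x y := by
  rw [EuclideanSpace.dist_eq]
  have h1 : (∑ k : Fin 3, |x k - y k|) ^ 2 ≤ 3 * ∑ k : Fin 3, |x k - y k| ^ 2 := by
    have := sq_sum_le_card_mul_sum_sq (s := (Finset.univ : Finset (Fin 3)))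
      (f := fun k => |x k - y k|)
    simpa using this
  have h2 : ∑ k : Fin 3, |x k - y k| ^ 2 = ∑ k : Fin 3, dist (x k) (y k) ^ 2 := by
    apply Finset.sum_congr rfl
    intro k _
    rw [Real.dist_eq]
  rw [h2] at h1
  set S := ∑ k : Fin 3, dist (x k) (y k) ^ 2 with hS
  have hS0 : 0 ≤ S := Finset.sum_nonneg (fun _ _ => by positivity)
  apply abs_le_of_sq_le_sq' _ (by positivity) |>.2
  rw [mul_pow, Real.sq_sqrt hS0]
  linarith

/-- the number of shifts which put `x` and `y` into the same cell -/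
theorem card_same_ge (n : ℕ) (hn : 0 < n) (x y : Pt) :
    (n : ℝ) ^ 3 - n ^ 2 * (2 * dist x y + 3) ≤
      (((Finset.univ : Finset (Fin 3 → Fin n)).filter (fun z =>
        cell n (fun k => ((z k : ℕ) : ℝ)) x = cell n (fun k => ((z k : ℕ) : ℝ)) y)).card : ℝ) := by
  classical
  set G := (Finset.univ : Finset (Fin 3 → Fin n)).filter (fun z =>
        cell n (fun k => ((z k : ℕ) : ℝ)) x = cell n (fun k => ((z k : ℕ) : ℝ)) y) with hG
  set Bad : Fin 3 → Finset (Fin n) := fun k => (Finset.univ : Finset (Fin n)).filter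
      (fun m : Fin n => ⌊(x k + (m : ℕ)) / n⌋ ≠ ⌊(y k + (m : ℕ)) / n⌋) with hBad
  set F : Fin 3 → Finset (Fin 3 → Fin n) := fun k =>
    (Finset.univ : Finset (Fin 3 → Fin n)).filter (fun z => z k ∈ Bad k) with hF
  have hFcard : ∀ k, ((F k).card : ℝ) = n ^ 2 * (Bad k).card := by
    intro k
    have h1 : F k = Fintype.piFinset (fun j => if j = k then Bad k else Finset.univ) := by
      ext z
      rw [hF, Finset.mem_filter, Fintype.mem_piFinset]
      constructor
      · rintro ⟨_, h⟩ j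
        by_cases hj : j = k
        · subst hj; simpa using h
        · simp [hj]
      · intro h
        refine ⟨Finset.mem_univ _, ?_⟩
        have := h k
        simpa using this
    rw [h1, Fintype.card_piFinset]
    push_cast
    have h2 : ∀ j : Fin 3, (((if j = k then Bad k else Finset.univ : Finset (Fin n)).card : ℕ) : ℝ)
        = if j = k then ((Bad k).card : ℝ) else n := by
      intro j
      by_cases hj : j = k <;> simp [hj]
    rw [Finset.prod_congr rfl (fun j _ => h2 j),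
      ← Finset.mul_prod_erase Finset.univ _ (Finset.mem_univ k), if_pos rfl,
      Finset.prod_congr rfl (fun j hj => if_neg (Finset.ne_of_mem_erase hj)), Finset.prod_const,
      Finset.card_erase_of_mem (Finset.mem_univ k), Finset.card_univ, Fintype.card_fin]
    ring
  have hFle : ∀ k, ((F k).card : ℝ) ≤ n ^ 2 * (|x k - y k| + 1) := by
    intro k
    rw [hFcard k]
    apply mul_le_mul_of_nonneg_left _ (by positivity)
    exact card_sep_le n hn (x k) (y k)
  have hcover : (Finset.univ : Finset (Fin 3 → Fin n)) ⊆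
      G ∪ (Finset.univ : Finset (Fin 3)).biUnion F := by
    intro z _
    rw [Finset.mem_union, Finset.mem_biUnion]
    by_cases h : z ∈ G
    · exact Or.inl h
    · right
      rw [hG, Finset.mem_filter] at h
      by_contra hcon
      apply h
      refine ⟨Finset.mem_univ _, ?_⟩
      funext k
      by_contra hk
      apply hcon
      refine ⟨k, Finset.mem_univ _, ?_⟩
      rw [hF, Finset.mem_filter]
      refine ⟨Finset.mem_univ _, ?_⟩
      rw [hBad, Finset.mem_filter]
      exact ⟨Finset.mem_univ _, hk⟩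
  have h1 := (Finset.card_le_card hcover).trans
    ((Finset.card_union_le _ _).trans (Nat.add_le_add_left Finset.card_biUnion_le _))
  rw [Finset.card_univ, Fintype.card_fun, Fintype.card_fin, Fintype.card_fin] at h1
  have h2 : (n : ℝ) ^ 3 ≤ G.card + ∑ k, ((F k).card : ℝ) := by exact_mod_cast h1
  have h3 : ∑ k, ((F k).card : ℝ) ≤ n ^ 2 * (2 * dist x y + 3) := by
    calc ∑ k, ((F k).card : ℝ) ≤ ∑ k, (n : ℝ) ^ 2 * (|x k - y k| + 1) :=
          Finset.sum_le_sum (fun k _ => hFle k)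
      _ = n ^ 2 * (∑ k, |x k - y k| + 3) := by
          rw [← Finset.mul_sum, Finset.sum_add_distrib]
          simp
      _ ≤ n ^ 2 * (2 * dist x y + 3) := by
          have := sum_abs_coord_le x y
          gcongr
  linarith

theorem decouple : DecoupleStmt := by
  intro α r ℓ hα hr hsupp hℓ ι _ x
  have hℓ' : (0 : ℝ) < ℓ := by exact_mod_cast hℓ
  have key : ∀ i j : ι, (1 - (2 * r + 3) / ℓ) * α (dist (x i) (x j)) * ℓ ^ 3 ≤
      ∑ z : Fin 3 → Fin ℓ, if cell ℓ (fun k => ((z k : ℕ) : ℝ)) (x i) =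
        cell ℓ (fun k => ((z k : ℕ) : ℝ)) (x j) then α (dist (x i) (x j)) else 0 := by
    intro i j
    rw [← Finset.sum_filter, Finset.sum_const, nsmul_eq_mul]
    by_cases h0 : α (dist (x i) (x j)) = 0
    · rw [h0]; simp
    · have hlt : dist (x i) (x j) < r := by
        by_contra hcon
        exact h0 (hsupp _ (not_lt.mp hcon))
      have h1 := card_same_ge ℓ hℓ (x i) (x j)
      have h2 : (1 - (2 * r + 3) / ℓ) * α (dist (x i) (x j)) * ℓ ^ 3 =
          ((ℓ : ℝ) ^ 3 - ℓ ^ 2 * (2 * r + 3)) * α (dist (x i) (x j)) := by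
        field_simp
      rw [h2]
      apply mul_le_mul_of_nonneg_right _ (hα _)
      refine le_trans ?_ h1
      have : (ℓ : ℝ) ^ 2 * (2 * dist (x i) (x j) + 3) ≤ ℓ ^ 2 * (2 * r + 3) := by gcongr
      linarith
  rw [le_div_iff₀ (by positivity)]
  rw [← Finset.sum_div]
  have h3 : (1 - (2 * r + 3) / ℓ) * A α x * ℓ ^ 3 =
      (∑ i, ∑ j, (1 - (2 * r + 3) / ℓ) * α (dist (x i) (x j)) * ℓ ^ 3) / 2 := by
    simp only [A, SS, ← Finset.mul_sum, ← Finset.sum_mul]
    ring
  rw [h3]
  have h4 : ∑ z : Fin 3 → Fin ℓ, SC α ℓ (fun k => ((z k : ℕ) : ℝ)) x =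
      ∑ i, ∑ j, ∑ z : Fin 3 → Fin ℓ, if cell ℓ (fun k => ((z k : ℕ) : ℝ)) (x i) =
        cell ℓ (fun k => ((z k : ℕ) : ℝ)) (x j) then α (dist (x i) (x j)) else 0 := by
    simp only [SC]
    rw [Finset.sum_comm]
    apply Finset.sum_congr rfl
    intro i _
    rw [Finset.sum_comm]
  rw [h4]
  apply div_le_div_of_nonneg_right _ (by norm_num)
  exact Finset.sum_le_sum (fun i _ => Finset.sum_le_sum (fun j _ => key i j))

/-! ### overlaps of balls -/

/-- overlap volume of two balls of radius `R` -/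
noncomputable def ov (R : ℝ) (x y : Pt) : ℝ :=
  volume.real (Metric.closedBall x R ∩ Metric.closedBall y R)

theorem vB_nonneg (R : ℝ) : 0 ≤ vB R := ENNReal.toReal_nonneg

theorem vB_eq_closedBall (R : ℝ) (x : Pt) : volume.real (Metric.closedBall x R) = vB R := by
  rw [vB, Measure.real, Measure.addHaar_closedBall_center]

theorem ov_le (R : ℝ) (x y : Pt) : ov R x y ≤ vB R := by
  rw [← vB_eq_closedBall R x]
  exact measureReal_mono Set.inter_subset_left measure_closedBall_lt_top.ne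

section counting

variable {ι : Type} [Fintype ι]

/-- number of particles at distance `≤ R` from `z` -/
noncomputable def cnt (R : ℝ) (x : ι → Pt) (z : Pt) : ℝ :=
  ∑ i, (Metric.closedBall (x i) R).indicator (fun _ => (1 : ℝ)) z

theorem integrable_ind (R : ℝ) (x : Pt) :
    Integrable ((Metric.closedBall x R).indicator (fun _ => (1 : ℝ))) (volume : Measure Pt) := by
  rw [integrable_indicator_iff Metric.isClosed_closedBall.measurableSet]
  exact integrableOn_const measure_closedBall_lt_top.ne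

theorem integral_cnt (R : ℝ) (x : ι → Pt) : ∫ z, cnt R x z = Fintype.card ι * vB R := by
  unfold cnt
  rw [integral_finsetSum _ (fun i _ => integrable_ind R (x i))]
  simp only [integral_indicator_const _ Metric.isClosed_closedBall.measurableSet, vB_eq_closedBall,
    smul_eq_mul, mul_one, Finset.sum_const, Finset.card_univ, nsmul_eq_mul]

theorem integrable_cnt (R : ℝ) (x : ι → Pt) : Integrable (cnt R x) :=
  integrable_finsetSum _ (fun i _ => integrable_ind R (x i))

theorem cnt_sq (R : ℝ) (x : ι → Pt) (z : Pt) :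
    cnt R x z ^ 2 = ∑ i, ∑ j, (Metric.closedBall (x i) R ∩ Metric.closedBall (x j) R).indicator
      (fun _ => (1 : ℝ)) z := by
  rw [cnt, sq, Finset.sum_mul_sum]
  apply Finset.sum_congr rfl
  intro i _
  apply Finset.sum_congr rfl
  intro j _
  by_cases h1 : z ∈ Metric.closedBall (x i) R
  · by_cases h2 : z ∈ Metric.closedBall (x j) R
    · have h3 : z ∈ Metric.closedBall (x i) R ∩ Metric.closedBall (x j) R := ⟨h1, h2⟩
      rw [Set.indicator_of_mem h1, Set.indicator_of_mem h2, Set.indicator_of_mem h3, one_mul]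
    · have h3 : z ∉ Metric.closedBall (x i) R ∩ Metric.closedBall (x j) R := fun h => h2 h.2
      rw [Set.indicator_of_notMem h2, Set.indicator_of_notMem h3, mul_zero]
  · have h3 : z ∉ Metric.closedBall (x i) R ∩ Metric.closedBall (x j) R := fun h => h1 h.1
    rw [Set.indicator_of_notMem h1, Set.indicator_of_notMem h3, zero_mul]

theorem integrable_ind_inter (R : ℝ) (x y : Pt) :
    Integrable ((Metric.closedBall x R ∩ Metric.closedBall y R).indicator (fun _ => (1 : ℝ)))
      (volume : Measure Pt) := by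
  rw [integrable_indicator_iff (Metric.isClosed_closedBall.measurableSet.inter
    Metric.isClosed_closedBall.measurableSet)]
  exact integrableOn_const
    ((measure_mono Set.inter_subset_left).trans_lt measure_closedBall_lt_top).ne

theorem integrable_cnt_sq (R : ℝ) (x : ι → Pt) :
    Integrable (fun z => cnt R x z ^ 2) := by
  simp only [cnt_sq]
  exact integrable_finsetSum _ (fun i _ => integrable_finsetSum _
    (fun j _ => integrable_ind_inter R (x i) (x j)))

theorem sum_ov_eq (R : ℝ) (x : ι → Pt) :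
    ∑ i, ∑ j, ov R (x i) (x j) = ∫ z, cnt R x z ^ 2 := by
  simp only [cnt_sq]
  rw [integral_finsetSum _ (fun i _ => integrable_finsetSum _
    (fun j _ => integrable_ind_inter R (x i) (x j)))]
  apply Finset.sum_congr rfl
  intro i _
  rw [integral_finsetSum _ (fun j _ => integrable_ind_inter R (x i) (x j))]
  apply Finset.sum_congr rfl
  intro j _
  rw [integral_indicator_const _ (Metric.isClosed_closedBall.measurableSet.inter
    Metric.isClosed_closedBall.measurableSet), smul_eq_mul, mul_one, ov]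

end counting

/-! ### boxes -/

theorem volume_pi_box (s : Fin 3 → Set ℝ) :
    volume {z : Pt | ∀ k, z k ∈ s k} = ∏ k, volume (s k) := by
  have h1 : {z : Pt | ∀ k, z k ∈ s k} =
      (WithLp.ofLp : Pt → (Fin 3 → ℝ)) ⁻¹' (Set.pi Set.univ s) := by
    ext z; simp
  have h2 := (EuclideanSpace.volume_preserving_symm_measurableEquiv_toLp
    (Fin 3)).measure_preimage_equiv (Set.univ.pi s)
  rw [h1, ← volume_pi_pi s, ← h2]
  rfl

/-- half-open box -/
def box (b : ℝ) (s : Fin 3 → ℝ) (c : Fin 3 → ℤ) : Set Pt :=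
  {z | ∀ k, z k ∈ Set.Ico (b * c k - s k) (b * c k - s k + b)}

theorem volume_box (b : ℝ) (s : Fin 3 → ℝ) (hb : 0 ≤ b) (c : Fin 3 → ℤ) :
    volume.real (box b s c) = b ^ 3 := by
  rw [box, Measure.real, volume_pi_box]
  simp only [Real.volume_Ico, add_sub_cancel_left, Finset.prod_const, Finset.card_univ,
    Fintype.card_fin, ENNReal.toReal_pow, ENNReal.toReal_ofReal hb]

theorem volume_box_ne_top (b : ℝ) (s : Fin 3 → ℝ) (c : Fin 3 → ℤ) : volume (box b s c) ≠ ⊤ := by
  rw [box, volume_pi_box]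
  simp only [Real.volume_Ico]
  exact ENNReal.prod_ne_top (fun _ _ => ENNReal.ofReal_ne_top)

theorem mem_box_cell (b : ℝ) (s : Fin 3 → ℝ) (hb : 0 < b) (y : Pt) : y ∈ box b s (cell b s y) := by
  intro k
  rw [cell, Set.mem_Ico]
  have h1 := Int.floor_le ((y k + s k) / b)
  have h2 := Int.lt_floor_add_one ((y k + s k) / b)
  rw [le_div_iff₀ hb] at h1
  rw [div_lt_iff₀ hb] at h2
  constructor <;> linarith

theorem cell_eq_of_mem_box (b : ℝ) (s : Fin 3 → ℝ) (hb : 0 < b) (y : Pt) (c : Fin 3 → ℤ)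
    (hy : y ∈ box b s c) : cell b s y = c := by
  funext k
  rw [cell, Int.floor_eq_iff]
  have := hy k
  rw [Set.mem_Ico] at this
  rw [le_div_iff₀ hb, div_lt_iff₀ hb]
  constructor <;> linarith

theorem dist_le_of_mem_box (b : ℝ) (s : Fin 3 → ℝ) (hb : 0 < b) (y z : Pt) (c : Fin 3 → ℤ)
    (hy : y ∈ box b s c) (hz : z ∈ box b s c) : dist y z ≤ 2 * b := by
  rw [EuclideanSpace.dist_eq]
  apply Real.sqrt_le_iff.mpr
  refine ⟨by positivity, ?_⟩
  have h : ∀ k : Fin 3, dist (y k) (z k) ^ 2 ≤ b ^ 2 := by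
    intro k
    have h1 := hy k
    have h2 := hz k
    rw [Set.mem_Ico] at h1 h2
    rw [Real.dist_eq, sq_abs]
    apply sq_le_sq'
    · linarith
    · linarith
  calc ∑ k : Fin 3, dist (y k) (z k) ^ 2 ≤ ∑ k : Fin 3, b ^ 2 := Finset.sum_le_sum (fun k _ => h k)
    _ = 3 * b ^ 2 := by
      rw [Finset.sum_const, Finset.card_univ, Fintype.card_fin, nsmul_eq_mul]; norm_num
    _ ≤ (2 * b) ^ 2 := by nlinarith [sq_nonneg b]

theorem measurableSet_box (b : ℝ) (s : Fin 3 → ℝ) (c : Fin 3 → ℤ) : MeasurableSet (box b s c) := by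
  have : box b s c = ⋂ k : Fin 3, {z : Pt | z k ∈ Set.Ico (b * c k - s k) (b * c k - s k + b)} := by
    ext z; simp [box]
  rw [this]
  apply MeasurableSet.iInter
  intro k
  have hm : Measurable (fun z : Pt => z k) := by fun_prop
  exact hm measurableSet_Ico

section bounds

variable {ι : Type} [Fintype ι]

/-! ### the lower bound (Cauchy-Schwarz) -/

theorem cnt_eq_zero (R : ℝ) (x : ι → Pt) (z : Pt)
    (h : ∀ i, z ∉ Metric.closedBall (x i) R) : cnt R x z = 0 := by
  rw [cnt]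
  apply Finset.sum_eq_zero
  intro i _
  exact Set.indicator_of_notMem (h i) _

theorem U_det (R L : ℝ) (hR : 0 ≤ R) (hL : 0 ≤ L) (x : ι → Pt)
    (hx : ∀ i, x i ∈ cube L) :
    (Fintype.card ι * vB R) ^ 2 ≤ (L + 2 * R) ^ 3 * ∑ i, ∑ j, ov R (x i) (x j) := by
  rw [sum_ov_eq]
  set K : Set Pt := {z | ∀ k, z k ∈ Set.Icc (-R) (L + R)} with hK
  have hKm : MeasurableSet K := by
    have : K = ⋂ k : Fin 3, {z : Pt | z k ∈ Set.Icc (-R) (L + R)} := by
      ext z; simp [K]
    rw [this]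
    apply MeasurableSet.iInter
    intro k
    have hm : Measurable (fun z : Pt => z k) := by fun_prop
    exact hm measurableSet_Icc
  have hKvol : volume.real K = (L + 2 * R) ^ 3 := by
    rw [Measure.real, volume_pi_box]
    simp only [Real.volume_Icc, Finset.prod_const, Finset.card_univ,
      Fintype.card_fin, ENNReal.toReal_pow]
    rw [ENNReal.toReal_ofReal (by linarith)]
    ring
  have hKfin : volume K ≠ ⊤ := by
    rw [volume_pi_box]
    simp only [Real.volume_Icc, Finset.prod_const]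
    exact ENNReal.pow_ne_top ENNReal.ofReal_ne_top
  have hsupp : ∀ z, z ∉ K → cnt R x z = 0 := by
    intro z hz
    apply cnt_eq_zero
    intro i hi
    apply hz
    intro k
    rw [Metric.mem_closedBall] at hi
    have h1 := abs_coord_sub_le_dist z (x i) k
    have h2 := hx i k
    rw [abs_le] at h1
    rw [Set.mem_Icc]
    constructor <;> linarith [h1.1, h1.2, h2.1, h2.2]
  have h1 : ∫ z in K, cnt R x z = Fintype.card ι * vB R := by
    rw [setIntegral_eq_integral_of_forall_compl_eq_zero hsupp, integral_cnt]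
  have h2 : ∫ z in K, cnt R x z ^ 2 = ∫ z, cnt R x z ^ 2 :=
    setIntegral_eq_integral_of_forall_compl_eq_zero (fun z hz => by rw [hsupp z hz]; simp)
  set W : ℝ := (L + 2 * R) ^ 3 with hW
  set I2 : ℝ := ∫ z, cnt R x z ^ 2 with hI2
  set I1 : ℝ := Fintype.card ι * vB R with hI1
  have hW0 : 0 ≤ W := by positivity
  have key : ∀ m : ℝ, 0 ≤ I2 - 2 * m * I1 + m ^ 2 * W := by
    intro m
    have h3 : 0 ≤ ∫ z in K, (cnt R x z - m) ^ 2 := by
      apply integral_nonneg
      intro z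
      positivity
    have h4 : ∫ z in K, (cnt R x z - m) ^ 2 = I2 - 2 * m * I1 + m ^ 2 * W := by
      have h5 : ∀ z, (cnt R x z - m) ^ 2 = (cnt R x z ^ 2 - 2 * m * cnt R x z) + m ^ 2 := by
        intro z; ring
      simp only [h5]
      rw [integral_add, integral_sub, integral_const_mul, h1, h2, setIntegral_const, hKvol,
        smul_eq_mul]
      · ring
      · exact (integrable_cnt_sq R x).integrableOn
      · exact ((integrable_cnt R x).const_mul _).integrableOn
      · exact ((integrable_cnt_sq R x).integrableOn).sub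
          ((integrable_cnt R x).const_mul _).integrableOn
      · exact integrableOn_const hKfin
    rw [h4] at h3
    exact h3
  have hdisc := discrim_le_zero (a := W) (b := -2 * I1) (c := I2)
    (fun m => by have := key m; nlinarith)
  rw [discrim] at hdisc
  nlinarith

/-! ### the upper bound by blocks -/

open Classical in
theorem card_image_cell_le (R b : ℝ) (s : Fin 3 → ℝ) (hb : 0 < b) (x : ι → Pt) (z : Pt) :
    (((Finset.univ.filter (fun i => z ∈ Metric.closedBall (x i) R)).image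
      (fun i => cell b s (x i))).card : ℝ) * b ^ 3 ≤ vB (R + 2 * b) := by
  set T := (Finset.univ.filter (fun i => z ∈ Metric.closedBall (x i) R)).image
      (fun i => cell b s (x i)) with hT
  have h1 : volume.real (⋃ c ∈ T, box b s c) = T.card * b ^ 3 := by
    rw [measureReal_biUnion_finset _ _ (fun c _ => volume_box_ne_top b s c)]
    · simp only [volume_box b s hb.le, Finset.sum_const, nsmul_eq_mul]
    · intro c _ c' _ hcc
      apply Set.disjoint_left.mpr
      intro y hy hy'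
      exact hcc ((cell_eq_of_mem_box b s hb y c hy).symm.trans (cell_eq_of_mem_box b s hb y c' hy'))
    · intro c _
      exact measurableSet_box b s c
  rw [← h1, ← vB_eq_closedBall _ z]
  apply measureReal_mono _ measure_closedBall_lt_top.ne
  intro y hy
  simp only [Set.mem_iUnion] at hy
  obtain ⟨c, hc, hy⟩ := hy
  rw [hT, Finset.mem_image] at hc
  obtain ⟨i, hi, rfl⟩ := hc
  rw [Finset.mem_filter, Metric.mem_closedBall] at hi
  have h2 := dist_le_of_mem_box b s hb y (x i) _ hy (mem_box_cell b s hb (x i))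
  have h3 := dist_triangle y (x i) z
  rw [Metric.mem_closedBall]
  have h4 : dist (x i) z ≤ R := by rw [dist_comm]; exact hi.2
  linarith

theorem sum_sq_card_fiber {ι κ : Type*} [DecidableEq κ] (S : Finset ι) (f : ι → κ) :
    ∑ c ∈ S.image f, ((S.filter (fun i => f i = c)).card : ℝ) ^ 2 =
      ∑ i ∈ S, ∑ j ∈ S, if f i = f j then (1 : ℝ) else 0 := by
  rw [← Finset.sum_fiberwise_of_maps_to (s := S) (t := S.image f) (g := f)
    (fun i hi => Finset.mem_image_of_mem f hi)]
  apply Finset.sum_congr rfl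
  intro c _
  have h1 : ∀ i ∈ S.filter (fun i => f i = c),
      (∑ j ∈ S, if f i = f j then (1 : ℝ) else 0) = ((S.filter (fun i => f i = c)).card : ℝ) := by
    intro i hi
    rw [Finset.mem_filter] at hi
    rw [← Finset.sum_filter, Finset.sum_const, nsmul_eq_mul, mul_one]
    congr 2
    apply Finset.filter_congr
    intro j _
    rw [hi.2, eq_comm]
  rw [Finset.sum_congr rfl h1, Finset.sum_const, nsmul_eq_mul, sq]

open Classical in
theorem cnt_sq_le (R b : ℝ) (s : Fin 3 → ℝ) (hb : 0 < b) (x : ι → Pt) (z : Pt) :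
    cnt R x z ^ 2 * b ^ 3 ≤ vB (R + 2 * b) * ∑ i, ∑ j, if cell b s (x i) = cell b s (x j) then
      (Metric.closedBall (x i) R ∩ Metric.closedBall (x j) R).indicator (fun _ => (1 : ℝ)) z
      else 0 := by
  set S := Finset.univ.filter (fun i => z ∈ Metric.closedBall (x i) R) with hS
  set T := S.image (fun i => cell b s (x i)) with hT
  have h1 : cnt R x z = S.card := by
    rw [cnt, hS, Finset.card_eq_sum_ones, Finset.sum_filter]
    push_cast
    apply Finset.sum_congr rfl
    intro i _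
    by_cases h : z ∈ Metric.closedBall (x i) R
    · rw [Set.indicator_of_mem h, if_pos h]
    · rw [Set.indicator_of_notMem h, if_neg h]
  have h2 : (∑ i, ∑ j, if cell b s (x i) = cell b s (x j) then
      (Metric.closedBall (x i) R ∩ Metric.closedBall (x j) R).indicator (fun _ => (1 : ℝ)) z
      else 0) = ∑ c ∈ T, ((S.filter (fun i => cell b s (x i) = c)).card : ℝ) ^ 2 := by
    rw [hT, sum_sq_card_fiber S (fun i => cell b s (x i)), hS, Finset.sum_filter]
    apply Finset.sum_congr rfl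
    intro i _
    by_cases hi : z ∈ Metric.closedBall (x i) R
    · rw [if_pos hi, Finset.sum_filter]
      apply Finset.sum_congr rfl
      intro j _
      by_cases hj : z ∈ Metric.closedBall (x j) R
      · have h3 : z ∈ Metric.closedBall (x i) R ∩ Metric.closedBall (x j) R := ⟨hi, hj⟩
        rw [if_pos hj, Set.indicator_of_mem h3]
      · have h3 : z ∉ Metric.closedBall (x i) R ∩ Metric.closedBall (x j) R := fun h => hj h.2
        rw [if_neg hj, Set.indicator_of_notMem h3, ite_self]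
    · rw [if_neg hi]
      apply Finset.sum_eq_zero
      intro j _
      have h3 : z ∉ Metric.closedBall (x i) R ∩ Metric.closedBall (x j) R := fun h => hi h.1
      rw [Set.indicator_of_notMem h3, ite_self]
  have h3 : (S.card : ℝ) = ∑ c ∈ T, ((S.filter (fun i => cell b s (x i) = c)).card : ℝ) := by
    have := Finset.card_eq_sum_card_image (fun i => cell b s (x i)) S
    exact_mod_cast this
  have h4 := card_image_cell_le R b s hb x z
  rw [h1, h2, h3]
  have h5 := sq_sum_le_card_mul_sum_sq (s := T)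
    (f := fun c => ((S.filter (fun i => cell b s (x i) = c)).card : ℝ))
  have h6 : (0 : ℝ) ≤ ∑ c ∈ T, ((S.filter (fun i => cell b s (x i) = c)).card : ℝ) ^ 2 :=
    Finset.sum_nonneg (fun _ _ => sq_nonneg _)
  generalize (∑ c ∈ T, ((S.filter (fun i => cell b s (x i) = c)).card : ℝ)) = A at h5 ⊢
  generalize (∑ c ∈ T, ((S.filter (fun i => cell b s (x i) = c)).card : ℝ) ^ 2) = B at h5 h6 ⊢
  have hb3 : (0 : ℝ) ≤ b ^ 3 := by positivity
  have h7 : A ^ 2 * b ^ 3 ≤ ((T.card : ℝ) * B) * b ^ 3 := mul_le_mul_of_nonneg_right h5 hb3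
  have h8 : ((T.card : ℝ) * b ^ 3) * B ≤ vB (R + 2 * b) * B := mul_le_mul_of_nonneg_right h4 h6
  calc A ^ 2 * b ^ 3 ≤ ((T.card : ℝ) * B) * b ^ 3 := h7
    _ = ((T.card : ℝ) * b ^ 3) * B := by ring
    _ ≤ vB (R + 2 * b) * B := h8

theorem L_det (R b : ℝ) (s : Fin 3 → ℝ) (hb : 0 < b) (x : ι → Pt) :
    (∑ i, ∑ j, ov R (x i) (x j)) * b ^ 3 ≤ vB (R + 2 * b) * vB R * N2 b s x := by
  rw [sum_ov_eq, ← integral_mul_const]
  have hint : ∀ i j : ι, Integrable (fun z : Pt => if cell b s (x i) = cell b s (x j) then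
      (Metric.closedBall (x i) R ∩ Metric.closedBall (x j) R).indicator (fun _ => (1 : ℝ)) z
      else 0) := by
    intro i j
    by_cases h : cell b s (x i) = cell b s (x j)
    · simp only [h, if_true]
      exact integrable_ind_inter R (x i) (x j)
    · simp only [h, if_false]
      exact integrable_zero _ _ _
  have h1 : ∫ z, cnt R x z ^ 2 * b ^ 3 ≤
      ∫ z, vB (R + 2 * b) * ∑ i, ∑ j, if cell b s (x i) = cell b s (x j) then
      (Metric.closedBall (x i) R ∩ Metric.closedBall (x j) R).indicator (fun _ => (1 : ℝ)) z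
      else 0 := by
    apply integral_mono
    · exact (integrable_cnt_sq R x).mul_const _
    · exact (integrable_finsetSum _ (fun i _ => integrable_finsetSum _
        (fun j _ => hint i j))).const_mul _
    · intro z
      exact cnt_sq_le R b s hb x z
  refine h1.trans ?_
  rw [integral_const_mul, mul_assoc]
  apply mul_le_mul_of_nonneg_left _ (vB_nonneg _)
  rw [integral_finsetSum _ (fun i _ => integrable_finsetSum _ (fun j _ => hint i j)), N2,
    Finset.mul_sum]
  apply Finset.sum_le_sum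
  intro i _
  rw [integral_finsetSum _ (fun j _ => hint i j), Finset.mul_sum]
  apply Finset.sum_le_sum
  intro j _
  by_cases h : cell b s (x i) = cell b s (x j)
  · simp only [h, if_true, mul_one]
    rw [integral_indicator_const _ (Metric.isClosed_closedBall.measurableSet.inter
      Metric.isClosed_closedBall.measurableSet), smul_eq_mul, mul_one]
    exact ov_le R (x i) (x j)
  · simp only [h, if_false, mul_zero, integral_zero, le_refl]

theorem SS_wk (hK : KernelProps) (R : ℝ) (hR : 0 < R) (x : ι → Pt) :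
    SS (wk R) x = (∑ i, ∑ j, ov R (x i) (x j)) / vB R ^ 2 := by
  rw [SS, Finset.sum_div]
  apply Finset.sum_congr rfl
  intro i _
  rw [Finset.sum_div]
  apply Finset.sum_congr rfl
  intro j _
  rw [hK.dist R hR, ov, Measure.real]

end bounds

theorem e1 (hK : KernelProps) : E1Stmt := by
  intro R L hR hL ι _ x hx
  have h1 := U_det R L hR.le hL x hx
  have hV := hK.vB_pos R hR
  rw [A, SS_wk hK R hR]
  set S := ∑ i, ∑ j, ov R (x i) (x j)
  have hLR : 0 < (L + 2 * R) ^ 3 := by positivity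
  rw [div_div, div_le_div_iff₀ (by positivity) (by positivity)]
  nlinarith

theorem e2 (hK : KernelProps) : E2Stmt := by
  intro R s z hR hs ι _ x
  have h1 := L_det R s z hs x
  have hV := hK.vB_pos R hR
  have hV1 := hK.vB_pos 1 one_pos
  have hN2 : 0 ≤ N2 s z x := by
    rw [N2]
    exact Finset.sum_nonneg (fun i _ => Finset.sum_nonneg (fun j _ => by positivity))
  rw [A, SS_wk hK R hR]
  set S := ∑ i, ∑ j, ov R (x i) (x j)
  have h2 : vB (R + 2 * s) = (1 + 2 * s / R) ^ 3 * vB R := by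
    rw [hK.vB_scale (R + 2 * s) (by positivity), hK.vB_scale R hR.le]
    field_simp
  have h3 : S ≤ (1 + 2 * s / R) ^ 3 * vB R ^ 2 / s ^ 3 * N2 s z x := by
    rw [h2] at h1
    rw [div_mul_eq_mul_div, le_div_iff₀ (by positivity)]
    calc S * s ^ 3 ≤ _ := h1
      _ = _ := by ring
  have h4 : (1 : ℝ) ≤ (1 + 2 * s / R) ^ 3 := by
    apply one_le_pow₀
    have : 0 ≤ 2 * s / R := by positivity
    linarith
  have h5 : (1 + 2 * s / R) ^ 3 ≤ (1 + 2 * s / R) ^ 6 := by
    have : (1 + 2 * s / R) ^ 6 = (1 + 2 * s / R) ^ 3 * (1 + 2 * s / R) ^ 3 := by ring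
    rw [this]
    nlinarith
  calc S / vB R ^ 2 / 2 ≤ ((1 + 2 * s / R) ^ 3 * vB R ^ 2 / s ^ 3 * N2 s z x) / vB R ^ 2 / 2 := by
        gcongr
    _ = (1 + 2 * s / R) ^ 3 / (2 * s ^ 3) * N2 s z x := by
        field_simp
    _ ≤ (1 + 2 * s / R) ^ 6 / (2 * s ^ 3) * N2 s z x := by
        gcongr

end Crest.Agent.R149.Attraction
end

-- ▼ part R149/SuperStab
section

/-!
# Row 149: superstability from Turán's theorem
-/

set_option autoImplicit false

open MeasureTheory Crest.ProbabilityR.Continuum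

namespace Crest.Agent.R149.SuperStab

/-- Turán bound: at most `(K-1) n^2 / K` ordered edges. -/
theorem turan_bound {V : Type*} [Fintype V] (G : SimpleGraph V) [DecidableRel G.Adj] {K : ℕ}
    (hK : 1 ≤ K) (cf : G.CliqueFree (K + 1)) :
    2 * K * G.edgeFinset.card ≤ (K - 1) * Fintype.card V ^ 2 := by
  classical
  obtain ⟨H, _, maxH⟩ := SimpleGraph.exists_isTuranMaximal (V := V) hK
  have h1 : G.edgeFinset.card ≤ H.edgeFinset.card := maxH.2 cf
  have h2 := ((SimpleGraph.isTuranMaximal_iff_nonempty_iso_turanGraph hK).mp maxH).some.card_edgeFinset_eq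
  have h3 := SimpleGraph.mul_card_edgeFinset_turanGraph_le (n := Fintype.card V) (r := K)
  calc 2 * K * G.edgeFinset.card ≤ 2 * K * H.edgeFinset.card := Nat.mul_le_mul_left _ h1
    _ = 2 * K * (SimpleGraph.turanGraph (Fintype.card V) K).edgeFinset.card := by rw [h2]
    _ ≤ _ := h3

/-- number of ordered adjacent pairs -/
theorem sum_adj {V : Type*} [Fintype V] [DecidableEq V] (G : SimpleGraph V) [DecidableRel G.Adj] :
    (∑ i : V, ∑ j : V, if G.Adj i j then (1 : ℝ) else 0) = 2 * G.edgeFinset.card := by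
  have h := G.sum_degrees_eq_twice_card_edges
  have h2 : ∀ i : V, (∑ j : V, if G.Adj i j then (1 : ℝ) else 0) = G.degree i := by
    intro i
    rw [Finset.sum_boole, ← SimpleGraph.card_neighborFinset_eq_degree]
    congr 2
    ext j
    simp
  simp only [h2]
  exact_mod_cast h

theorem local_bound {V : Type*} [Fintype V] [DecidableEq V] {c : ℝ → ℝ} {K : ℕ} {M : ℝ}
    (hc : ∀ t, 0 ≤ c t) (hK : 1 ≤ K) (hM : 0 ≤ M) (h : CoreK c K M) (y : V → Pt)
    (hy : ∀ i j, dist (y i) (y j) < 1) :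
    M * ((Fintype.card V : ℝ) ^ 2 / K - Fintype.card V)
      ≤ ∑ i : V, ∑ j : V, if i = j then 0 else c (dist (y i) (y j)) := by
  classical
  -- good graph
  let G : SimpleGraph V :=
    { Adj := fun i j => i ≠ j ∧ c (dist (y i) (y j)) < M
      symm := ⟨fun i j hij => ⟨hij.1.symm, by rw [dist_comm]; exact hij.2⟩⟩
      loopless := ⟨fun i hi => hi.1 rfl⟩ }
  have cf : G.CliqueFree (K + 1) := by
    rw [SimpleGraph.cliqueFree_iff]
    refine ⟨fun f => ?_⟩
    obtain ⟨i, j, hij, hM'⟩ := h (fun i => y (f i)) (fun i j => hy _ _)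
    have hadj : G.Adj (f i) (f j) := f.toHom.map_adj (by simpa using hij)
    exact absurd hM' (not_le.2 hadj.2)
  have h1 := turan_bound G hK cf
  have h2 := sum_adj G
  have hterm : ∀ i j : V, M * ((if i = j then (0 : ℝ) else 1) - if G.Adj i j then (1 : ℝ) else 0)
      ≤ if i = j then 0 else c (dist (y i) (y j)) := by
    intro i j
    by_cases hij : i = j
    · subst hij
      simp
    · by_cases hadj : G.Adj i j
      · simp [hij, hadj, hc]
      · have : M ≤ c (dist (y i) (y j)) := by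
          by_contra hlt
          exact hadj ⟨hij, not_le.1 hlt⟩
        simpa [hij, hadj] using this
  refine le_trans ?_ (Finset.sum_le_sum fun i _ => Finset.sum_le_sum fun j _ => hterm i j)
  simp only [← Finset.mul_sum, Finset.sum_sub_distrib]
  refine mul_le_mul_of_nonneg_left ?_ hM
  rw [h2]
  have h3 : (∑ i : V, ∑ j : V, if i = j then (0 : ℝ) else 1)
      = (Fintype.card V : ℝ) ^ 2 - Fintype.card V := by
    have : ∀ i j : V, (if i = j then (0 : ℝ) else 1) = 1 - if i = j then (1 : ℝ) else 0 := by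
      intro i j; split_ifs <;> simp
    simp only [this, Finset.sum_sub_distrib]
    simp [sq]
  rw [h3]
  have hK0 : (0 : ℝ) < K := by exact_mod_cast hK
  have h4 : 2 * (K : ℝ) * G.edgeFinset.card ≤ (K - 1) * (Fintype.card V : ℝ) ^ 2 := by
    have : ((2 * K * G.edgeFinset.card : ℕ) : ℝ) ≤ (((K - 1) * Fintype.card V ^ 2 : ℕ) : ℝ) := by
      exact_mod_cast h1
    push_cast [Nat.cast_sub hK] at this
    simpa using this
  have h5 : (Fintype.card V : ℝ) ^ 2 / K * K = (Fintype.card V : ℝ) ^ 2 := by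
    field_simp
  nlinarith [h4, h5, hK0]

theorem dist_lt_one_of_cell {x y : Pt} (h : cell (1 / 2) 0 x = cell (1 / 2) 0 y) :
    dist x y < 1 := by
  have hk : ∀ k, |x k - y k| < 1 / 2 := by
    intro k
    have hc := congrFun h k
    simp only [cell, Pi.zero_apply, add_zero] at hc
    have h1 := Int.abs_sub_lt_one_of_floor_eq_floor hc
    have h2 : x k / (1 / 2) - y k / (1 / 2) = 2 * (x k - y k) := by ring
    rw [h2, abs_mul, abs_of_pos (by norm_num : (0:ℝ) < 2)] at h1
    linarith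
  rw [EuclideanSpace.dist_eq, Real.sqrt_lt' (by norm_num)]
  have h3 : ∀ k, dist (x k) (y k) ^ 2 ≤ (1 / 2) ^ 2 := by
    intro k
    rw [Real.dist_eq]
    exact pow_le_pow_left₀ (abs_nonneg _) (hk k).le 2
  calc ∑ k, dist (x k) (y k) ^ 2 ≤ ∑ _k : Fin 3, (1 / 2 : ℝ) ^ 2 := Finset.sum_le_sum fun k _ => h3 k
    _ < 1 ^ 2 := by simp; norm_num

theorem U_eq (c : ℝ → ℝ) {ι : Type} [Fintype ι] [DecidableEq ι] (x : ι → Pt) :
    U c x = (∑ i, ∑ j, if i = j then 0 else c (dist (x i) (x j))) / 2 := by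
  unfold U SS
  congr 1
  have : ∀ i j, c (dist (x i) (x j)) = (if i = j then 0 else c (dist (x i) (x j)))
      + if i = j then c 0 else 0 := by
    intro i j
    by_cases h : i = j
    · subst h; simp
    · simp [h]
  have h2 : ∑ i, ∑ j, c (dist (x i) (x j))
      = (∑ i, ∑ j, if i = j then 0 else c (dist (x i) (x j))) + Fintype.card ι * c 0 := by
    calc ∑ i, ∑ j, c (dist (x i) (x j))
        = ∑ i, ∑ j, ((if i = j then 0 else c (dist (x i) (x j))) + if i = j then c 0 else 0) :=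
          Finset.sum_congr rfl fun i _ => Finset.sum_congr rfl fun j _ => this i j
      _ = _ := by
          simp only [Finset.sum_add_distrib]
          simp
  rw [h2]; ring

theorem superStab : SuperStabStmt := by
  classical
  intro c K M hc hK hM h ι _ x
  rw [U_eq]
  set κ : ι → (Fin 3 → ℤ) := fun i => cell (1 / 2) 0 (x i) with hκ
  set S : Finset (Fin 3 → ℤ) := Finset.univ.image κ with hS
  have hmaps : ∀ i ∈ (Finset.univ : Finset ι), κ i ∈ S := fun i hi => Finset.mem_image_of_mem κ hi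
  -- fiberwise decomposition
  have fib : ∀ f : ι → ι → ℝ, (∑ i, ∑ j, if κ i = κ j then f i j else 0)
      = ∑ v ∈ S, ∑ i : {i // κ i = v}, ∑ j : {i // κ i = v}, f i j := by
    intro f
    rw [← Finset.sum_fiberwise_of_maps_to hmaps]
    refine Finset.sum_congr rfl fun v _ => ?_
    rw [← Finset.sum_subtype (Finset.univ.filter fun i => κ i = v) (by intro i; simp)
      (fun i => ∑ j : {i // κ i = v}, f i j)]
    refine Finset.sum_congr rfl fun i hi => ?_
    have hi : κ i = v := (Finset.mem_filter.1 hi).2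
    rw [← Finset.sum_filter, ← Finset.sum_subtype (Finset.univ.filter fun j => κ i = κ j)
      (by intro j; simp [hi, eq_comm]) (fun j => f i j)]
  have hN2 : N2 (1 / 2) 0 x = ∑ v ∈ S, (Fintype.card {i // κ i = v} : ℝ) ^ 2 := by
    unfold N2
    have := fib (fun _ _ => 1)
    refine this.trans (Finset.sum_congr rfl fun v _ => ?_)
    simp [sq]
  have hcard : (Fintype.card ι : ℝ) = ∑ v ∈ S, (Fintype.card {i // κ i = v} : ℝ) := by
    have h1 : ∑ v ∈ S, ∑ i ∈ Finset.univ.filter (fun i => κ i = v), (1 : ℝ) = ∑ i : ι, (1 : ℝ) :=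
      Finset.sum_fiberwise_of_maps_to hmaps _
    have h2 : ∀ v, ∑ i ∈ Finset.univ.filter (fun i => κ i = v), (1 : ℝ)
        = (Fintype.card {i // κ i = v} : ℝ) := by
      intro v
      rw [Fintype.card_subtype]; simp
    simp only [h2] at h1
    rw [h1]; simp
  have hloc : ∀ v ∈ S, M * ((Fintype.card {i // κ i = v} : ℝ) ^ 2 / K - Fintype.card {i // κ i = v})
      ≤ ∑ i : {i // κ i = v}, ∑ j : {i // κ i = v},
        if (i : ι) = j then 0 else c (dist (x i) (x j)) := by
    intro v _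
    refine (local_bound hc hK hM h (fun i : {i // κ i = v} => x i) ?_).trans (le_of_eq ?_)
    · intro i j
      exact dist_lt_one_of_cell (i.2.trans j.2.symm)
    · refine Finset.sum_congr rfl fun i _ => Finset.sum_congr rfl fun j _ => ?_
      simp [Subtype.ext_iff]
  have hsum := Finset.sum_le_sum hloc
  rw [← fib (fun i j => if i = j then 0 else c (dist (x i) (x j)))] at hsum
  have hle : (∑ i, ∑ j, if κ i = κ j then (if i = j then 0 else c (dist (x i) (x j))) else 0)
      ≤ ∑ i, ∑ j, if i = j then 0 else c (dist (x i) (x j)) := by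
    refine Finset.sum_le_sum fun i _ => Finset.sum_le_sum fun j _ => ?_
    by_cases h1 : κ i = κ j
    · simp [h1]
    · simp only [h1, if_false]
      split_ifs
      · exact le_rfl
      · exact hc _
  have h3 := hsum.trans hle
  rw [← Finset.mul_sum, Finset.sum_sub_distrib, ← Finset.sum_div, ← hN2, ← hcard] at h3
  have h4 : M * (N2 (1 / 2) 0 x / (2 * K) - Fintype.card ι / 2)
      = M * (N2 (1 / 2) 0 x / K - Fintype.card ι) / 2 := by
    have hK0 : (0 : ℝ) < K := by exact_mod_cast hK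
    field_simp
  rw [h4]
  linarith

end Crest.Agent.R149.SuperStab
end

-- ▼ part R149/Lim
section

/-!
# Row 149: convergence of the pressures along the scales (`LimStmt`).
-/

set_option autoImplicit false

open MeasureTheory Crest.ProbabilityR.Continuum Filter Topology
open scoped ENNReal

namespace Crest.Agent.R149

namespace LimAux

open PrAux

/-- Comparison of partition sums from a pointwise comparison of the weights. -/
lemma ZF_le_of_le {F G : Fam} {S : Set Pt} {n : ℕ} {κ : ℝ}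
    (h : ∀ x : Fin n → Pt, F (Fin n) x ≤ G (Fin n) x + κ) :
    ZF F S n ≤ ENNReal.ofReal (Real.exp κ) * ZF G S n := by
  unfold ZF
  have h1 : ∫⁻ x in Set.pi Set.univ (fun _ : Fin n => S),
        ENNReal.ofReal (Real.exp (F (Fin n) x)) ≤
      ENNReal.ofReal (Real.exp κ) * ∫⁻ x in Set.pi Set.univ (fun _ : Fin n => S),
        ENNReal.ofReal (Real.exp (G (Fin n) x)) := by
    rw [← lintegral_const_mul' _ _ ENNReal.ofReal_ne_top]
    refine lintegral_mono fun x => ?_
    rw [← ENNReal.ofReal_mul (Real.exp_pos _).le, ← Real.exp_add]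
    refine ENNReal.ofReal_le_ofReal (Real.exp_le_exp.2 ?_)
    linarith [h x]
  calc (n.factorial : ℝ≥0∞)⁻¹ * ∫⁻ x in Set.pi Set.univ (fun _ : Fin n => S),
        ENNReal.ofReal (Real.exp (F (Fin n) x))
      ≤ (n.factorial : ℝ≥0∞)⁻¹ * (ENNReal.ofReal (Real.exp κ) *
          ∫⁻ x in Set.pi Set.univ (fun _ : Fin n => S),
            ENNReal.ofReal (Real.exp (G (Fin n) x))) := by gcongr
    _ = _ := by ring

lemma LZ_le_of_le {c c' α α' : ℝ → ℝ} {β β' L κ : ℝ} {n : ℕ}
    (hpos : 0 < ZF (HF c α β) (cube L) n) (hfin : ZF (HF c' α' β') (cube L) n ≠ ⊤)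
    (h : ∀ x : Fin n → Pt, -β * Ham c α x ≤ -β' * Ham c' α' x + κ) :
    LZ c α β L n ≤ LZ c' α' β' L n + κ := by
  have h1 := ZF_le_of_le (F := HF c α β) (G := HF c' α' β') (S := cube L) (n := n) (κ := κ) h
  have hfin' : ENNReal.ofReal (Real.exp κ) * ZF (HF c' α' β') (cube L) n ≠ ⊤ :=
    ENNReal.mul_ne_top ENNReal.ofReal_ne_top hfin
  have hfin0 : ZF (HF c α β) (cube L) n ≠ ⊤ := ne_top_of_le_ne_top hfin' h1
  have hpos' : 0 < ZF (HF c' α' β') (cube L) n := by
    rcases eq_or_ne (ZF (HF c' α' β') (cube L) n) 0 with h0 | h0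
    · rw [h0, mul_zero] at h1
      exact absurd (lt_of_lt_of_le hpos h1) (lt_irrefl _)
    · exact pos_iff_ne_zero.2 h0
  have h2 := ENNReal.toReal_mono hfin' h1
  rw [ENNReal.toReal_mul, ENNReal.toReal_ofReal (Real.exp_pos _).le] at h2
  have p1 := ENNReal.toReal_pos hpos.ne' hfin0
  have p2 := ENNReal.toReal_pos hpos'.ne' hfin
  unfold LZ
  calc Real.log (ZF (HF c α β) (cube L) n).toReal
      ≤ Real.log (Real.exp κ * (ZF (HF c' α' β') (cube L) n).toReal) := Real.log_le_log p1 h2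
    _ = _ := by
      rw [Real.log_mul (Real.exp_pos _).ne' p2.ne', Real.log_exp]
      ring

/-- Comparison of pressures: if `-β Ham ≤ -β' Ham' + κ n` then `Pr β h ≤ Pr' β' (h + κ)`. -/
lemma Pr_le_of_le {c c' α α' : ℝ → ℝ} {B B' β β' κ : ℝ}
    (hp : LZProps c α B β) (hp' : LZProps c' α' B' β')
    (h : ∀ (n : ℕ) (x : Fin n → Pt), -β * Ham c α x ≤ -β' * Ham c' α' x + κ * n) (t : ℝ) :
    Pr c α β t ≤ Pr c' α' β' (t + κ) := by
  rw [Pr_eq c α β t]
  refine ciSup_le fun q => ?_
  refine le_trans ?_ (prTerm_le_Pr hp' (t + κ) q)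
  unfold prTerm
  have hL : (0 : ℝ) < (q.1 : ℝ) + 1 := by positivity
  have key := LZ_le_of_le (κ := κ * q.2) (hp.pos _ q.2 hL) (hp'.fin _ q.2 hL) (h q.2)
  refine div_le_div_of_nonneg_right ?_ (by positivity)
  nlinarith [key]

lemma A_mono {α α' : ℝ → ℝ} (h : ∀ r, α r ≤ α' r) {ι : Type} [Fintype ι] (x : ι → Pt) :
    A α x ≤ A α' x := by
  unfold A SS
  have : ∑ i, ∑ j, α (dist (x i) (x j)) ≤ ∑ i, ∑ j, α' (dist (x i) (x j)) :=
    Finset.sum_le_sum fun i _ => Finset.sum_le_sum fun j _ => h _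
  linarith


lemma U_nonneg {c : ℝ → ℝ} (h : ∀ r, 0 ≤ c r) {ι : Type} [Fintype ι] (x : ι → Pt) :
    0 ≤ U c x := by
  classical
  unfold U SS
  have : ∑ _i : ι, c 0 ≤ ∑ i, ∑ j, c (dist (x i) (x j)) := by
    refine Finset.sum_le_sum fun i _ => ?_
    have h1 : c (dist (x i) (x i)) ≤ ∑ j, c (dist (x i) (x j)) :=
      Finset.single_le_sum (f := fun j => c (dist (x i) (x j))) (fun j _ => h _)
        (Finset.mem_univ i)
    simpa using h1
  rw [Finset.sum_const, Finset.card_univ, nsmul_eq_mul] at this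
  linarith

/-- Superstability turned into a bound on the sum of squared occupation numbers. -/
lemma N2_le {c : ℝ → ℝ} {K : ℕ} {M : ℝ} (hSS : SuperStabStmt) (hc : ∀ r, 0 ≤ c r) (hK : 1 ≤ K)
    (hM : 0 < M) (hCK : CoreK c K M) {ι : Type} [Fintype ι] (x : ι → Pt) :
    N2 (1 / 2) 0 x ≤ 2 * K / M * U c x + K * Fintype.card ι := by
  have h := hSS c K M hc hK hM.le hCK ι x
  have hK0 : (0 : ℝ) < K := by exact_mod_cast hK
  have h2 : N2 (1 / 2) 0 x / (2 * K) - Fintype.card ι / 2 ≤ U c x / M := by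
    rw [le_div_iff₀ hM]; linarith
  have h3 : N2 (1 / 2) 0 x / (2 * K) ≤ U c x / M + Fintype.card ι / 2 := by linarith
  rw [div_le_iff₀ (by positivity)] at h3
  calc N2 (1 / 2) 0 x ≤ (U c x / M + Fintype.card ι / 2) * (2 * K) := h3
    _ = _ := by ring

/-- Superstability and the attraction bound give stability (with the better constant `1/8`). -/
lemma stab_of_superstab {c α : ℝ → ℝ} {K : ℕ} {M a1 : ℝ} (hSS : SuperStabStmt)
    (hc : ∀ r, 0 ≤ c r) (hK : 1 ≤ K) (ha1 : 0 < a1) (hM : 16 * K * a1 ≤ M) (hCK : CoreK c K M)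
    (hb : ∀ (ι : Type) [Fintype ι] (x : ι → Pt), A α x ≤ a1 * N2 (1 / 2) 0 x) :
    Stab c α (K * a1) := by
  have hK0 : (0 : ℝ) < K := by exact_mod_cast hK
  have hM0 : 0 < M := lt_of_lt_of_le (by positivity) hM
  refine ⟨by positivity, ?_⟩
  intro ι _ x
  have h1 := N2_le hSS hc hK hM0 hCK x
  have h2 := hb ι x
  have hU := U_nonneg hc x
  have h3 : a1 * (2 * K / M) ≤ 1 / 8 := by
    rw [mul_div_assoc', div_le_iff₀ hM0]; linarith
  calc A α x ≤ a1 * N2 (1 / 2) 0 x := h2
    _ ≤ a1 * (2 * K / M * U c x + K * Fintype.card ι) := by gcongr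
    _ = (a1 * (2 * K / M)) * U c x + K * a1 * Fintype.card ι := by ring
    _ ≤ (1 / 4) * U c x + K * a1 * Fintype.card ι := by nlinarith

end LimAux

open LimAux PrAux

theorem lim (hLZ : LZPropsStmt) (hSS : SuperStabStmt) : LimStmt := by
  intro c K M a1 α αi τ hc hK ha1 hM hCK hα hαi _hmono hle hAB hτ hτ0 hA β h hβ
  have hK0 : (0 : ℝ) < K := by exact_mod_cast hK
  have hM0 : 0 < M := lt_of_lt_of_le (by positivity) hM
  set B : ℝ := K * a1 with hB
  have hB0 : 0 < B := by positivity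
  have hsi : Stab c αi B := stab_of_superstab hSS hc.nonneg hK ha1 hM hCK hAB.2
  have hsk : ∀ k, Stab c (α k) B := fun k =>
    stab_of_superstab hSS hc.nonneg hK ha1 hM hCK
      fun ι _ x => (A_mono (hle k) x).trans (hAB.2 ι x)
  have hPi : ∀ β, 0 < β → LZProps c αi B β := fun β hβ => hLZ c αi B β hc hαi hsi hβ
  have hPk : ∀ k β, 0 < β → LZProps c (α k) B β :=
    fun k β hβ => hLZ c (α k) B β hc (hα k) (hsk k) hβ
  -- lower comparison
  have hlow : ∀ k, Pr c (α k) β h ≤ Pr c αi β h := by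
    intro k
    have := Pr_le_of_le (κ := 0) (hPk k β hβ) (hPi β hβ) (fun n x => by
      have h1 := A_mono (hle k) x
      unfold Ham
      nlinarith [mul_le_mul_of_nonneg_left h1 hβ.le]) h
    simpa using this
  -- parameters
  set s : ℕ → ℝ := fun k => 4 * K * τ k / M with hs
  set κ : ℕ → ℝ := fun k => β * s k * B + β * τ k * K with hκ
  have hs0 : ∀ k, 0 ≤ s k := fun k => by
    simp only [hs]; have := hτ k; positivity
  have hκ0 : ∀ k, 0 ≤ κ k := fun k => by
    simp only [hκ]; have := hτ k; have := hs0 k; positivity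
  have hup : ∀ k, s k < 1 → Pr c αi β h ≤ Pr c (α k) (β * (1 - s k)) (h + κ k) := by
    intro k hsk1
    have hβ' : 0 < β * (1 - s k) := mul_pos hβ (by linarith)
    refine Pr_le_of_le (κ := κ k) (hPi β hβ) (hPk k _ hβ') (fun n x => ?_) h
    have h1 := hA k (Fin n) x
    have h2 := N2_le hSS hc.nonneg hK hM0 hCK x
    have h3 := (hsk k).2 (Fin n) x
    have hU := U_nonneg hc.nonneg x
    rw [Fintype.card_fin] at h2 h3
    unfold Ham
    have h4 : τ k * N2 (1 / 2) 0 x ≤ s k / 2 * U c x + τ k * K * n := by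
      calc τ k * N2 (1 / 2) 0 x ≤ τ k * (2 * K / M * U c x + K * n) :=
            mul_le_mul_of_nonneg_left h2 (hτ k)
        _ = _ := by simp only [hs]; ring
    have h5 : s k * A (α k) x ≤ s k * ((1 / 4) * U c x + B * n) :=
      mul_le_mul_of_nonneg_left h3 (hs0 k)
    have h6 : A αi x ≤ (1 - s k) * A (α k) x + s k * U c x + (s k * B + τ k * K) * n := by
      nlinarith [mul_nonneg (hs0 k) hU]
    have h7 := mul_le_mul_of_nonneg_left h6 hβ.le
    simp only [hκ]
    nlinarith [h7]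
  set t : ℕ → ℝ := fun k => 2 * s k + κ k with ht
  have ht0 : ∀ k, 0 ≤ t k := fun k => by simp only [ht]; linarith [hs0 k, hκ0 k]
  have hPp : ∀ k, PrProps c (α k) B := fun k => prProps hLZ c (α k) B hc (hα k) (hsk k)
  have hmain : ∀ k, t k < 1 → Pr c αi β h ≤ Pr c (α k) β h + t k * Real.exp (h + 1 + β * B) := by
    intro k htk
    have hsk1 : s k < 1 := by
      simp only [ht] at htk; linarith [hs0 k, hκ0 k]
    rcases eq_or_lt_of_le (ht0 k) with h0 | h0
    · have e1 : s k = 0 := by simp only [ht] at h0; linarith [hs0 k, hκ0 k]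
      have e2 : κ k = 0 := by simp only [ht] at h0; linarith [hs0 k, hκ0 k]
      have := hup k hsk1
      rw [e1, e2] at this
      rw [← h0]
      simpa using this
    · refine (hup k hsk1).trans ?_
      set βs : ℝ := β - β * s k / t k with hβs
      set hh : ℝ := h + κ k / t k with hhh
      have r1 : s k / t k ≤ 1 / 2 := by
        rw [div_le_iff₀ h0]; simp only [ht]; linarith [hκ0 k]
      have r2 : κ k / t k ≤ 1 := by
        rw [div_le_iff₀ h0]; simp only [ht]; linarith [hs0 k]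
      have r3 : 0 ≤ s k / t k := div_nonneg (hs0 k) h0.le
      have hβs0 : 0 < βs := by
        rw [hβs, mul_div_assoc]; nlinarith
      have hβs1 : βs ≤ β := by
        rw [hβs, mul_div_assoc]; nlinarith
      have m1 : ((β, h) : ℝ × ℝ) ∈ {x : ℝ × ℝ | 0 < x.1} := hβ
      have m2 : ((βs, hh) : ℝ × ℝ) ∈ {x : ℝ × ℝ | 0 < x.1} := hβs0
      have hcv := (hPp k).conv.2 m1 m2 (show (0 : ℝ) ≤ 1 - t k by linarith) h0.le (by ring)
      have e1 : (1 - t k) * β + t k * βs = β * (1 - s k) := by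
        rw [hβs]; field_simp; ring
      have e2 : (1 - t k) * h + t k * hh = h + κ k := by
        rw [hhh]; field_simp; ring
      simp only [Prod.smul_mk, Prod.mk_add_mk, smul_eq_mul] at hcv
      rw [e1, e2] at hcv
      have n1 := (hPp k).nonneg β h hβ
      have n2 := (hPp k).le_exp βs hh hβs0
      have n3 : Real.exp (hh + βs * B) ≤ Real.exp (h + 1 + β * B) := by
        refine Real.exp_le_exp.2 ?_
        have := mul_le_mul_of_nonneg_right hβs1 hB0.le
        rw [hhh]; linarith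
      have n4 := mul_le_mul_of_nonneg_left (n2.trans n3) h0.le
      nlinarith [mul_nonneg h0.le n1]
  have hτs : Tendsto s atTop (𝓝 0) := by
    have : Tendsto (fun k => 4 * K * τ k / M) atTop (𝓝 (4 * K * 0 / M)) :=
      (hτ0.const_mul (4 * (K : ℝ))).div_const M
    simpa [hs] using this
  have hκt : Tendsto κ atTop (𝓝 0) := by
    have : Tendsto (fun k => β * s k * B + β * τ k * K) atTop (𝓝 (β * 0 * B + β * 0 * K)) :=
      ((hτs.const_mul β).mul_const B).add ((hτ0.const_mul β).mul_const (K : ℝ))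
    simpa [hκ] using this
  have htt : Tendsto t atTop (𝓝 0) := by
    have : Tendsto (fun k => 2 * s k + κ k) atTop (𝓝 (2 * 0 + 0)) :=
      (hτs.const_mul 2).add hκt
    simpa [ht] using this
  have hl : Tendsto (fun k => Pr c αi β h - t k * Real.exp (h + 1 + β * B)) atTop
      (𝓝 (Pr c αi β h)) := by
    have : Tendsto (fun k => Pr c αi β h - t k * Real.exp (h + 1 + β * B)) atTop
        (𝓝 (Pr c αi β h - 0 * Real.exp (h + 1 + β * B))) :=
      tendsto_const_nhds.sub (htt.mul_const _)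
    simpa using this
  refine tendsto_of_tendsto_of_tendsto_of_le_of_le' hl tendsto_const_nhds ?_
    (Eventually.of_forall hlow)
  filter_upwards [htt.eventually (gt_mem_nhds (show (0 : ℝ) < 1 by norm_num))] with k hk
  linarith [hmain k hk]

end Crest.Agent.R149
end

-- ▼ part R149/Canon
section

set_option autoImplicit false

/-!
Canonical integrals over product regions and the multi-set product lower bound (row 149).

* `dbl φ x = ∑_{i ≠ j} φ (dist (x i) (x j))` for any finite index type (`two_mul_energy`).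
* `wt φ β x = ENNReal.ofReal (exp (-(β/2) * dbl φ x))` Boltzmann weight.
* `I φ β D = ∫⁻ x in Set.pi univ D, wt φ β x`.
* `ZL φ β A N = (N!)⁻¹ * I φ β (fun _ : Fin N => A)`, `partitionFn_eq : partitionFn φ L N β = (ZL φ β (cube L) N).toReal`.
* `ZL_mul_le : ZL A n * ZL B m ≤ ZL (A ∪ B) (n + m)` (disjoint, non-positive interaction across).
* `prod_ZL_le` the same for a finite family of sets.
-/

namespace Crest.Agent.R149.Canon

open MeasureTheory Crest.ProbabilityR.Continuum
open scoped ENNReal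

/-- off-diagonal double sum of pair energies -/
noncomputable def dbl {ι : Type*} [Fintype ι] (φ : ℝ → ℝ) (x : ι → Pt) : ℝ := by
  classical
  exact ∑ i, ∑ j, if i = j then 0 else φ (dist (x i) (x j))

theorem dbl_def {ι : Type*} [Fintype ι] [DecidableEq ι] (φ : ℝ → ℝ) (x : ι → Pt) :
    dbl φ x = ∑ i, ∑ j, if i = j then 0 else φ (dist (x i) (x j)) := by
  unfold dbl
  refine Finset.sum_congr rfl fun i _ => Finset.sum_congr rfl fun j _ => ?_
  by_cases h : i = j <;> simp [h]




theorem dbl_comp {ι κ : Type*} [Fintype ι] [Fintype κ] (φ : ℝ → ℝ) (e : ι ≃ κ) (x : κ → Pt) :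
    dbl φ (fun i => x (e i)) = dbl φ x := by
  classical
  rw [dbl_def, dbl_def]
  rw [← Equiv.sum_comp e]
  refine Finset.sum_congr rfl fun i _ => ?_
  rw [← Equiv.sum_comp e]
  refine Finset.sum_congr rfl fun j _ => ?_
  simp

theorem dbl_sum {ι κ : Type*} [Fintype ι] [Fintype κ] (φ : ℝ → ℝ) (x : ι ⊕ κ → Pt) :
    dbl φ x = dbl φ (fun i => x (Sum.inl i)) + dbl φ (fun j => x (Sum.inr j))
      + 2 * ∑ i, ∑ j, φ (dist (x (Sum.inl i)) (x (Sum.inr j))) := by
  classical
  rw [dbl_def, dbl_def, dbl_def, Fintype.sum_sum_type]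
  simp only [Fintype.sum_sum_type, Sum.inl.injEq, Sum.inr.injEq, reduceCtorEq, if_false,
    Finset.sum_add_distrib]
  have : ∑ j : κ, ∑ i : ι, φ (dist (x (Sum.inr j)) (x (Sum.inl i)))
      = ∑ i : ι, ∑ j : κ, φ (dist (x (Sum.inl i)) (x (Sum.inr j))) := by
    rw [Finset.sum_comm]
    simp only [dist_comm]
  rw [this]
  ring

/-- Boltzmann weight -/
noncomputable def wt {ι : Type*} [Fintype ι] (φ : ℝ → ℝ) (β : ℝ) (x : ι → Pt) : ℝ≥0∞ :=
  ENNReal.ofReal (Real.exp (-(β / 2) * dbl φ x))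

theorem measurable_dbl {ι : Type*} [Fintype ι] {φ : ℝ → ℝ} (hφ : Measurable φ) :
    Measurable (fun x : ι → Pt => dbl φ x) := by
  classical
  simp only [dbl_def]
  refine Finset.measurable_sum _ fun i _ => Finset.measurable_sum _ fun j _ => ?_
  by_cases h : i = j
  · simp [h]
  · simp only [h, if_false]
    exact hφ.comp ((measurable_pi_apply i).dist (measurable_pi_apply j))

theorem measurable_wt {ι : Type*} [Fintype ι] {φ : ℝ → ℝ} (hφ : Measurable φ) (β : ℝ) :
    Measurable (fun x : ι → Pt => wt φ β x) := by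
  unfold wt
  exact (((measurable_dbl hφ).const_mul _).exp).ennreal_ofReal

/-- integral over a product region -/
noncomputable def I {ι : Type*} [Fintype ι] (φ : ℝ → ℝ) (β : ℝ) (D : ι → Set Pt) : ℝ≥0∞ :=
  ∫⁻ x in Set.pi Set.univ D, wt φ β x

theorem I_comp {ι κ : Type*} [Fintype ι] [Fintype κ] (φ : ℝ → ℝ) (β : ℝ)
    (e : ι ≃ κ) (D : κ → Set Pt) :
    I φ β (fun i => D (e i)) = I φ β D := by
  unfold I
  have h := volume_preserving_arrowCongr' e (MeasurableEquiv.refl Pt)
    (MeasurePreserving.id volume)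
  rw [← h.setLIntegral_comp_preimage_emb (MeasurableEquiv.measurableEmbedding _)]
  have key : ∀ (x : ι → Pt) (i : ι),
      (MeasurableEquiv.arrowCongr' e (MeasurableEquiv.refl Pt)) x (e i) = x i := by
    intro x i
    change (x ∘ e.symm) (e i) = x i
    simp
  have h1 : (MeasurableEquiv.arrowCongr' e (MeasurableEquiv.refl Pt)) ⁻¹' (Set.pi Set.univ D)
      = Set.pi Set.univ (fun i => D (e i)) := by
    ext x
    simp only [Set.mem_preimage, Set.mem_pi, Set.mem_univ, true_imp_iff]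
    constructor
    · intro hx i
      have := hx (e i)
      rwa [key] at this
    · intro hx k
      have := hx (e.symm k)
      rw [← key x (e.symm k)] at this
      simpa only [Equiv.apply_symm_apply] using this
  rw [h1]
  refine lintegral_congr fun x => ?_
  unfold wt
  rw [← dbl_comp φ e]
  simp only [key]

theorem I_sum_ge {ι κ : Type*} [Fintype ι] [Fintype κ] {φ : ℝ → ℝ} (hφ : Measurable φ) {β : ℝ}
    (hβ : 0 ≤ β) (D : ι → Set Pt) (D' : κ → Set Pt)
    (h : ∀ i j, ∀ a ∈ D i, ∀ b ∈ D' j, φ (dist a b) ≤ 0) :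
    I φ β D * I φ β D' ≤ I φ β (Sum.elim D D') := by
  unfold I
  have hm := volume_measurePreserving_sumPiEquivProdPi_symm (fun _ : ι ⊕ κ => Pt)
  rw [← hm.setLIntegral_comp_preimage_emb (MeasurableEquiv.measurableEmbedding _)]
  have h1 : (MeasurableEquiv.sumPiEquivProdPi (fun _ : ι ⊕ κ => Pt)).symm ⁻¹'
      (Set.pi Set.univ (Sum.elim D D'))
      = (Set.pi Set.univ D) ×ˢ (Set.pi Set.univ D') := by
    ext x
    simp only [Set.mem_preimage, Set.mem_pi, Set.mem_univ, true_imp_iff, Set.mem_prod]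
    constructor
    · intro hx
      exact ⟨fun i => hx (Sum.inl i), fun j => hx (Sum.inr j)⟩
    · rintro ⟨hx, hy⟩ (i | j)
      · exact hx i
      · exact hy j
  rw [h1, Measure.volume_eq_prod, ← lintegral_prod_mul
    (measurable_wt hφ β).aemeasurable (measurable_wt hφ β).aemeasurable, Measure.prod_restrict]
  refine setLIntegral_mono
    ((measurable_wt hφ β).comp (MeasurableEquiv.measurable _)) fun z hz => ?_
  have hz1 : ∀ i, z.1 i ∈ D i := fun i => hz.1 i (Set.mem_univ _)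
  have hz2 : ∀ j, z.2 j ∈ D' j := fun j => hz.2 j (Set.mem_univ _)
  unfold wt
  rw [← ENNReal.ofReal_mul (Real.exp_pos _).le, ← Real.exp_add]
  refine ENNReal.ofReal_le_ofReal (Real.exp_le_exp.2 ?_)
  rw [dbl_sum]
  have e1 : ∀ i, (MeasurableEquiv.sumPiEquivProdPi fun _ : ι ⊕ κ => Pt).symm z (Sum.inl i) = z.1 i :=
    fun i => rfl
  have e2 : ∀ j, (MeasurableEquiv.sumPiEquivProdPi fun _ : ι ⊕ κ => Pt).symm z (Sum.inr j) = z.2 j :=
    fun j => rfl
  simp only [e1, e2]
  have h3 : ∑ i, ∑ j, φ (dist (z.1 i) (z.2 j)) ≤ 0 :=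
    Finset.sum_nonpos fun i _ => Finset.sum_nonpos fun j _ => h i j _ (hz1 i) _ (hz2 j)
  nlinarith [mul_nonneg hβ (neg_nonneg.2 h3)]

/-- canonical partition function on an arbitrary set, `ℝ≥0∞`-valued -/
noncomputable def ZL (φ : ℝ → ℝ) (β : ℝ) (A : Set Pt) (N : ℕ) : ℝ≥0∞ :=
  ((N.factorial : ℝ≥0∞))⁻¹ * I φ β (fun _ : Fin N => A)

theorem I_mono {ι : Type*} [Fintype ι] (φ : ℝ → ℝ) (β : ℝ) {D D' : ι → Set Pt}
    (h : ∀ i, D i ⊆ D' i) : I φ β D ≤ I φ β D' :=
  lintegral_mono_set (Set.pi_mono fun i _ => h i)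

theorem ZL_mono (φ : ℝ → ℝ) (β : ℝ) {A B : Set Pt} (h : A ⊆ B) (N : ℕ) :
    ZL φ β A N ≤ ZL φ β B N :=
  mul_le_mul_right (I_mono φ β fun _ => h) _

theorem ZL_zero (φ : ℝ → ℝ) (β : ℝ) (A : Set Pt) : ZL φ β A 0 = 1 := by
  unfold ZL I wt
  have : ∀ x : Fin 0 → Pt, dbl φ x = 0 := fun x => by rw [dbl_def]; simp
  simp [this, volume_pi_pi]

theorem ZL_mul_le {φ : ℝ → ℝ} (hφ : Measurable φ) {β : ℝ} (hβ : 0 ≤ β) {A B : Set Pt}
    (hA : MeasurableSet A) (hB : MeasurableSet B) (hAB : Disjoint A B)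
    (h : ∀ a ∈ A, ∀ b ∈ B, φ (dist a b) ≤ 0) (n m : ℕ) :
    ZL φ β A n * ZL φ β B m ≤ ZL φ β (A ∪ B) (n + m) := by
  classical
  -- the key inequality without factorials
  have key : ((n + m).choose n : ℝ≥0∞) * (I φ β (fun _ : Fin n => A) * I φ β (fun _ : Fin m => B))
      ≤ I φ β (fun _ : Fin (n + m) => A ∪ B) := by
    set R : Finset (Fin (n + m)) → Set (Fin (n + m) → Pt) :=
      fun S => Set.pi Set.univ (fun i => if i ∈ S then A else B) with hR
    have hsub : (⋃ S ∈ Finset.powersetCard n (Finset.univ : Finset (Fin (n + m))), R S)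
        ⊆ Set.pi Set.univ (fun _ : Fin (n + m) => A ∪ B) := by
      refine Set.iUnion₂_subset fun S _ => Set.pi_mono fun i _ => ?_
      split_ifs
      · exact Set.subset_union_left
      · exact Set.subset_union_right
    have hmeas : ∀ S : Finset (Fin (n + m)), MeasurableSet (R S) := by
      intro S
      refine MeasurableSet.univ_pi fun i => ?_
      split_ifs
      · exact hA
      · exact hB
    have hdisj : Set.PairwiseDisjoint
        (↑(Finset.powersetCard n (Finset.univ : Finset (Fin (n + m)))) : Set (Finset (Fin (n+m)))) R := by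
      intro S _ T _ hST
      rw [Function.onFun, Set.disjoint_left]
      intro x hxS hxT
      apply hST
      ext i
      have h1 := hxS i (Set.mem_univ _)
      have h2 := hxT i (Set.mem_univ _)
      simp only at h1 h2
      constructor
      · intro hi
        by_contra hi'
        rw [if_pos hi] at h1
        rw [if_neg hi'] at h2
        exact Set.disjoint_left.1 hAB h1 h2
      · intro hi
        by_contra hi'
        rw [if_neg hi'] at h1
        rw [if_pos hi] at h2
        exact Set.disjoint_left.1 hAB h2 h1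
    calc ((n + m).choose n : ℝ≥0∞) * (I φ β (fun _ : Fin n => A) * I φ β (fun _ : Fin m => B))
        = ∑ S ∈ Finset.powersetCard n (Finset.univ : Finset (Fin (n + m))),
            (I φ β (fun _ : Fin n => A) * I φ β (fun _ : Fin m => B)) := by
          rw [Finset.sum_const, Finset.card_powersetCard, Finset.card_univ, Fintype.card_fin,
            nsmul_eq_mul]
      _ ≤ ∑ S ∈ Finset.powersetCard n (Finset.univ : Finset (Fin (n + m))),
            ∫⁻ x in R S, wt φ β x := by
          refine Finset.sum_le_sum fun S hS => ?_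
          have hc : S.card = n := (Finset.mem_powersetCard.1 hS).2
          have hc' : Sᶜ.card = m := by
            rw [Finset.card_compl, Fintype.card_fin, hc]; omega
          have e := finSumEquivOfFinset hc hc'
          refine (I_sum_ge hφ hβ _ _ (fun _ _ a ha b hb => h a ha b hb)).trans ?_
          have := I_comp φ β (finSumEquivOfFinset hc hc') (fun i => if i ∈ S then A else B)
          change _ ≤ I φ β (fun i => if i ∈ S then A else B)
          rw [← this]
          refine I_mono φ β ?_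
          rintro (i | i)
          · have hi : finSumEquivOfFinset hc hc' (Sum.inl i) ∈ S := by
              rw [finSumEquivOfFinset_inl]; exact Finset.orderEmbOfFin_mem S hc i
            simp only [Sum.elim_inl, if_pos hi, subset_refl]
          · have hi : finSumEquivOfFinset hc hc' (Sum.inr i) ∉ S := by
              rw [finSumEquivOfFinset_inr]
              exact Finset.mem_compl.1 (Finset.orderEmbOfFin_mem Sᶜ hc' i)
            simp only [Sum.elim_inr, if_neg hi, subset_refl]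
      _ = ∫⁻ x in ⋃ S ∈ Finset.powersetCard n (Finset.univ : Finset (Fin (n + m))), R S,
            wt φ β x := (lintegral_biUnion_finset hdisj (fun S _ => hmeas S) _).symm
      _ ≤ I φ β (fun _ : Fin (n + m) => A ∪ B) := lintegral_mono_set hsub
  unfold ZL
  have hfac : ((n + m).factorial : ℝ≥0∞)
      = ((n + m).choose n : ℝ≥0∞) * n.factorial * m.factorial := by
    rw [← Nat.add_choose_mul_factorial_mul_factorial n m, ← Nat.choose_symm_add]
    push_cast
    ring
  have hn0 : (n.factorial : ℝ≥0∞) ≠ 0 := by exact_mod_cast n.factorial_ne_zero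
  have hm0 : (m.factorial : ℝ≥0∞) ≠ 0 := by exact_mod_cast m.factorial_ne_zero
  have hc0 : ((n + m).choose n : ℝ≥0∞) ≠ 0 := by
    exact_mod_cast (Nat.choose_pos (Nat.le_add_right n m)).ne'
  calc (n.factorial : ℝ≥0∞)⁻¹ * I φ β (fun _ : Fin n => A)
        * ((m.factorial : ℝ≥0∞)⁻¹ * I φ β (fun _ : Fin m => B))
      = ((n + m).factorial : ℝ≥0∞)⁻¹ * (((n + m).choose n : ℝ≥0∞)
        * (I φ β (fun _ : Fin n => A) * I φ β (fun _ : Fin m => B))) := by
        rw [hfac, ENNReal.mul_inv (Or.inr (by simp)) (Or.inr hm0), ENNReal.mul_inv (Or.inr (by simp)) (Or.inr hn0)]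
        have : ((n + m).choose n : ℝ≥0∞)⁻¹ * ((n + m).choose n : ℝ≥0∞) = 1 :=
          ENNReal.inv_mul_cancel hc0 (by simp)
        calc _ = 1 * ((n.factorial : ℝ≥0∞)⁻¹ * I φ β (fun _ : Fin n => A)
              * ((m.factorial : ℝ≥0∞)⁻¹ * I φ β (fun _ : Fin m => B))) := by rw [one_mul]
          _ = _ := by rw [← this]; ring
    _ ≤ _ := mul_le_mul_right key _


theorem prod_ZL_le_biUnion {σ : Type*} {φ : ℝ → ℝ} (hφ : Measurable φ) {β : ℝ} (hβ : 0 ≤ β)
    (s : Finset σ) (D : σ → Set Pt) (n : σ → ℕ)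
    (hD : ∀ k ∈ s, MeasurableSet (D k))
    (hdisj : ∀ k ∈ s, ∀ l ∈ s, k ≠ l → Disjoint (D k) (D l))
    (hint : ∀ k ∈ s, ∀ l ∈ s, k ≠ l → ∀ a ∈ D k, ∀ b ∈ D l, φ (dist a b) ≤ 0) :
    ∏ k ∈ s, ZL φ β (D k) (n k) ≤ ZL φ β (⋃ k ∈ s, D k) (∑ k ∈ s, n k) := by
  classical
  induction s using Finset.induction_on with
  | empty => simp [ZL_zero]
  | insert a t hat ih =>
    rw [Finset.prod_insert hat, Finset.sum_insert hat, Finset.set_biUnion_insert]
    refine (mul_le_mul_right (ih (fun k hk => hD k (Finset.mem_insert_of_mem hk))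
      (fun k hk l hl => hdisj k (Finset.mem_insert_of_mem hk) l (Finset.mem_insert_of_mem hl))
      (fun k hk l hl => hint k (Finset.mem_insert_of_mem hk) l (Finset.mem_insert_of_mem hl))) _).trans ?_
    have hne : ∀ l ∈ t, a ≠ l := fun l hl h => hat (h ▸ hl)
    refine ZL_mul_le hφ hβ (hD a (Finset.mem_insert_self _ _))
      (Finset.measurableSet_biUnion t fun k hk => hD k (Finset.mem_insert_of_mem hk)) ?_ ?_ _ _
    · rw [Set.disjoint_iUnion₂_right]
      exact fun l hl => hdisj a (Finset.mem_insert_self _ _) l (Finset.mem_insert_of_mem hl) (hne l hl)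
    · intro x hx y hy
      obtain ⟨l, hl, hy⟩ := Set.mem_iUnion₂.1 hy
      exact hint a (Finset.mem_insert_self _ _) l (Finset.mem_insert_of_mem hl) (hne l hl) x hx y hy

theorem prod_ZL_le {σ : Type*} {φ : ℝ → ℝ} (hφ : Measurable φ) {β : ℝ} (hβ : 0 ≤ β)
    (s : Finset σ) (D : σ → Set Pt) (n : σ → ℕ) (A : Set Pt)
    (hD : ∀ k ∈ s, MeasurableSet (D k)) (hA : ∀ k ∈ s, D k ⊆ A)
    (hdisj : ∀ k ∈ s, ∀ l ∈ s, k ≠ l → Disjoint (D k) (D l))
    (hint : ∀ k ∈ s, ∀ l ∈ s, k ≠ l → ∀ a ∈ D k, ∀ b ∈ D l, φ (dist a b) ≤ 0) :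
    ∏ k ∈ s, ZL φ β (D k) (n k) ≤ ZL φ β A (∑ k ∈ s, n k) :=
  (prod_ZL_le_biUnion hφ hβ s D n hD hdisj hint).trans
    (ZL_mono φ β (Set.iUnion₂_subset hA) _)






end Crest.Agent.R149.Canon
end

-- ▼ part R149/BaseLower

/-!
# Row 149: lower bound for the pressure of the base model (trial configurations)
-/

set_option autoImplicit false

open MeasureTheory Crest.ProbabilityR.Continuum Filter Topology
open scoped ENNReal

namespace Crest.Agent.R149.BaseLower

open Crest.Agent.R149.Canon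

theorem U_eq_dbl (c : ℝ → ℝ) {ι : Type} [Fintype ι] (x : ι → Pt) : U c x = dbl c x / 2 := by
  classical
  rw [SuperStab.U_eq, dbl_def]

theorem A_zero {ι : Type} [Fintype ι] (x : ι → Pt) : A (fun _ => 0) x = 0 := by
  simp [A, SS]

theorem ZF_eq_ZL (c : ℝ → ℝ) (β : ℝ) (S : Set Pt) (n : ℕ) :
    ZF (HF c (fun _ => 0) β) S n = ZL c β S n := by
  unfold ZF ZL I
  congr 1
  refine lintegral_congr fun x => ?_
  unfold wt HF Ham
  rw [U_eq_dbl, A_zero]
  congr 2
  ring

theorem ZL_one (c : ℝ → ℝ) (β : ℝ) (S : Set Pt) : ZL c β S 1 = volume S := by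
  unfold ZL I wt
  have : ∀ x : Fin 1 → Pt, dbl c x = 0 := fun x => by rw [dbl_def]; simp
  simp [this, volume_pi_pi]

/-- the volume of a cluster region -/
theorem cluster_volume {k : ℕ} (w : Fin k → Pt) (u : Pt) (a b : ℝ) :
    volume {x : Fin (k + 1) → Pt | dist (x 0) u < a ∧ ∀ i : Fin k, dist (x i.succ) (x 0 + w i) < b}
      = volume (Metric.ball u a) * ∏ _i : Fin k, volume (Metric.ball (0 : Pt) b) := by
  set G' : Set (Pt × (Fin k → Pt)) := {q | dist q.1 u < a ∧ ∀ i : Fin k, dist (q.2 i) (q.1 + w i) < b}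
    with hG'
  have hG'm : MeasurableSet G' := by
    have : G' = {q : Pt × (Fin k → Pt) | dist q.1 u < a} ∩
        ⋂ i : Fin k, {q : Pt × (Fin k → Pt) | dist (q.2 i) (q.1 + w i) < b} := by
      ext q; simp [hG']
    rw [this]
    refine MeasurableSet.inter ?_ (MeasurableSet.iInter fun i => ?_)
    · exact (isOpen_lt (by fun_prop) (by fun_prop)).measurableSet
    · exact (isOpen_lt (by fun_prop) (by fun_prop)).measurableSet
  have hmp := volume_preserving_piFinSuccAbove (fun _ : Fin (k + 1) => Pt) 0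
  have hpre : {x : Fin (k + 1) → Pt | dist (x 0) u < a ∧ ∀ i : Fin k, dist (x i.succ) (x 0 + w i) < b}
      = (MeasurableEquiv.piFinSuccAbove (fun _ : Fin (k + 1) => Pt) 0) ⁻¹' G' := by
    ext x
    simp only [hG', Set.mem_ofPred_eq, Set.mem_preimage]
    rfl
  rw [hpre, hmp.measure_preimage hG'm.nullMeasurableSet, Measure.volume_eq_prod,
    Measure.prod_apply hG'm]
  have hslice : ∀ q : Pt, volume (Prod.mk q ⁻¹' G')
      = (Metric.ball u a).indicator (fun _ => ∏ _i : Fin k, volume (Metric.ball (0 : Pt) b)) q := by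
    intro q
    by_cases hq : q ∈ Metric.ball u a
    · rw [Set.indicator_of_mem hq]
      have : Prod.mk q ⁻¹' G' = Set.pi Set.univ (fun i : Fin k => Metric.ball (q + w i) b) := by
        ext z
        simp only [hG', Set.mem_preimage, Set.mem_ofPred_eq, Set.mem_pi, Set.mem_univ, true_imp_iff,
          Metric.mem_ball]
        exact ⟨fun h => h.2, fun h => ⟨hq, h⟩⟩
      rw [this, volume_pi_pi]
      refine Finset.prod_congr rfl fun i _ => ?_
      exact Measure.addHaar_ball_center _ _ _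
    · rw [Set.indicator_of_notMem hq]
      have : Prod.mk q ⁻¹' G' = ∅ := by
        ext z
        simp only [hG', Set.mem_preimage, Set.mem_ofPred_eq, Set.mem_empty_iff_false, iff_false]
        exact fun h => hq h.1
      rw [this, measure_empty]
  simp only [hslice]
  rw [lintegral_indicator Metric.isOpen_ball.measurableSet, setLIntegral_const, mul_comm]

theorem cluster_weight {c : ℝ → ℝ} (β : ℝ) {k : ℕ} {θ₂ θ₃ δ ε D τ : ℝ} (hc : Measurable c)
    (y : Fin (k + 1) → Pt) (hδ : 0 < δ) (hε : 0 ≤ ε)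
    (win : ∀ r, θ₂ * δ ≤ r → r ≤ θ₃ * δ → c r = 0)
    (h1 : ∀ i j, i ≠ j → θ₂ + 2 * ε ≤ dist (y i) (y j))
    (h2 : ∀ i j, i ≠ j → dist (y i) (y j) ≤ θ₃ - 2 * ε)
    (hD : ∀ i, dist (y i) (y 0) ≤ D) (hτ : δ * (D + ε) ≤ τ / 2) (u : Pt) :
    ((k + 1).factorial : ℝ≥0∞)⁻¹ * (volume (Metric.ball u (τ / 2))
        * volume (Metric.ball (0 : Pt) (ε * δ)) ^ k)
      ≤ ZL c β (Metric.ball u τ) (k + 1) := by
  unfold ZL
  refine mul_le_mul_right ?_ _
  have hvol := cluster_volume (fun i : Fin k => δ • (y i.succ - y 0)) u (τ / 2) (ε * δ)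
  rw [Finset.prod_const, Finset.card_univ, Fintype.card_fin] at hvol
  rw [← hvol]
  set G : Set (Fin (k + 1) → Pt) := {x | dist (x 0) u < τ / 2 ∧
    ∀ i : Fin k, dist (x i.succ) (x 0 + δ • (y i.succ - y 0)) < ε * δ} with hG
  have hεδ : 0 ≤ ε * δ := mul_nonneg hε hδ.le
  -- uniform form
  have hall : ∀ x ∈ G, ∀ i, dist (x i) (x 0 + δ • (y i - y 0)) ≤ ε * δ := by
    intro x hx i
    refine Fin.cases ?_ (fun i => ?_) i
    · simpa using hεδ
    · exact (hx.2 i).le
  have hsub : G ⊆ Set.pi Set.univ (fun _ : Fin (k + 1) => Metric.ball u τ) := by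
    intro x hx i _
    rw [Metric.mem_ball]
    have e1 := hall x hx i
    have e2 : dist (x 0 + δ • (y i - y 0)) (x 0) ≤ δ * D := by
      rw [dist_eq_norm, add_sub_cancel_left, norm_smul, Real.norm_of_nonneg hδ.le, ← dist_eq_norm]
      exact mul_le_mul_of_nonneg_left (hD i) hδ.le
    have e3 : dist (x 0) u < τ / 2 := hx.1
    calc dist (x i) u ≤ dist (x i) (x 0 + δ • (y i - y 0)) + dist (x 0 + δ • (y i - y 0)) (x 0)
          + dist (x 0) u := dist_triangle4 _ _ _ _
      _ < ε * δ + δ * D + τ / 2 := by linarith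
      _ ≤ τ := by nlinarith
  have hwt : ∀ x ∈ G, wt c β x = 1 := by
    intro x hx
    have hz : dbl c x = 0 := by
      classical
      rw [dbl_def]
      refine Finset.sum_eq_zero fun i _ => Finset.sum_eq_zero fun j _ => ?_
      by_cases hij : i = j
      · simp [hij]
      · rw [if_neg hij]
        have e1 := hall x hx i
        have e2 := hall x hx j
        have e3 : dist (x 0 + δ • (y i - y 0)) (x 0 + δ • (y j - y 0)) = δ * dist (y i) (y j) := by
          rw [dist_eq_norm, add_sub_add_left_eq_sub, ← smul_sub, norm_smul,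
            Real.norm_of_nonneg hδ.le, sub_sub_sub_cancel_right, ← dist_eq_norm]
        have e4 := h1 i j hij
        have e5 := h2 i j hij
        have e6 : dist (x i) (x j) ≤ ε * δ + δ * dist (y i) (y j) + ε * δ := by
          calc dist (x i) (x j) ≤ dist (x i) (x 0 + δ • (y i - y 0))
                + dist (x 0 + δ • (y i - y 0)) (x 0 + δ • (y j - y 0))
                + dist (x 0 + δ • (y j - y 0)) (x j) := dist_triangle4 _ _ _ _
            _ ≤ _ := by rw [e3, dist_comm _ (x j)]; linarith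
        have e7 : δ * dist (y i) (y j) ≤ ε * δ + dist (x i) (x j) + ε * δ := by
          rw [← e3]
          calc dist (x 0 + δ • (y i - y 0)) (x 0 + δ • (y j - y 0))
                ≤ dist (x 0 + δ • (y i - y 0)) (x i) + dist (x i) (x j)
                + dist (x j) (x 0 + δ • (y j - y 0)) := dist_triangle4 _ _ _ _
            _ ≤ _ := by rw [dist_comm _ (x i)]; linarith
        apply win
        · nlinarith
        · nlinarith
    unfold wt
    rw [hz]; simp
  unfold I
  calc volume G = ∫⁻ x in G, 1 := by simp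
    _ ≤ ∫⁻ x in G, wt c β x :=
        setLIntegral_mono (measurable_wt hc β) fun x hx => (hwt x hx).ge
    _ ≤ _ := lintegral_mono_set hsub

/-- sites: balls of radius `τ` around well separated points of the cube -/
theorem sites_bound {c : ℝ → ℝ} {β ξ τ L : ℝ} (hc : Measurable c) (hβ : 0 ≤ β)
    (hξ : 0 ≤ ξ) (far : ∀ r, 1 + ξ ≤ r → c r = 0) (X : Finset Pt)
    (hX : ∀ x ∈ X, Metric.ball x τ ⊆ cube L)
    (hsep : ∀ x ∈ X, ∀ y ∈ X, x ≠ y → 1 + ξ + 2 * τ ≤ dist x y)
    (n : ℕ) (v : ℝ≥0∞) (hv : ∀ x ∈ X, v ≤ ZL c β (Metric.ball x τ) n) :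
    v ^ X.card ≤ ZL c β (cube L) (X.card * n) := by
  have hd : ∀ x ∈ X, ∀ y ∈ X, x ≠ y → ∀ a ∈ Metric.ball x τ, ∀ b ∈ Metric.ball y τ,
      1 + ξ ≤ dist a b := by
    intro x hx y hy hxy a ha b hb
    have h := hsep x hx y hy hxy
    rw [Metric.mem_ball] at ha hb
    have := dist_triangle4 x a b y
    rw [dist_comm x a] at this
    linarith
  have h := prod_ZL_le hc hβ X (fun x => Metric.ball x τ) (fun _ => n) (cube L)
    (fun x _ => Metric.isOpen_ball.measurableSet) hX
    (fun x hx y hy hxy => by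
      rw [Set.disjoint_left]
      intro a ha hb
      have := hd x hx y hy hxy a ha a hb
      rw [dist_self] at this
      linarith)
    (fun x hx y hy hxy a ha b hb => (far _ (hd x hx y hy hxy a ha b hb)).le)
  rw [Finset.sum_const, smul_eq_mul] at h
  refine le_trans ?_ h
  rw [← Finset.prod_const]
  exact Finset.prod_le_prod' hv

theorem mem_cube_of_ball {x z : Pt} {τ a : ℝ} (hz : z ∈ Metric.ball x τ)
    (h : ∀ k, τ ≤ x k ∧ x k ≤ a - τ) : z ∈ cube a := by
  intro k
  have h1 := Packing.coord_le_dist z x k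
  rw [Metric.mem_ball] at hz
  have h2 := abs_le.1 (h1.trans hz.le)
  have h3 := h k
  constructor <;> linarith

/-- sites from a packing -/
theorem exists_sites {ℓ s τ L : ℝ} (hℓ : 0 ≤ ℓ) (hs : 0 < s) (hL : s * ℓ + 2 * τ ≤ L) :
    ∃ X : Finset Pt, X.card = packingNumber ℓ ∧ (∀ x ∈ X, Metric.ball x τ ⊆ cube L) ∧
      ∀ x ∈ X, ∀ y ∈ X, x ≠ y → s ≤ dist x y := by
  classical
  obtain ⟨X, hcard, hX, hsep⟩ := Packing.packingNumber_mem hℓ
  let t : Pt := WithLp.toLp 2 (fun _ => τ)
  have ht : ∀ k, t k = τ := fun k => rfl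
  let f : Pt → Pt := fun x => s • x + t
  have hf : ∀ x y, dist (f x) (f y) = s * dist x y := by
    intro x y
    simp only [f, dist_add_right]
    rw [dist_smul₀, Real.norm_of_nonneg hs.le]
  have hinj : Function.Injective f := by
    intro x y hxy
    have h0 : s * dist x y = 0 := by rw [← hf, hxy, dist_self]
    rcases mul_eq_zero.1 h0 with h | h
    · exact absurd h hs.ne'
    · exact dist_eq_zero.1 h
  refine ⟨X.image f, ?_, ?_, ?_⟩
  · rw [Finset.card_image_of_injective _ hinj, hcard]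
  · intro z hz
    obtain ⟨x, hx, rfl⟩ := Finset.mem_image.1 hz
    intro w hw
    refine mem_cube_of_ball hw fun k => ?_
    have h1 := hX x hx k
    have h2 : f x k = s * x k + τ := by simp [f, ht]
    rw [h2]
    constructor
    · nlinarith [mul_nonneg hs.le h1.1]
    · nlinarith [mul_le_mul_of_nonneg_left h1.2 hs.le]
  · intro z hz w hw hzw
    obtain ⟨x, hx, rfl⟩ := Finset.mem_image.1 hz
    obtain ⟨y, hy, rfl⟩ := Finset.mem_image.1 hw
    have hxy : x ≠ y := fun h => hzw (by rw [h])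
    rw [hf]
    nlinarith [hsep x hx y hy hxy]

/-- The supremand of the pressure. -/
noncomputable def term (c α : ℝ → ℝ) (β h : ℝ) (q : ℕ × ℕ) : ℝ :=
  (h * q.2 + LZ c α β ((q.1 : ℝ) + 1) q.2) / ((q.1 : ℝ) + 3) ^ 3

theorem term_le {c α : ℝ → ℝ} {B β : ℝ} (hp : LZProps c α B β) (h : ℝ) (q : ℕ × ℕ) :
    term c α β h q ≤ Real.exp (h + β * B) := by
  unfold term
  have hq : (0 : ℝ) ≤ (q.1 : ℝ) := Nat.cast_nonneg _
  have hpos : (0 : ℝ) < ((q.1 : ℝ) + 3) ^ 3 := by positivity
  rw [div_le_iff₀ hpos]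
  have h1 := hp.upper ((q.1 : ℝ) + 1) q.2 h (by positivity)
  have h2 : ((q.1 : ℝ) + 1) ^ 3 ≤ ((q.1 : ℝ) + 3) ^ 3 := by gcongr; norm_num
  calc h * q.2 + LZ c α β ((q.1 : ℝ) + 1) q.2
      ≤ ((q.1 : ℝ) + 1) ^ 3 * Real.exp (h + β * B) := h1
    _ ≤ ((q.1 : ℝ) + 3) ^ 3 * Real.exp (h + β * B) := by gcongr
    _ = _ := mul_comm _ _

theorem term_le_Pr {c α : ℝ → ℝ} {B β : ℝ} (hp : LZProps c α B β) (h : ℝ) (q : ℕ × ℕ) :
    term c α β h q ≤ Pr c α β h :=
  le_ciSup (f := fun q : ℕ × ℕ => (h * q.2 + LZ c α β ((q.1 : ℝ) + 1) q.2) / ((q.1 : ℝ) + 3) ^ 3)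
    ⟨Real.exp (h + β * B), by rintro _ ⟨q, rfl⟩; exact term_le hp h q⟩ q

theorem LZ_ge {c : ℝ → ℝ} {B β L : ℝ} {n m : ℕ} {v : ℝ} (hp : LZProps c (fun _ => 0) B β)
    (hL : 0 < L) (hv : 0 < v) (h : ENNReal.ofReal v ^ m ≤ ZL c β (cube L) n) :
    m * Real.log v ≤ LZ c (fun _ => 0) β L n := by
  unfold LZ
  rw [← Real.log_pow]
  refine Real.log_le_log (pow_pos hv m) ?_
  have h0 : ENNReal.ofReal v ^ m ≤ ZF (HF c (fun _ => 0) β) (cube L) n := by
    rw [ZF_eq_ZL]; exact h
  have h1 := ENNReal.toReal_mono (hp.fin L n hL) h0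
  rwa [ENNReal.toReal_pow, ENNReal.toReal_ofReal hv.le] at h1

theorem volume_ball_eq (u : Pt) {r : ℝ} (hr : 0 ≤ r) :
    volume (Metric.ball u r) = ENNReal.ofReal (r ^ 3 * (Real.pi * 4 / 3)) := by
  rw [EuclideanSpace.volume_ball_fin_three, ENNReal.ofReal_mul (pow_nonneg hr 3),
    ENNReal.ofReal_pow hr]

theorem exists_eps {K : ℕ} {θ₂ θ₃ : ℝ} (y : Fin K → Pt)
    (hy : ∀ i j, i ≠ j → θ₂ < dist (y i) (y j) ∧ dist (y i) (y j) < θ₃) :
    ∃ ε : ℝ, 0 < ε ∧ ∀ i j, i ≠ j → θ₂ + 2 * ε ≤ dist (y i) (y j) ∧ dist (y i) (y j) ≤ θ₃ - 2 * ε := by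
  have h : ∀ i j, ∀ᶠ ε in 𝓝[>] (0 : ℝ), i ≠ j →
      θ₂ + 2 * ε ≤ dist (y i) (y j) ∧ dist (y i) (y j) ≤ θ₃ - 2 * ε := by
    intro i j
    by_cases hij : i = j
    · exact Eventually.of_forall fun _ h => absurd hij h
    have h1 : Tendsto (fun ε : ℝ => θ₂ + 2 * ε) (𝓝[>] 0) (𝓝 (θ₂ + 2 * 0)) :=
      (Continuous.tendsto (by fun_prop) 0).mono_left nhdsWithin_le_nhds
    have h2 : Tendsto (fun ε : ℝ => θ₃ - 2 * ε) (𝓝[>] 0) (𝓝 (θ₃ - 2 * 0)) :=
      (Continuous.tendsto (by fun_prop) 0).mono_left nhdsWithin_le_nhds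
    have h3 := h1.eventually (Iio_mem_nhds (show θ₂ + 2 * 0 < dist (y i) (y j) by
      simpa using (hy i j hij).1))
    have h4 := h2.eventually (Ioi_mem_nhds (show dist (y i) (y j) < θ₃ - 2 * 0 by
      simpa using (hy i j hij).2))
    filter_upwards [h3, h4] with ε h5 h6 _
    exact ⟨le_of_lt h5, le_of_lt h6⟩
  have h' := (Filter.eventually_all.2 fun i => Filter.eventually_all.2 fun j => h i j).and
    self_mem_nhdsWithin
  obtain ⟨ε, hε, hε0⟩ := h'.exists
  exact ⟨ε, hε0, hε⟩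

theorem coreOK_stab {c : ℝ → ℝ} (hc : CoreOK c) : Stab c (fun _ => 0) 0 := by
  classical
  refine ⟨le_rfl, fun ι _ x => ?_⟩
  rw [A_zero, SuperStab.U_eq]
  have : 0 ≤ ∑ i, ∑ j, if i = j then 0 else c (dist (x i) (x j)) :=
    Finset.sum_nonneg fun i _ => Finset.sum_nonneg fun j _ => by
      split_ifs
      · exact le_rfl
      · exact hc.nonneg _
  simp only [zero_mul, add_zero]
  positivity

theorem attrOK_zero : AttrOK (fun _ => 0) :=
  ⟨measurable_const, fun _ => le_rfl, ⟨0, fun _ => le_rfl⟩⟩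

theorem exists_xi {p η : ℝ} (hp : 0 < p) (hη : 0 < η) :
    ∃ ξ : ℝ, 0 < ξ ∧ ξ ≤ 1 ∧ p - η < p / (1 + 3 * ξ) ^ 3 ∧ p / (1 + 3 * ξ) ^ 3 < p := by
  refine ⟨min 1 (η / (18 * p)), lt_min one_pos (by positivity), min_le_left _ _, ?_, ?_⟩
  · set ξ := min 1 (η / (18 * p)) with hξ
    have h0 : 0 < ξ := lt_min one_pos (by positivity)
    have h1 : ξ ≤ η / (18 * p) := min_le_right _ _
    have h2 : ξ * (18 * p) ≤ η := by rwa [le_div_iff₀ (by positivity)] at h1
    rw [lt_div_iff₀ (by positivity)]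
    have h3 : (p - η) * (1 + 3 * ξ) ^ 3 ≤ (p * (1 - 18 * ξ)) * (1 + 3 * ξ) ^ 3 :=
      mul_le_mul_of_nonneg_right (by nlinarith) (by positivity)
    refine h3.trans_lt ?_
    have h4 : (1 - 18 * ξ) * (1 + 3 * ξ) ^ 3 < 1 := by
      nlinarith [h0, mul_pos h0 h0, mul_pos (mul_pos h0 h0) h0, mul_pos (mul_pos h0 h0) (mul_pos h0 h0)]
    nlinarith
  · set ξ := min 1 (η / (18 * p)) with hξ
    have h0 : 0 < ξ := lt_min one_pos (by positivity)
    rw [div_lt_iff₀ (by positivity)]
    have : 1 < (1 + 3 * ξ) ^ 3 := one_lt_pow₀ (by linarith) (by norm_num)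
    nlinarith

theorem exists_ell {p η ξ : ℝ} (hξ : 0 < ξ)
    (h1 : p - η < p / (1 + 3 * ξ) ^ 3) (h2 : p / (1 + 3 * ξ) ^ 3 < p)
    (hp : Tendsto (fun L : ℝ => (packingNumber L : ℝ) / L ^ 3) atTop (𝓝 p)) :
    ∃ ℓ : ℝ, 0 < ℓ ∧
      p - η ≤ (packingNumber ℓ : ℝ) / ((⌈(1 + 3 * ξ) * ℓ + 2 * ξ⌉₊ : ℝ) + 2) ^ 3 ∧
      (packingNumber ℓ : ℝ) / ((⌈(1 + 3 * ξ) * ℓ + 2 * ξ⌉₊ : ℝ) + 2) ^ 3 ≤ p := by
  have hs : (0 : ℝ) < 1 + 3 * ξ := by positivity
  have hinv : Tendsto (fun ℓ : ℝ => (2 * ξ + 3) / ℓ) atTop (𝓝 0) :=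
    tendsto_const_nhds.div_atTop tendsto_id
  have hA : Tendsto (fun ℓ : ℝ => ((packingNumber ℓ : ℝ) / ℓ ^ 3) / (1 + 3 * ξ) ^ 3) atTop
      (𝓝 (p / (1 + 3 * ξ) ^ 3)) := hp.div_const _
  have hB : Tendsto (fun ℓ : ℝ => ((packingNumber ℓ : ℝ) / ℓ ^ 3)
      / (1 + 3 * ξ + (2 * ξ + 3) / ℓ) ^ 3) atTop (𝓝 (p / (1 + 3 * ξ + 0) ^ 3)) := by
    refine hp.div ((tendsto_const_nhds.add hinv).pow 3) ?_
    positivity
  rw [add_zero] at hB
  have e1 := hA.eventually (Iio_mem_nhds h2)
  have e2 := hB.eventually (Ioi_mem_nhds h1)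
  obtain ⟨ℓ, ⟨h3, h4⟩, h5⟩ := ((e1.and e2).and (eventually_gt_atTop 0)).exists
  refine ⟨ℓ, h5, ?_, ?_⟩
  · refine le_of_lt (lt_of_lt_of_le h4 ?_)
    have h6 : (packingNumber ℓ : ℝ) / ℓ ^ 3 / (1 + 3 * ξ + (2 * ξ + 3) / ℓ) ^ 3
        = (packingNumber ℓ : ℝ) / ((1 + 3 * ξ) * ℓ + (2 * ξ + 3)) ^ 3 := by
      rw [div_div, ← mul_pow]
      congr 2
      field_simp
    rw [h6]
    have h7 : (⌈(1 + 3 * ξ) * ℓ + 2 * ξ⌉₊ : ℝ) < (1 + 3 * ξ) * ℓ + 2 * ξ + 1 :=
      Nat.ceil_lt_add_one (by positivity)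
    refine div_le_div_of_nonneg_left (Nat.cast_nonneg _) (by positivity) ?_
    exact pow_le_pow_left₀ (by positivity) (by linarith) 3
  · refine le_trans ?_ (le_of_lt h3)
    rw [div_div, ← mul_pow]
    have h7 : (1 + 3 * ξ) * ℓ + 2 * ξ ≤ (⌈(1 + 3 * ξ) * ℓ + 2 * ξ⌉₊ : ℝ) := Nat.le_ceil _
    refine div_le_div_of_nonneg_left (Nat.cast_nonneg _) (by positivity) ?_
    exact pow_le_pow_left₀ (by positivity) (by nlinarith) 3

theorem baseLower (hLZ : LZPropsStmt) : BaseLowerStmt := by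
  intro K θ₂ θ₃ p η hK hp hpack hη
  obtain ⟨ξ, hξ, hξ1, hx1, hx2⟩ := exists_xi hp hη
  obtain ⟨ℓ, hℓ, hl1, hl2⟩ := exists_ell hξ hx1 hx2 hpack
  obtain ⟨y, hy⟩ := hK.ex
  obtain ⟨k, rfl⟩ : ∃ k, K = k + 1 := ⟨K - 1, by have := hK.two_le; omega⟩
  obtain ⟨ε, hε, hyε⟩ := exists_eps y hy
  set D : ℝ := ∑ i, dist (y i) (y 0) with hD
  have hDi : ∀ i, dist (y i) (y 0) ≤ D := fun i =>
    Finset.single_le_sum (f := fun i => dist (y i) (y 0)) (fun _ _ => dist_nonneg) (Finset.mem_univ i)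
  set V : ℝ := Real.pi * 4 / 3 with hV
  have hVpos : 0 < V := by positivity
  set w1 : ℝ := ξ ^ 3 * V with hw1
  have hw1pos : 0 < w1 := by positivity
  set CK : ℝ := ((k + 1).factorial : ℝ)⁻¹ * ((ξ / 2) ^ 3 * V) * (ε ^ 3 * V) ^ k with hCK
  have hCKpos : 0 < CK := by
    have : (0 : ℝ) < (k + 1).factorial := by exact_mod_cast Nat.factorial_pos _
    positivity
  -- the threshold
  have ev : ∀ᶠ Λ : ℝ in atTop, Real.exp (-Λ / 3) * (D + ε) ≤ ξ / 2 ∧ p * |Real.log w1| ≤ Λ * η ∧
      p * |Real.log CK| ≤ Λ * η ∧ 0 < Λ := by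
    have t1 : Tendsto (fun Λ : ℝ => Real.exp (-Λ / 3) * (D + ε)) atTop (𝓝 (0 * (D + ε))) := by
      refine Tendsto.mul_const _ ?_
      refine Real.tendsto_exp_atBot.comp ?_
      refine Tendsto.atBot_div_const (by norm_num) tendsto_neg_atTop_atBot
    rw [zero_mul] at t1
    have t2 : Tendsto (fun Λ : ℝ => Λ * η) atTop atTop := tendsto_id.atTop_mul_const hη
    filter_upwards [t1.eventually (Iio_mem_nhds (show (0:ℝ) < ξ / 2 by positivity)),
      t2.eventually_ge_atTop (p * |Real.log w1|), t2.eventually_ge_atTop (p * |Real.log CK|),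
      eventually_gt_atTop 0] with Λ a1 a2 a3 a4
    exact ⟨le_of_lt a1, a2, a3, a4⟩
  obtain ⟨Λ0, hΛ0⟩ := eventually_atTop.1 ev
  refine ⟨ξ, Λ0, hξ, hξ1, fun Λ hΛ M c hc => ?_⟩
  obtain ⟨b1, b2, b3, b4⟩ := hΛ0 Λ hΛ
  set Ln : ℕ := ⌈(1 + 3 * ξ) * ℓ + 2 * ξ⌉₊ with hLn
  have hLn1 : 1 ≤ Ln := Nat.one_le_ceil_iff.2 (by positivity)
  set p' : ℝ := (packingNumber ℓ : ℝ) / ((Ln : ℝ) + 2) ^ 3 with hp'
  have hp'0 : 0 ≤ p' := by positivity
  refine ⟨p', hl1, hl2, fun β h hβ => ?_⟩
  have hprops : LZProps c (fun _ => 0) 0 β := hLZ c _ 0 β hc.toCoreOK attrOK_zero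
    (coreOK_stab hc.toCoreOK) hβ
  set δ : ℝ := Real.exp (-Λ / 3) with hδ
  have hδ0 : 0 < δ := Real.exp_pos _
  obtain ⟨X, hXcard, hXcube, hXsep⟩ := exists_sites (ℓ := ℓ) (s := 1 + 3 * ξ) (τ := ξ) (L := Ln)
    hℓ.le (by positivity) (Nat.le_ceil _)
  have hsep : ∀ x ∈ X, ∀ y ∈ X, x ≠ y → 1 + ξ + 2 * ξ ≤ dist x y := by
    intro x hx y hy hxy
    have := hXsep x hx y hy hxy
    linarith
  have hLpos : (0 : ℝ) < Ln := by exact_mod_cast hLn1
  -- general consequence
  have main : ∀ (n : ℕ) (v : ℝ), 0 < v →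
      (∀ x ∈ X, ENNReal.ofReal v ≤ ZL c β (Metric.ball x ξ) n) →
      p' * (Λ * h * n + Real.log v) ≤ Pr c (fun _ => 0) β (Λ * h) := by
    intro n v hv hx
    have h1 := sites_bound (β := β) hc.meas hβ.le hξ.le hc.far' X hXcube hsep n _ hx
    have h2 := LZ_ge hprops hLpos hv h1
    have h3 := term_le_Pr hprops (Λ * h) (Ln - 1, X.card * n)
    refine le_trans ?_ h3
    have h4 : (((Ln - 1 : ℕ) : ℝ) + 1) = Ln := by
      rw [Nat.cast_sub hLn1]; simp
    have h5 : (((Ln - 1 : ℕ) : ℝ) + 3) = Ln + 2 := by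
      rw [Nat.cast_sub hLn1]; push_cast; ring
    unfold term
    simp only [h4, h5]
    rw [hp', div_mul_eq_mul_div]
    refine div_le_div_of_nonneg_right ?_ (by positivity)
    rw [← hXcard]
    push_cast
    nlinarith [h2]
  have t0 : Λ * (0 - η) ≤ Pr c (fun _ => 0) β (Λ * h) := by
    have h3 := term_le_Pr hprops (Λ * h) (Ln - 1, 0)
    refine le_trans ?_ h3
    unfold term
    simp only [hprops.zero, Nat.cast_zero, mul_zero, add_zero, zero_div]
    nlinarith
  have t1 : Λ * (p' * h - η) ≤ Pr c (fun _ => 0) β (Λ * h) := by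
    refine le_trans ?_ (main 1 w1 hw1pos fun x _ => ?_)
    · have : -(Λ * η) ≤ p' * Real.log w1 := by
        have h1 : p' * |Real.log w1| ≤ p * |Real.log w1| :=
          mul_le_mul_of_nonneg_right hl2 (abs_nonneg _)
        have h2 : p' * (-|Real.log w1|) ≤ p' * Real.log w1 :=
          mul_le_mul_of_nonneg_left (neg_abs_le _) hp'0
        linarith
      push_cast
      nlinarith
    · rw [ZL_one, volume_ball_eq x hξ.le]
  have t2 : Λ * (p' * (((k + 1 : ℕ) : ℝ) * h - (((k + 1 : ℕ) : ℝ) - 1)) - η)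
      ≤ Pr c (fun _ => 0) β (Λ * h) := by
    have hv : 0 < CK * (δ ^ 3) ^ k := by positivity
    refine le_trans ?_ (main (k + 1) (CK * (δ ^ 3) ^ k) hv fun x _ => ?_)
    · have hlog : Real.log (CK * (δ ^ 3) ^ k) = Real.log CK - k * Λ := by
        rw [Real.log_mul hCKpos.ne' (by positivity), Real.log_pow, Real.log_pow, hδ, Real.log_exp]
        push_cast; ring
      rw [hlog]
      have : -(Λ * η) ≤ p' * Real.log CK := by
        have h1 : p' * |Real.log CK| ≤ p * |Real.log CK| :=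
          mul_le_mul_of_nonneg_right hl2 (abs_nonneg _)
        have h2 : p' * (-|Real.log CK|) ≤ p' * Real.log CK :=
          mul_le_mul_of_nonneg_left (neg_abs_le _) hp'0
        linarith
      push_cast
      nlinarith
    · have hcw := cluster_weight β (τ := ξ) hc.meas y hδ0 hε.le hc.win
        (fun i j hij => (hyε i j hij).1) (fun i j hij => (hyε i j hij).2) hDi b1 x
      refine le_trans (le_of_eq ?_) hcw
      rw [volume_ball_eq x (by positivity), volume_ball_eq 0 (by positivity),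
        ← ENNReal.ofReal_pow (by positivity), ← ENNReal.ofReal_mul (by positivity),
        ← ENNReal.ofReal_natCast, ← ENNReal.ofReal_inv_of_pos (by
          exact_mod_cast Nat.factorial_pos _), ← ENNReal.ofReal_mul (by positivity)]
      congr 1
      rw [hCK]
      ring
  unfold MF0
  rcases max_choice 0 (max (p' * h) (p' * (((k + 1 : ℕ) : ℝ) * h - (((k + 1 : ℕ) : ℝ) - 1)))) with e | e
  · rw [e]; exact t0
  · rw [e]
    rcases max_choice (p' * h) (p' * (((k + 1 : ℕ) : ℝ) * h - (((k + 1 : ℕ) : ℝ) - 1))) with e | e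
    · rw [e]; exact t1
    · rw [e]; exact t2

end Crest.Agent.R149.BaseLower
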