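import Crest.Agent.R149.Stmts

/-!
Ball autocorrelation kernel `w R r = vol(B_R(x) ∩ B_R(y)) / vol(B_R)^2`, `dist x y = r`.
(helper849)
-/

set_option autoImplicit false

namespace Crest.Agent.R149

open MeasureTheory Metric Set Crest.ProbabilityR.Continuum

/-- the first basis vector of `Pt` -/
noncomputable def e0 : Pt := EuclideanSpace.single (0 : Fin 3) (1 : ℝ)


/-- normalized ball autocorrelation kernel -/
noncomputable def w (R r : ℝ) : ℝ :=
  volume.real (closedBall (0 : Pt) R ∩ closedBall (r • e0) R) / vB R ^ 2

lemma norm_e0 : ‖e0‖ = 1 := by simp [e0]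

lemma smul_e0 (r : ℝ) : r • e0 = (EuclideanSpace.single (0 : Fin 3) r : Pt) := by
  unfold e0
  ext k
  by_cases hk : k = 0
  · subst hk; simp
  · simp [hk]

lemma wk_eq_w (R r : ℝ) : wk R r = w R r := by
  unfold wk w
  rw [smul_e0]
  rfl

lemma vB_eq {R : ℝ} (hR : 0 ≤ R) : vB R = R ^ 3 * (Real.pi * 4 / 3) := by
  have h := EuclideanSpace.volume_closedBall_fin_three (0 : Pt) R
  unfold vB
  rw [h, ENNReal.toReal_mul, ENNReal.toReal_pow, ENNReal.toReal_ofReal hR,
    ENNReal.toReal_ofReal (by positivity)]

lemma vB_pos {R : ℝ} (hR : 0 < R) : 0 < vB R := by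
  rw [vB_eq hR.le]; positivity

lemma vB_nonneg (R : ℝ) : 0 ≤ vB R := measureReal_nonneg

lemma vB_eq_mul {R : ℝ} (hR : 0 ≤ R) : vB R = R ^ 3 * vB 1 := by
  rw [vB_eq hR, vB_eq zero_le_one]; ring


lemma volume_real_closedBall (x : Pt) (R : ℝ) : volume.real (closedBall x R) = vB R := by
  unfold vB
  rw [measureReal_def]
  congr 1
  have h1 := EuclideanSpace.volume_closedBall_fin_three x R
  have h2 := EuclideanSpace.volume_closedBall_fin_three (0 : Pt) R
  rw [h1, h2]

/-- There is a linear isometry sending `r • e0` to any vector of norm `r ≥ 0`. -/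
lemma exists_isometry (v : Pt) : ∃ T : Pt ≃ₗᵢ[ℝ] Pt, T (‖v‖ • e0) = v := by
  have h : ‖(‖v‖ • e0 : Pt)‖ = ‖v‖ := by
    rw [norm_smul, norm_e0, mul_one, norm_norm]
  exact ⟨_, Submodule.reflection_sub h⟩

lemma w_dist (R : ℝ) (x y : Pt) :
    w R (dist x y) = volume.real (closedBall x R ∩ closedBall y R) / vB R ^ 2 := by
  obtain ⟨T, hT⟩ := exists_isometry (y - x)
  have hd : dist x y = ‖y - x‖ := by rw [dist_comm, dist_eq_norm]
  unfold w
  congr 1
  rw [hd]
  -- the affine isometry z ↦ x + T z
  let f : Pt ≃ᵢ Pt := T.toIsometryEquiv.trans (IsometryEquiv.addLeft x)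
  have hf : ∀ z, f z = x + T z := fun z => rfl
  have hpre : f ⁻¹' (closedBall x R ∩ closedBall y R)
      = closedBall (0 : Pt) R ∩ closedBall (‖y - x‖ • e0) R := by
    ext z
    have h1 : dist (f z) x = dist z 0 := by
      have : x = f 0 := by rw [hf, map_zero, add_zero]
      conv_lhs => rw [this]
      exact f.dist_eq z 0
    have h2 : dist (f z) y = dist z (‖y - x‖ • e0) := by
      have : y = f (‖y - x‖ • e0) := by rw [hf, hT]; abel
      conv_lhs => rw [this]
      exact f.dist_eq z _
    simp only [mem_preimage, mem_inter_iff, mem_closedBall, h1, h2]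
  have hmp : MeasurePreserving f volume volume := by
    have h1 : MeasurePreserving (fun z : Pt => T z) volume volume :=
      LinearIsometryEquiv.measurePreserving T
    have h2 : MeasurePreserving (fun z : Pt => x + z) volume volume :=
      measurePreserving_add_left volume x
    exact h2.comp h1
  rw [← hpre, measureReal_def, measureReal_def]
  congr 1
  exact hmp.measure_preimage
    ((measurableSet_closedBall.inter measurableSet_closedBall).nullMeasurableSet)

lemma w_nonneg (R r : ℝ) : 0 ≤ w R r := by
  unfold w; positivity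

lemma w_le {R : ℝ} (r : ℝ) : w R r ≤ 1 / vB R := by
  unfold w
  rcases (vB_nonneg R).eq_or_lt with h | h
  · rw [← h]; simp
  rw [div_le_div_iff₀ (by positivity) h]
  have : volume.real (closedBall (0 : Pt) R ∩ closedBall (r • e0) R) ≤ vB R :=
    measureReal_mono inter_subset_left measure_closedBall_lt_top.ne
  nlinarith

lemma w_zero {R : ℝ} : w R 0 = 1 / vB R := by
  unfold w
  rw [zero_smul, inter_self]
  change vB R / vB R ^ 2 = 1 / vB R
  rcases (vB_nonneg R).eq_or_lt with h | h
  · rw [← h]; simp
  · field_simp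

lemma w_eq_zero_of_lt {R r : ℝ} (h : 2 * R < |r|) : w R r = 0 := by
  unfold w
  have : closedBall (0 : Pt) R ∩ closedBall (r • e0) R = ∅ := by
    rw [← disjoint_iff_inter_eq_empty]
    apply closedBall_disjoint_closedBall
    rw [dist_zero_left, norm_smul, norm_e0, mul_one, Real.norm_eq_abs]
    linarith
  rw [this]; simp

lemma w_eq_zero {R r : ℝ} (h : 2 * R < r) : w R r = 0 :=
  w_eq_zero_of_lt (lt_of_lt_of_le h (le_abs_self r))


lemma ind_mul_ind (R : ℝ) (x y z : Pt) :
    (closedBall x R).indicator (fun _ => (1 : ℝ)) z * (closedBall y R).indicator (fun _ => (1 : ℝ)) z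
      = (closedBall x R ∩ closedBall y R).indicator (fun _ => (1 : ℝ)) z := by
  have h3 : z ∈ closedBall x R ∩ closedBall y R ↔ z ∈ closedBall x R ∧ z ∈ closedBall y R :=
    Iff.rfl
  by_cases h1 : z ∈ closedBall x R
  · by_cases h2 : z ∈ closedBall y R
    · rw [indicator_of_mem h1, indicator_of_mem h2, indicator_of_mem (h3.2 ⟨h1, h2⟩), one_mul]
    · rw [indicator_of_notMem h2, indicator_of_notMem (fun h => h2 (h3.1 h).2), mul_zero]
  · rw [indicator_of_notMem h1, indicator_of_notMem (fun h => h1 (h3.1 h).1), zero_mul]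

/-- the kernel as an integral of indicators -/
lemma w_eq_integral (R r : ℝ) :
    w R r = (∫ z, (closedBall (0 : Pt) R).indicator (fun _ => (1 : ℝ)) z *
      (closedBall (r • e0) R).indicator (fun _ => (1 : ℝ)) z) / vB R ^ 2 := by
  unfold w
  congr 1
  have : (fun z : Pt => (closedBall (0 : Pt) R).indicator (fun _ => (1 : ℝ)) z *
      (closedBall (r • e0) R).indicator (fun _ => (1 : ℝ)) z)
      = (closedBall (0 : Pt) R ∩ closedBall (r • e0) R).indicator (fun _ => (1 : ℝ)) := by
    ext z
    exact ind_mul_ind R _ _ z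
  rw [this]
  rw [integral_indicator (measurableSet_closedBall.inter measurableSet_closedBall)]
  simp

lemma continuous_w (R : ℝ) : Continuous (w R) := by
  have hfun : w R = fun r => (∫ z, (closedBall (0 : Pt) R).indicator (fun _ => (1 : ℝ)) z *
      (closedBall (r • e0) R).indicator (fun _ => (1 : ℝ)) z) / vB R ^ 2 := by
    ext r; exact w_eq_integral R r
  rw [hfun]
  apply Continuous.div_const
  rw [continuous_iff_continuousAt]
  intro r₀
  apply continuousAt_of_dominated
    (bound := (closedBall (0 : Pt) R).indicator (fun _ => (1 : ℝ)))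
  · refine Filter.Eventually.of_forall fun r => ?_
    exact ((measurable_const.indicator measurableSet_closedBall).mul
      (measurable_const.indicator measurableSet_closedBall)).aestronglyMeasurable
  · refine Filter.Eventually.of_forall fun r => Filter.Eventually.of_forall fun z => ?_
    by_cases h1 : z ∈ closedBall (0 : Pt) R <;> by_cases h2 : z ∈ closedBall (r • e0) R <;>
      simp [h1, h2, indicator_of_mem, indicator_of_notMem]
  · rw [integrable_indicator_iff measurableSet_closedBall]
    exact integrableOn_const measure_closedBall_lt_top.ne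
  · have hs : volume (sphere (r₀ • e0 : Pt) R) = 0 := Measure.addHaar_sphere volume _ _
    have : ∀ᵐ z : Pt, z ∉ sphere (r₀ • e0 : Pt) R := measure_eq_zero_iff_ae_notMem.1 hs
    filter_upwards [this] with z hz
    apply ContinuousAt.mul continuousAt_const
    have hcont : Continuous (fun r : ℝ => dist z (r • e0)) :=
      continuous_const.dist (continuous_id.smul continuous_const)
    rcases lt_trichotomy (dist z (r₀ • e0)) R with h | h | h
    · have hev : ∀ᶠ r in nhds r₀, dist z (r • e0) < R :=
        hcont.continuousAt.eventually_lt continuousAt_const h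
      have : (fun r : ℝ => (closedBall (r • e0) R).indicator (fun _ => (1 : ℝ)) z)
          =ᶠ[nhds r₀] fun _ => 1 := by
        filter_upwards [hev] with r hr
        rw [indicator_of_mem]
        exact mem_closedBall.2 hr.le
      exact (continuousAt_const).congr this.symm
    · exact absurd (mem_sphere.2 h) hz
    · have hev : ∀ᶠ r in nhds r₀, R < dist z (r • e0) :=
        continuousAt_const.eventually_lt hcont.continuousAt h
      have : (fun r : ℝ => (closedBall (r • e0) R).indicator (fun _ => (1 : ℝ)) z)
          =ᶠ[nhds r₀] fun _ => 0 := by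
        filter_upwards [hev] with r hr
        rw [indicator_of_notMem]
        simpa [mem_closedBall] using hr
      exact (continuousAt_const).congr this.symm

















lemma w_two_mul {R : ℝ} : w R (2 * R) = 0 := by
  have h1 : Filter.Tendsto (w R) (nhdsWithin (2 * R) (Ioi (2 * R))) (nhds (w R (2 * R))) :=
    (continuous_w R).continuousAt.tendsto.mono_left nhdsWithin_le_nhds
  have h2 : Filter.Tendsto (w R) (nhdsWithin (2 * R) (Ioi (2 * R))) (nhds 0) := by
    apply Filter.Tendsto.congr' _ tendsto_const_nhds
    filter_upwards [self_mem_nhdsWithin] with r hr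
    exact (w_eq_zero hr).symm
  exact tendsto_nhds_unique h1 h2

lemma w_eq_zero_of_le {R r : ℝ} (h : 2 * R ≤ r) : w R r = 0 := by
  rcases h.eq_or_lt with h | h
  · rw [← h, w_two_mul]
  · exact w_eq_zero h

lemma w_ge {R r : ℝ} (hr : 0 ≤ r) : vB (R - r / 2) / vB R ^ 2 ≤ w R r := by
  unfold w
  apply div_le_div_of_nonneg_right _ (by positivity)
  have hsub : closedBall ((r / 2) • e0) (R - r / 2)
      ⊆ closedBall (0 : Pt) R ∩ closedBall (r • e0) R := by
    intro z hz
    rw [mem_closedBall] at hz
    constructor
    · rw [mem_closedBall]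
      have h1 : dist ((r / 2) • e0) (0 : Pt) = r / 2 := by
        rw [dist_zero_right, norm_smul, norm_e0, mul_one, Real.norm_eq_abs,
          abs_of_nonneg (by positivity)]
      have := dist_triangle z ((r / 2) • e0) (0 : Pt)
      linarith
    · rw [mem_closedBall]
      have h1 : dist ((r / 2) • e0) (r • e0) = r / 2 := by
        rw [dist_eq_norm, ← sub_smul, norm_smul, norm_e0, mul_one, Real.norm_eq_abs,
          abs_sub_comm, abs_of_nonneg (by linarith)]
        ring
      have := dist_triangle z ((r / 2) • e0) (r • e0)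
      linarith
  rw [← volume_real_closedBall ((r / 2) • e0) (R - r / 2)]
  exact measureReal_mono hsub
    ((measure_mono inter_subset_left).trans_lt measure_closedBall_lt_top).ne

/-- **Basic properties of the kernel** (module D0). -/
theorem kernelProps : KernelProps where
  vB_pos R hR := vB_pos hR
  vB_scale R hR := vB_eq_mul hR
  dist R _ x y := by rw [wk_eq_w, w_dist]; rfl
  nonneg R r := by rw [wk_eq_w]; exact w_nonneg R r
  le R r _ := by rw [wk_eq_w]; exact w_le r
  zero R _ := by rw [wk_eq_w]; exact w_zero
  far R r _ h := by rw [wk_eq_w]; exact w_eq_zero_of_le h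
  cont R _ := by
    have : wk R = w R := funext fun r => wk_eq_w R r
    rw [this]; exact continuous_w R
  pos R r hR hr hr3 := by
    rw [wk_eq_w]
    refine le_trans ?_ (w_ge hr)
    apply div_le_div_of_nonneg_right _ (by positivity)
    have h1 : (0 : ℝ) ≤ R - 3 / 2 := by linarith
    have h2 : (0 : ℝ) ≤ R - r / 2 := by linarith
    rw [vB_eq_mul h2]
    apply mul_le_mul_of_nonneg_right _ (vB_nonneg 1)
    exact pow_le_pow_left₀ h1 (by linarith) 3


end Crest.Agent.R149
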