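import Mathlib
import Crest.Prelude.Def_PairPotential

-- ▼ part R149/Config
section

/-!
Configuration functionals: `Zm μ n g = (n!)⁻¹ ∫⁻ g(multiset of x) d(μ^n)` and the splitting theorem
for sums of measures (disjoint regions).
-/

set_option autoImplicit false

open MeasureTheory Crest.ProbabilityR.Continuum
open scoped ENNReal

namespace Crest.Agent.R149

/-- multiset of the points of a configuration -/
def mset {ι : Type*} [Fintype ι] (x : ι → Pt) : Multiset Pt := Finset.univ.val.map x

theorem mset_comp_equiv {ι κ : Type*} [Fintype ι] [Fintype κ] (e : ι ≃ κ) (x : κ → Pt) :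
    mset (fun i => x (e i)) = mset x := by
  unfold mset
  have : (Finset.univ : Finset κ).val = (Finset.univ : Finset ι).val.map e := by
    have := Finset.map_univ_equiv e
    rw [← this]; rfl
  rw [this, Multiset.map_map]; rfl

theorem card_mset {ι : Type*} [Fintype ι] (x : ι → Pt) : (mset x).card = Fintype.card ι := by
  simp [mset]

theorem mset_sum {ι κ : Type*} [Fintype ι] [Fintype κ] (x : ι → Pt) (y : κ → Pt) :
    mset (Sum.elim x y) = mset x + mset y := by
  unfold mset
  rw [show (Finset.univ : Finset (ι ⊕ κ)) = Finset.univ.disjSum Finset.univ from rfl,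
    Finset.val_disjSum, Multiset.disjSum, Multiset.map_add, Multiset.map_map, Multiset.map_map]
  rfl

theorem mem_mset {ι : Type*} [Fintype ι] (x : ι → Pt) (p : Pt) : p ∈ mset x ↔ ∃ i, x i = p := by
  simp [mset]


/-- measurability of a function of configurations -/
def MMeas {E : Type*} [MeasurableSpace E] (g : Multiset Pt → E) : Prop :=
  ∀ n : ℕ, Measurable (fun x : Fin n → Pt => g (mset x))

theorem MMeas.fintype {E : Type*} [MeasurableSpace E] {g : Multiset Pt → E} (hg : MMeas g) {ι : Type*} [Fintype ι] :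
    Measurable (fun x : ι → Pt => g (mset x)) := by
  have e := (Fintype.equivFin ι).symm
  have h1 := hg (Fintype.card ι)
  have h2 : Measurable (fun x : ι → Pt => (fun i => x (e i) : Fin (Fintype.card ι) → Pt)) :=
    measurable_pi_lambda _ (fun i => measurable_pi_apply _)
  have h3 := h1.comp h2
  have h4 : (fun x : ι → Pt => g (mset x)) = (fun x : Fin (Fintype.card ι) → Pt => g (mset x)) ∘
      (fun x : ι → Pt => (fun i => x (e i) : Fin (Fintype.card ι) → Pt)) := by
    funext x
    simp only [Function.comp]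
    rw [mset_comp_equiv]
  rw [h4]; exact h3

/-- the canonical functional -/
noncomputable def Zm (μ : Measure Pt) (n : ℕ) (g : Multiset Pt → ℝ≥0∞) : ℝ≥0∞ :=
  (n.factorial : ℝ≥0∞)⁻¹ * ∫⁻ x : Fin n → Pt, g (mset x) ∂(Measure.pi fun _ => μ)


theorem pi_add_measure (μ ν : Measure Pt) [SigmaFinite μ] [SigmaFinite ν] (n : ℕ) :
    (Measure.pi fun _ : Fin n => μ + ν) =
      ∑ S ∈ (Finset.univ : Finset (Fin n)).powerset,
        Measure.pi (fun i => if i ∈ S then μ else ν) := by
  have : ∀ (S : Finset (Fin n)) (i : Fin n), SigmaFinite (if i ∈ S then μ else ν) := by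
    intro S i; split_ifs <;> infer_instance
  refine Measure.pi_eq (fun s hs => ?_)
  rw [Measure.coe_finsetSum, Finset.sum_apply]
  simp only [Measure.pi_pi, Measure.coe_add, Pi.add_apply]
  rw [Finset.prod_add]
  refine Finset.sum_congr rfl (fun S hS => ?_)
  have h1 : ∀ i, (if i ∈ S then μ else ν) (s i) = if i ∈ S then μ (s i) else ν (s i) := by
    intro i; split_ifs <;> rfl
  simp_rw [h1]
  rw [Finset.prod_ite]
  congr 1
  · congr 1; ext i; simp
  · congr 1; ext i; simp

theorem lintegral_split (μ ν : Measure Pt) [SigmaFinite μ] [SigmaFinite ν] (n : ℕ)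
    (S : Finset (Fin n)) (g : Multiset Pt → ℝ≥0∞) (hg : MMeas g) :
    ∫⁻ x : Fin n → Pt, g (mset x) ∂(Measure.pi fun i => if i ∈ S then μ else ν) =
      ∫⁻ y : Fin S.card → Pt, (∫⁻ z : Fin (n - S.card) → Pt, g (mset y + mset z)
        ∂(Measure.pi fun _ => ν)) ∂(Measure.pi fun _ => μ) := by
  classical
  have : ∀ (i : Fin n), SigmaFinite (if i ∈ S then μ else ν) := by
    intro i; split_ifs <;> infer_instance
  -- the equivalence
  have c1 : Fintype.card {i // i ∈ S} = S.card := by simp
  have c2 : Fintype.card {i // ¬ i ∈ S} = n - S.card := by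
    rw [Fintype.card_subtype_compl]; simp
  let e1 : Fin S.card ≃ {i // i ∈ S} := (Fintype.equivFinOfCardEq c1).symm
  let e2 : Fin (n - S.card) ≃ {i // ¬ i ∈ S} := (Fintype.equivFinOfCardEq c2).symm
  let e : Fin S.card ⊕ Fin (n - S.card) ≃ Fin n :=
    (Equiv.sumCongr e1 e2).trans (Equiv.sumCompl (fun i => i ∈ S))
  let m : Fin n → Measure Pt := fun i => if i ∈ S then μ else ν
  have : ∀ i, SigmaFinite (m i) := this
  have hP1 := measurePreserving_piCongrLeft (α := fun _ => Pt) m e
  have hP2 := measurePreserving_sumPiEquivProdPi_symm (X := fun _ => Pt) (fun i => m (e i))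
  have m1 : ∀ i, m (e (Sum.inl i)) = μ := by
    intro i; simp only [m, e, e1]; simp
  have m2 : ∀ i, m (e (Sum.inr i)) = ν := by
    intro i; simp only [m, e, e2]
    have : ¬ ((Equiv.sumCompl fun i => i ∈ S) (Sum.inr ((Fintype.equivFinOfCardEq c2).symm i)) ∈ S) := by
      simp only [Equiv.sumCompl_apply_inr]
      exact ((Fintype.equivFinOfCardEq c2).symm i).2
    simp only [Equiv.trans_apply, Equiv.sumCongr_apply, Sum.map_inr]
    rw [if_neg this]
  have hP := hP1.comp hP2
  rw [← hP.lintegral_comp_emb]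
  · simp only [m1, m2]
    rw [lintegral_prod]
    · refine lintegral_congr (fun y => lintegral_congr (fun z => ?_))
      congr 1
      rw [← mset_sum]
      rw [← mset_comp_equiv e]
      congr 1
      funext i
      simp only [Function.comp, MeasurableEquiv.coe_piCongrLeft]
      rcases i with i | i
      · rw [Equiv.piCongrLeft_apply_apply]; rfl
      · rw [Equiv.piCongrLeft_apply_apply]; rfl
    · have h0 := hg n
      have h4 : Measurable (fun x : (Fin S.card → Pt) × (Fin (n - S.card) → Pt) =>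
        ((MeasurableEquiv.piCongrLeft (fun _ => Pt) e) ∘
          (MeasurableEquiv.sumPiEquivProdPi fun _ => Pt).symm) x) :=
        (MeasurableEquiv.measurable _).comp (MeasurableEquiv.measurable _)
      exact (h0.comp h4).aemeasurable
  · exact (MeasurableEquiv.measurableEmbedding _).comp (MeasurableEquiv.measurableEmbedding _)

/-- **Splitting theorem.** -/
theorem Zm_add (μ ν : Measure Pt) [SigmaFinite μ] [SigmaFinite ν] (n : ℕ)
    (g : Multiset Pt → ℝ≥0∞) (hg : MMeas g) :
    Zm (μ + ν) n g =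
      ∑ k ∈ Finset.range (n + 1), Zm μ k (fun s => Zm ν (n - k) (fun t => g (s + t))) := by
  unfold Zm
  rw [pi_add_measure, lintegral_finsetSum_measure]
  obtain ⟨f, hf⟩ : ∃ f : ℕ → ℝ≥0∞, f = (fun k => ∫⁻ y : Fin k → Pt, (∫⁻ z : Fin (n - k) → Pt, g (mset y + mset z)
        ∂(Measure.pi fun _ => ν)) ∂(Measure.pi fun _ => μ)) := ⟨_, rfl⟩
  have h1 : ∀ S ∈ (Finset.univ : Finset (Fin n)).powerset,
      ∫⁻ x : Fin n → Pt, g (mset x) ∂(Measure.pi fun i => if i ∈ S then μ else ν) = f S.card := by
    intro S _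
    rw [hf]
    exact lintegral_split μ ν n S g hg
  rw [Finset.sum_congr rfl h1, Finset.sum_powerset_apply_card f, hf]
  simp only [Finset.card_univ, Fintype.card_fin]
  rw [Finset.mul_sum]
  refine Finset.sum_congr rfl (fun k hk => ?_)
  have hk' : k ≤ n := by simpa [Nat.lt_succ_iff] using hk
  rw [lintegral_const_mul' _ _ (by simp [Nat.factorial_ne_zero]), ← mul_assoc, nsmul_eq_mul,
    ← mul_assoc]
  congr 1
  have h2 : ((n.choose k : ℕ) : ℝ≥0∞) * (k.factorial : ℝ≥0∞) * ((n - k).factorial : ℝ≥0∞)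
      = (n.factorial : ℝ≥0∞) := by
    exact_mod_cast congrArg (Nat.cast : ℕ → ℝ≥0∞) (Nat.choose_mul_factorial_mul_factorial hk')
  have f1 : (k.factorial : ℝ≥0∞) ≠ 0 := by simp [Nat.factorial_ne_zero]
  have f2 : ((n - k).factorial : ℝ≥0∞) ≠ 0 := by simp [Nat.factorial_ne_zero]
  have f3 : (n.factorial : ℝ≥0∞) ≠ 0 := by simp [Nat.factorial_ne_zero]
  have t1 : (k.factorial : ℝ≥0∞) ≠ ⊤ := ENNReal.natCast_ne_top _
  have t2 : ((n - k).factorial : ℝ≥0∞) ≠ ⊤ := ENNReal.natCast_ne_top _
  have t3 : (n.factorial : ℝ≥0∞) ≠ ⊤ := ENNReal.natCast_ne_top _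
  have tc : ((n.choose k : ℕ) : ℝ≥0∞) ≠ ⊤ := ENNReal.natCast_ne_top _
  have hc : ((n.choose k : ℕ) : ℝ≥0∞) ≠ 0 := by
    simpa using (Nat.choose_pos hk').ne'
  rw [← h2]
  rw [ENNReal.mul_inv (Or.inr t2) (Or.inr f2), ENNReal.mul_inv (Or.inl hc) (Or.inl tc)]
  calc ((n.choose k : ℕ) : ℝ≥0∞)⁻¹ * (k.factorial : ℝ≥0∞)⁻¹ * ((n - k).factorial : ℝ≥0∞)⁻¹ *
        ((n.choose k : ℕ) : ℝ≥0∞)
      = (((n.choose k : ℕ) : ℝ≥0∞) * ((n.choose k : ℕ) : ℝ≥0∞)⁻¹) *
        ((k.factorial : ℝ≥0∞)⁻¹ * ((n - k).factorial : ℝ≥0∞)⁻¹) := by ring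
    _ = (k.factorial : ℝ≥0∞)⁻¹ * ((n - k).factorial : ℝ≥0∞)⁻¹ := by
        rw [ENNReal.mul_inv_cancel hc tc, one_mul]


theorem Zm_mono {A : Set Pt} (hA : MeasurableSet A) (n : ℕ) {g g' : Multiset Pt → ℝ≥0∞}
    (h : ∀ s : Multiset Pt, s.card = n → (∀ p ∈ s, p ∈ A) → g s ≤ g' s) :
    Zm (volume.restrict A) n g ≤ Zm (volume.restrict A) n g' := by
  unfold Zm
  refine mul_le_mul' le_rfl ?_
  rw [← Measure.restrict_pi_pi]
  refine setLIntegral_mono' (MeasurableSet.univ_pi (fun _ => hA)) (fun x hx => ?_)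
  refine h _ (by simp [card_mset]) ?_
  intro p hp
  obtain ⟨i, rfl⟩ := (mem_mset x p).1 hp
  exact hx i (Set.mem_univ i)


theorem Zm_mul_const (μ : Measure Pt) (n : ℕ) (g : Multiset Pt → ℝ≥0∞) (hg : MMeas g) (c : ℝ≥0∞) :
    Zm μ n (fun s => g s * c) = Zm μ n g * c := by
  unfold Zm
  rw [lintegral_mul_const _ (hg n)]
  ring


theorem MMeas.filter {E : Type*} [MeasurableSpace E] {g : Multiset Pt → E} (hg : MMeas g)
    {A : Set Pt} (hA : MeasurableSet A) [DecidablePred (· ∈ A)] :
    MMeas (fun s => g (s.filter (· ∈ A))) := by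
  classical
  intro n t ht
  have key : (fun x : Fin n → Pt => g ((mset x).filter (· ∈ A))) ⁻¹' t =
      ⋃ S : Finset (Fin n), ({x : Fin n → Pt | ∀ i, x i ∈ A ↔ i ∈ S} ∩
        (fun x : Fin n → Pt => g (mset (fun i : S => x i))) ⁻¹' t) := by
    ext x
    simp only [Set.mem_preimage, Set.mem_iUnion, Set.mem_inter_iff, Set.mem_ofPred_eq]
    have hf : ∀ S : Finset (Fin n), (∀ i, x i ∈ A ↔ i ∈ S) →
        (mset x).filter (· ∈ A) = mset (fun i : S => x i) := by
      intro S hS
      have e1 : S = Finset.univ.filter (fun i => x i ∈ A) := by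
        ext i; simp [hS i]
      unfold mset
      rw [Multiset.filter_map]
      have e2 : Multiset.filter ((fun p => p ∈ A) ∘ x) (Finset.univ : Finset (Fin n)).val = S.val := by
        rw [e1]; rfl
      rw [e2]
      have e3 : (Finset.univ : Finset S).val.map (fun i : S => x i) =
          ((Finset.univ : Finset S).val.map (fun i : S => (i : Fin n))).map x := by
        rw [Multiset.map_map]; rfl
      rw [e3]
      congr 1
      have e4 : (Finset.univ : Finset S) = S.attach := rfl
      rw [e4]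
      exact (Multiset.attach_map_val S.val).symm
    constructor
    · intro hx
      refine ⟨Finset.univ.filter (fun i => x i ∈ A), fun i => by simp, ?_⟩
      rw [← hf _ (fun i => by simp)]
      exact hx
    · rintro ⟨S, hS, hx⟩
      rw [hf S hS]
      exact hx
  rw [key]
  refine MeasurableSet.iUnion (fun S => MeasurableSet.inter ?_ ?_)
  · rw [Set.ofPred_forall]
    refine MeasurableSet.iInter (fun i => ?_)
    by_cases hi : i ∈ S
    · simp only [hi, iff_true]
      exact measurable_pi_apply i hA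
    · simp only [hi, iff_false]
      exact (measurable_pi_apply i hA).compl
  · have h1 : Measurable (fun x : Fin n → Pt => (fun i : S => x i)) :=
      measurable_pi_lambda _ (fun i => measurable_pi_apply _)
    have h2 := (MMeas.fintype hg (ι := S)).comp h1
    exact h2 ht

theorem MMeas.add_right {E : Type*} [MeasurableSpace E] {g : Multiset Pt → E} (hg : MMeas g)
    (s : Multiset Pt) : MMeas (fun t => g (s + t)) := by
  intro n
  obtain ⟨l, hl⟩ : ∃ l : List Pt, (l : Multiset Pt) = s := ⟨s.toList, s.coe_toList⟩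
  have hs : s = mset (fun i : Fin l.length => l.get i) := by
    rw [← hl]; unfold mset
    simp
  have h1 : Measurable (fun x : Fin n → Pt => Sum.elim (fun i : Fin l.length => l.get i) x) := by
    refine measurable_pi_lambda _ (fun i => ?_)
    rcases i with i | i
    · exact measurable_const
    · exact measurable_pi_apply i
  have h2 := (MMeas.fintype hg (ι := Fin l.length ⊕ Fin n)).comp h1
  have h3 : (fun x : Fin n → Pt => g (s + mset x)) = (fun x : (Fin l.length ⊕ Fin n) → Pt => g (mset x)) ∘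
      (fun x : Fin n → Pt => Sum.elim (fun i : Fin l.length => l.get i) x) := by
    funext x
    simp only [Function.comp]
    rw [mset_sum, ← hs]
  show Measurable (fun x : Fin n → Pt => g (s + mset x))
  rw [h3]
  exact h2

end Crest.Agent.R149
end

-- ▼ part R149/Blocks

/-!
Grand canonical functional and multi-block factorisation.
-/

set_option autoImplicit false

open MeasureTheory Crest.ProbabilityR.Continuum
open scoped ENNReal

namespace Crest.Agent.R149

theorem Zm_const_mul' (μ : Measure Pt) (n : ℕ) (g : Multiset Pt → ℝ≥0∞) (hg : MMeas g) (c : ℝ≥0∞) :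
    Zm μ n (fun s => c * g s) = c * Zm μ n g := by
  unfold Zm
  rw [lintegral_const_mul _ (hg n)]
  ring

/-- canonical two-block lower bound -/
theorem Zm_union_ge {A B : Set Pt} (hA : MeasurableSet A) (hB : MeasurableSet B)
    (hd : Disjoint A B) (n m : ℕ) {g g1 g2 : Multiset Pt → ℝ≥0∞} (hg : MMeas g) (hg1 : MMeas g1)
    (hg2 : MMeas g2)
    (h : ∀ s t : Multiset Pt, (∀ p ∈ s, p ∈ A) → (∀ p ∈ t, p ∈ B) → s.card = n → t.card = m →
      g1 s * g2 t ≤ g (s + t)) :
    Zm (volume.restrict A) n g1 * Zm (volume.restrict B) m g2 ≤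
      Zm (volume.restrict (A ∪ B)) (n + m) g := by
  rw [Measure.restrict_union hd hB, Zm_add _ _ _ _ hg]
  refine le_trans ?_ (Finset.single_le_sum (f := fun k => Zm (volume.restrict A) k
    (fun s => Zm (volume.restrict B) (n + m - k) (fun t => g (s + t)))) (fun i _ => zero_le)
    (show n ∈ Finset.range (n + m + 1) by simp))
  simp only [Nat.add_sub_cancel_left]
  rw [← Zm_mul_const _ _ _ hg1]
  refine Zm_mono hA n (fun s hs hsA => ?_)
  rw [← Zm_const_mul' _ _ _ hg2]
  exact Zm_mono hB m (fun t ht htB => h s t hsA htB hs ht)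








end Crest.Agent.R149
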