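import Mathlib
import Crest.Prelude.Def_PairPotential
import Crest.Prelude.Def_UnitPacking

-- ▼ part R149/Defs
section

/-!
# Row 149: common definitions (multi-scale Kac potentials)

`Pt = EuclideanSpace ℝ (Fin 3)`.  Configurations are `x : ι → Pt` with `ι : Type` a `Fintype`.
-/

set_option autoImplicit false

open MeasureTheory Crest.ProbabilityR.Continuum
open scoped ENNReal

namespace Crest.Agent.R149


/-- Full double sum (diagonal included) of a radial function. -/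
noncomputable def SS (g : ℝ → ℝ) {ι : Type} [Fintype ι] (x : ι → Pt) : ℝ :=
  ∑ i, ∑ j, g (dist (x i) (x j))

/-- Core energy: each unordered pair of distinct indices once. -/
noncomputable def U (c : ℝ → ℝ) {ι : Type} [Fintype ι] (x : ι → Pt) : ℝ :=
  (SS c x - Fintype.card ι * c 0) / 2

/-- Attractive energy with self energies: `1/2 ∑_{i,j} α(|x_i-x_j|)`. -/
noncomputable def A (α : ℝ → ℝ) {ι : Type} [Fintype ι] (x : ι → Pt) : ℝ :=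
  SS α x / 2

/-- Hamiltonian: core minus attraction. -/
noncomputable def Ham (c α : ℝ → ℝ) {ι : Type} [Fintype ι] (x : ι → Pt) : ℝ :=
  U c x - A α x

/-- A family of functionals of finite configurations. -/
abbrev Fam : Type 1 := ∀ (ι : Type) [Fintype ι], (ι → Pt) → ℝ

/-- Partition sum with Boltzmann weight `exp F` on the region `S` with `n` particles. -/
noncomputable def ZF (F : Fam) (S : Set Pt) (n : ℕ) : ℝ≥0∞ :=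
  (n.factorial : ℝ≥0∞)⁻¹ *
    ∫⁻ x in Set.pi Set.univ (fun _ : Fin n => S), ENNReal.ofReal (Real.exp (F (Fin n) x))

/-- Measurability and relabelling invariance of a family. -/
structure FamOK (F : Fam) : Prop where
  meas : ∀ (ι : Type) [Fintype ι], Measurable (F ι)
  perm : ∀ (ι κ : Type) [Fintype ι] [Fintype κ] (e : ι ≃ κ) (x : κ → Pt),
    F ι (fun i => x (e i)) = F κ x

/-- The family `-β * Ham`. -/
noncomputable def HF (c α : ℝ → ℝ) (β : ℝ) : Fam := fun _ _ x => -β * Ham c α x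

/-- Logarithm of the canonical partition function of the cube `[0,L]^3`, with self energies. -/
noncomputable def LZ (c α : ℝ → ℝ) (β L : ℝ) (n : ℕ) : ℝ :=
  Real.log (ZF (HF c α β) (cube L) n).toReal

/-- The pressure: supremum over integer boxes `L = q.1 + 1` (period `q.1 + 3`) and `n = q.2`. -/
noncomputable def Pr (c α : ℝ → ℝ) (β h : ℝ) : ℝ :=
  ⨆ q : ℕ × ℕ, (h * q.2 + LZ c α β ((q.1 : ℝ) + 1) q.2) / ((q.1 : ℝ) + 3) ^ 3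

/-- Grid cell (side `s`, shift `z`) of a point. -/
noncomputable def cell (s : ℝ) (z : Fin 3 → ℝ) (y : Pt) : Fin 3 → ℤ :=
  fun k => ⌊(y k + z k) / s⌋

open Classical in
/-- Sum over cells of the squared occupation number: number of ordered pairs in the same cell. -/
noncomputable def N2 (s : ℝ) (z : Fin 3 → ℝ) {ι : Type} [Fintype ι] (x : ι → Pt) : ℝ :=
  ∑ i, ∑ j, if cell s z (x i) = cell s z (x j) then (1 : ℝ) else 0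

open Classical in
/-- Double sum of a radial function restricted to pairs in the same cell (diagonal included). -/
noncomputable def SC (g : ℝ → ℝ) (s : ℝ) (z : Fin 3 → ℝ) {ι : Type} [Fintype ι]
    (x : ι → Pt) : ℝ :=
  ∑ i, ∑ j, if cell s z (x i) = cell s z (x j) then g (dist (x i) (x j)) else 0

/-- Volume of the ball of radius `R`. -/
noncomputable def vB (R : ℝ) : ℝ := (volume (Metric.closedBall (0 : Pt) R)).toReal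

/-- Normalised autocorrelation of the ball of radius `R`. -/
noncomputable def wk (R r : ℝ) : ℝ :=
  (volume (Metric.closedBall (0 : Pt) R ∩
    Metric.closedBall (EuclideanSpace.single (0 : Fin 3) r : Pt) R)).toReal / (vB R) ^ 2

/-- Admissible core. -/
structure CoreOK (c : ℝ → ℝ) : Prop where
  meas : Measurable c
  nonneg : ∀ r, 0 ≤ c r
  far : ∀ r, 2 ≤ r → c r = 0
  int : ∫⁻ y : Pt, ENNReal.ofReal (c ‖y‖) ≠ ⊤

/-- Admissible attraction. -/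
structure AttrOK (α : ℝ → ℝ) : Prop where
  meas : Measurable α
  nonneg : ∀ r, 0 ≤ α r
  bdd : ∃ C : ℝ, ∀ r, α r ≤ C

/-- Stability: the attraction is dominated by a quarter of the core energy. -/
def Stab (c α : ℝ → ℝ) (B : ℝ) : Prop :=
  0 ≤ B ∧ ∀ (ι : Type) [Fintype ι] (x : ι → Pt), A α x ≤ (1 / 4) * U c x + B * Fintype.card ι

/-- Any `K+1` points with mutual distances `< 1` contain a pair with core energy `≥ M`. -/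
def CoreK (c : ℝ → ℝ) (K : ℕ) (M : ℝ) : Prop :=
  ∀ x : Fin (K + 1) → Pt, (∀ i j, dist (x i) (x j) < 1) → ∃ i j, i ≠ j ∧ M ≤ c (dist (x i) (x j))

/-- The attraction is dominated by `a` times the sum of squared occupation numbers of cells of
side `1/2`. -/
def AttrBound (α : ℝ → ℝ) (a : ℝ) : Prop :=
  0 ≤ a ∧ ∀ (ι : Type) [Fintype ι] (x : ι → Pt), A α x ≤ a * N2 (1 / 2) 0 x

/-- The geometric data: `K` points with mutual distances in `(θ₂, θ₃)` exist, `K+1` points with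
mutual distances in `(1/2, 1)` do not. -/
structure KGeom (K : ℕ) (θ₂ θ₃ : ℝ) : Prop where
  two_le : 2 ≤ K
  h12 : 1 / 2 < θ₂
  h23 : θ₂ < θ₃
  h31 : θ₃ < 1
  ex : ∃ y : Fin K → Pt, ∀ i j, i ≠ j → θ₂ < dist (y i) (y j) ∧ dist (y i) (y j) < θ₃
  nex : ∀ y : Fin (K + 1) → Pt, ¬ ∀ i j, i ≠ j → 1 / 2 < dist (y i) (y j) ∧ dist (y i) (y j) < 1

/-- Core of the special shape used in the base model. -/
structure CoreType (c : ℝ → ℝ) (θ₂ θ₃ ξ δ M : ℝ) : Prop extends CoreOK c where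
  hξ : 0 < ξ
  hξ1 : ξ ≤ 1
  hδ : 0 < δ
  hδ1 : δ ≤ 1 / 4
  hM : 0 ≤ M
  far' : ∀ r, 1 + ξ ≤ r → c r = 0
  win : ∀ r, θ₂ * δ ≤ r → r ≤ θ₃ * δ → c r = 0
  big1 : ∀ r, 0 ≤ r → r ≤ δ / 2 → M ≤ c r
  big2 : ∀ r, δ ≤ r → r < 1 → M ≤ c r

/-- Mean-field pressure of the (scaled) base model. -/
noncomputable def MF0 (p : ℝ) (K : ℕ) (h : ℝ) : ℝ :=
  max 0 (max (p * h) (p * (K * h - (K - 1))))

end Crest.Agent.R149
end

-- ▼ part R149/Stmts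

/-!
# Row 149: statements of all modules (as `Prop`s).  Each module file proves `theorem xxx : XxxStmt`.
A module may take other statements as hypotheses, or import the modules that prove them.
-/

set_option autoImplicit false

open MeasureTheory Crest.ProbabilityR.Continuum Filter Topology
open scoped ENNReal

namespace Crest.Agent.R149

/-! ## Module A: abstract convex analysis -/

/-- A1: a jointly convex function on the open half plane `β > 0` has a (global) subgradient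
everywhere. -/
def SubgradStmt : Prop :=
  ∀ P : ℝ → ℝ → ℝ, ConvexOn ℝ {x : ℝ × ℝ | 0 < x.1} (fun x => P x.1 x.2) →
    ∀ β h : ℝ, 0 < β → ∃ e ρ : ℝ, ∀ β' h' : ℝ, 0 < β' →
      P β h - e * (β' - β) + ρ * (h' - h) ≤ P β' h'

/-- `(e, ρ)` is an `ε`-subgradient of `P` at `(β, h)` (sign convention: `-e` in direction `β`). -/
def ESub (P : ℝ → ℝ → ℝ) (ε β h e ρ : ℝ) : Prop :=
  ∀ β' h' : ℝ, 0 < β' → P β h - ε - e * (β' - β) + ρ * (h' - h) ≤ P β' h'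

/-- A2: one step of the multi-scale recursion.  `E i, D i` (`i : Fin 3`) are the centres. -/
def StepStmt : Prop :=
  ∀ (P P' : ℝ → ℝ → ℝ) (E D : Fin 3 → ℝ) (a ε ε' η g mm r b1 b2 H Eb : ℝ),
    ConvexOn ℝ {x : ℝ × ℝ | 0 < x.1} (fun x => P x.1 x.2) →
    (∀ β h h', 0 < β → h ≤ h' → P β h ≤ P β h') →
    0 < a → 0 ≤ ε → 0 ≤ ε' → 0 ≤ η → 0 < g → 0 < r → 0 < b1 → b1 + r ≤ b2 - r → b2 ≤ 2 →
    (∀ i, D i + g / 2 < mm) → (∀ i j, i ≠ j → g ≤ |D i - D j|) → (∀ i j, |E i - E j| + 2 * η ≤ Eb) →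
    4 * η ≤ g → 4 * Real.sqrt (2 * ε / (b1 * a)) ≤ g → (2 * ε + Eb * r) / (b1 * a) < g ^ 2 / 32 →
    -- `ε`-subgradients near the centres on the window `[b1,b2] × (-∞, H + 2 a mm]`
    (∀ β h, b1 ≤ β → β ≤ b2 → h ≤ H + 2 * a * mm →
      ∃ i : Fin 3, ∃ e ρ : ℝ, |e - E i| ≤ η ∧ |ρ - D i| ≤ η ∧ ESub P ε β h e ρ) →
    -- recursion
    (∀ β h m, 0 < β → 0 ≤ m → P β (h + β * a * m) - β * a * m ^ 2 / 2 ≤ P' β h) →
    (∀ β h, b1 + r ≤ β → β ≤ b2 - r → h ≤ H → ∀ y,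
      (∀ m : ℝ, 0 ≤ m → m ≤ mm → P β (h + β * a * m) - β * a * m ^ 2 / 2 ≤ y) → P' β h ≤ y + ε') →
    ∀ β h, b1 + r ≤ β → β ≤ b2 - r → h ≤ H →
      ∃ i : Fin 3, ∃ e ρ : ℝ, |e - E i| ≤ η + ε / r ∧
        |ρ - D i| ≤ η + Real.sqrt (2 * ε / (b1 * a)) ∧ ESub P' ε' β h (e - a * ρ ^ 2 / 2) ρ

/-- Data of the abstract multi-scale theorem. -/
structure AbsData (p : ℝ) (K : ℕ) (mm s : ℝ) (P : ℕ → ℝ → ℝ → ℝ) (Pinf : ℝ → ℝ → ℝ)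
    (a ε : ℕ → ℝ) : Prop where
  conv : ∀ k, ConvexOn ℝ {x : ℝ × ℝ | 0 < x.1} (fun x => P k x.1 x.2)
  mono : ∀ k β h h', 0 < β → h ≤ h' → P k β h ≤ P k β h'
  a0 : a 0 = 2 / (p * K)
  apos : ∀ k, 0 < a k
  asmall : ∀ k, 1 ≤ k → a k ≤ s * (1 / 2) ^ k
  εnn : ∀ k, 0 ≤ ε k
  εsmall : ∀ k, 1 ≤ k → ε k ≤ (s * (1 / 2) ^ k) ^ 2 * a k
  /-- base, lower bound, global -/
  base_lower : ∃ p' : ℝ, p - s ≤ p' ∧ p' ≤ p ∧ ∀ β h, 0 < β → MF0 p' K h - s ≤ P 0 β h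
  /-- base, upper bound on the window -/
  base_upper : ∀ β h, 1 / 2 ≤ β → β ≤ 3 / 2 → h ≤ 3 + 4 * mm / (p * K) → P 0 β h ≤ MF0 p K h + s
  lower : ∀ k β h m, 0 < β → 0 ≤ m →
    P k β (h + β * a k * m) - β * a k * m ^ 2 / 2 ≤ P (k + 1) β h
  upper : ∀ k β h, 1 / 2 ≤ β → β ≤ 3 / 2 → h ≤ 3 → ∀ y,
    (∀ m, 0 ≤ m → m ≤ mm → P k β (h + β * a k * m) - β * a k * m ^ 2 / 2 ≤ y) →
    P (k + 1) β h ≤ y + ε (k + 1)
  lim : ∀ β h, 0 < β → Tendsto (fun k => P k β h) atTop (𝓝 (Pinf β h))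

/-- A triple point of `P`: three global subgradients, affinely independent. -/
structure Triple (P : ℝ → ℝ → ℝ) (βc hc : ℝ) (e ρ : Fin 3 → ℝ) : Prop where
  sub : ∀ i β h, 0 < β → P βc hc - e i * (β - βc) + ρ i * (h - hc) ≤ P β h
  lt01 : ρ 0 < ρ 1
  lt12 : ρ 1 < ρ 2
  indep : (e 1 - e 0) * (ρ 2 - ρ 0) ≠ (e 2 - e 0) * (ρ 1 - ρ 0)

/-- A4: the abstract theorem: existence of a triple point near `β = 1`. -/
def AbsStmt : Prop :=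
  ∀ (p : ℝ) (K : ℕ) (mm : ℝ), 0 < p → 2 ≤ K → K * p + p ≤ mm →
    ∃ s : ℝ, 0 < s ∧ ∀ (P : ℕ → ℝ → ℝ → ℝ) (Pinf : ℝ → ℝ → ℝ) (a ε : ℕ → ℝ),
      AbsData p K mm s P Pinf a ε →
      ∃ (βc hc : ℝ) (e ρ : Fin 3 → ℝ), 7 / 8 < βc ∧ βc < 9 / 8 ∧ Triple Pinf βc hc e ρ ∧
        0 ≤ ρ 0 ∧ ρ 0 < p / 4 ∧ K * p - p / 4 < ρ 2

/-- A5: a triple point of the pressure gives a downward jump of the `β`-derivative of the
canonical free energy at every density strictly between. -/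
def KinkStmt : Prop :=
  ∀ (G P : ℝ → ℝ → ℝ) (βc hc : ℝ) (e ρ : Fin 3 → ℝ), 0 < βc → 0 ≤ ρ 0 →
    (∀ β, 0 < β → ConvexOn ℝ (Set.Ici 0) (G β)) →
    (∀ r, 0 ≤ r → ConcaveOn ℝ (Set.Ioi 0) (fun β => G β r)) →
    (∀ β, 0 < β → ∀ r, 0 ≤ r → ∀ h, h * r - G β r ≤ P β h) →
    (∀ β, 0 < β → ∀ h y, (∀ r, 0 ≤ r → h * r - G β r ≤ y) → P β h ≤ y) →
    Triple P βc hc e ρ →
    ∀ r, ρ 0 < r → r < ρ 2 → ∃ Dl Dr : ℝ,
      HasDerivWithinAt (fun β => G β r) Dl (Set.Iio βc) βc ∧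
      HasDerivWithinAt (fun β => G β r) Dr (Set.Ioi βc) βc ∧ Dr < Dl

/-! ## Module B: packing density -/

def PackingStmt : Prop :=
  ∃ p : ℝ, 0 < p ∧ p ≤ 8 ∧
    Tendsto (fun L : ℝ => (packingNumber L : ℝ) / L ^ 3) atTop (𝓝 p)

/-! ## Module C: splitting of partition sums -/

/-- C1: lower bound (superadditivity for two disjoint regions). -/
def SplitLowerStmt : Prop :=
  ∀ (F : Fam), FamOK F → ∀ S T : Set Pt, MeasurableSet S → MeasurableSet T → Disjoint S T →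
    (∀ (ι : Type) [Fintype ι] (q : ι → Prop) [DecidablePred q] (x : ι → Pt),
      (∀ i, q i → x i ∈ S) → (∀ i, ¬ q i → x i ∈ T) →
      F {i // q i} (fun i => x i) + F {i // ¬ q i} (fun i => x i) ≤ F ι x) →
    ∀ n m : ℕ, ZF F S n * ZF F T m ≤ ZF F (S ∪ T) (n + m)

/-- C2: upper bound for two disjoint regions. -/
def SplitUpperStmt : Prop :=
  ∀ (F : Fam), FamOK F → ∀ S T : Set Pt, MeasurableSet S → MeasurableSet T → Disjoint S T →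
    (∀ (ι : Type) [Fintype ι] (q : ι → Prop) [DecidablePred q] (x : ι → Pt),
      (∀ i, q i → x i ∈ S) → (∀ i, ¬ q i → x i ∈ T) →
      F ι x ≤ F {i // q i} (fun i => x i) + F {i // ¬ q i} (fun i => x i)) →
    ∀ N : ℕ, ZF F (S ∪ T) N ≤ ∑ k ∈ Finset.range (N + 1), ZF F S k * ZF F T (N - k)

/-! ## Module D: kernel estimates -/

/-- D0: basic properties of the kernel `wk`. -/
structure KernelProps : Prop where
  vB_pos : ∀ R, 0 < R → 0 < vB R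
  vB_scale : ∀ R, 0 ≤ R → vB R = R ^ 3 * vB 1
  dist : ∀ R, 0 < R → ∀ x y : Pt, wk R (dist x y) =
    (volume (Metric.closedBall x R ∩ Metric.closedBall y R)).toReal / (vB R) ^ 2
  nonneg : ∀ R r, 0 ≤ wk R r
  le : ∀ R r, 0 < R → wk R r ≤ 1 / vB R
  zero : ∀ R, 0 < R → wk R 0 = 1 / vB R
  far : ∀ R r, 0 < R → 2 * R ≤ r → wk R r = 0
  cont : ∀ R, 0 < R → Continuous (wk R)
  pos : ∀ R r, 2 ≤ R → 0 ≤ r → r ≤ 3 → (R - 3 / 2) ^ 3 * vB 1 / (vB R) ^ 2 ≤ wk R r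

/-- D1: positive definiteness bound: for points of `[0,L]^3`. -/
def E1Stmt : Prop :=
  ∀ (R L : ℝ), 0 < R → 0 ≤ L → ∀ (ι : Type) [Fintype ι] (x : ι → Pt), (∀ i, x i ∈ cube L) →
    (Fintype.card ι : ℝ) ^ 2 / (2 * (L + 2 * R) ^ 3) ≤ A (wk R) x

/-- D2: cell bound. -/
def E2Stmt : Prop :=
  ∀ (R s : ℝ) (z : Fin 3 → ℝ), 0 < R → 0 < s → ∀ (ι : Type) [Fintype ι] (x : ι → Pt),
    A (wk R) x ≤ (1 + 2 * s / R) ^ 6 / (2 * s ^ 3) * N2 s z x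

/-- D3: decoupling by averaging over the shifted grids of integer side `ℓ`. -/
def DecoupleStmt : Prop :=
  ∀ (α : ℝ → ℝ) (r : ℝ) (ℓ : ℕ), (∀ t, 0 ≤ α t) → 0 ≤ r → (∀ t, r ≤ t → α t = 0) → 1 ≤ ℓ →
    ∀ (ι : Type) [Fintype ι] (x : ι → Pt),
      (1 - (2 * r + 3) / ℓ) * A α x ≤
        (∑ z : Fin 3 → Fin ℓ, SC α ℓ (fun k => ((z k : ℕ) : ℝ)) x / 2) / (ℓ : ℝ) ^ 3

/-! ## Module S: superstability -/

def SuperStabStmt : Prop :=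
  ∀ (c : ℝ → ℝ) (K : ℕ) (M : ℝ), (∀ t, 0 ≤ c t) → 1 ≤ K → 0 ≤ M → CoreK c K M →
    ∀ (ι : Type) [Fintype ι] (x : ι → Pt),
      M * (N2 (1 / 2) 0 x / (2 * K) - Fintype.card ι / 2) ≤ U c x

/-! ## Module E: boxes, superadditivity -/

/-- E: superadditivity for cubes: `j^3` cubes of side `L` with corridors of width `2`. -/
def SuperAddStmt : Prop :=
  ∀ (c α : ℝ → ℝ) (B β : ℝ), CoreOK c → AttrOK α → Stab c α B → 0 < β →
    ∀ (L : ℝ) (j : ℕ), 0 < L → 1 ≤ j → ∀ n : (Fin 3 → Fin j) → ℕ,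
      ∑ v, LZ c α β L (n v) ≤ LZ c α β (j * (L + 2) - 2) (∑ v, n v)

/-- Basic facts on `LZ`. -/
structure LZProps (c α : ℝ → ℝ) (B β : ℝ) : Prop where
  pos : ∀ L n, 0 < L → 0 < ZF (HF c α β) (cube L) n
  fin : ∀ L n, 0 < L → ZF (HF c α β) (cube L) n ≠ ⊤
  zero : ∀ L, LZ c α β L 0 = 0
  mono : ∀ L L' n, 0 < L → L ≤ L' → LZ c α β L n ≤ LZ c α β L' n
  /-- stability upper bound -/
  upper : ∀ L (n : ℕ) (h : ℝ), 0 < L → h * n + LZ c α β L n ≤ L ^ 3 * Real.exp (h + β * B)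
  /-- adding one particle costs a bounded amount at bounded density -/
  add : ∀ ρm : ℝ, 0 < ρm → ∃ C : ℝ, 0 ≤ C ∧ ∀ (L : ℝ) (n : ℕ), 0 < L → (n + 1 : ℝ) ≤ ρm * L ^ 3 →
    LZ c α β L n - C ≤ LZ c α β L (n + 1)

def LZPropsStmt : Prop :=
  ∀ (c α : ℝ → ℝ) (B β : ℝ), CoreOK c → AttrOK α → Stab c α B → 0 < β → LZProps c α B β

/-- Convexity of `log Z` in `β`. -/
def LZConvStmt : Prop :=
  ∀ (c α : ℝ → ℝ) (B : ℝ), CoreOK c → AttrOK α → Stab c α B → ∀ (L : ℝ) (n : ℕ), 0 < L →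
    ConvexOn ℝ (Set.Ioi 0) (fun β => LZ c α β L n)

/-- Properties of the pressure. -/
structure PrProps (c α : ℝ → ℝ) (B : ℝ) : Prop where
  bdd : ∀ β h, 0 < β → BddAbove (Set.range fun q : ℕ × ℕ =>
    (h * q.2 + LZ c α β ((q.1 : ℝ) + 1) q.2) / ((q.1 : ℝ) + 3) ^ 3)
  conv : ConvexOn ℝ {x : ℝ × ℝ | 0 < x.1} (fun x => Pr c α x.1 x.2)
  mono : ∀ β h h', 0 < β → h ≤ h' → Pr c α β h ≤ Pr c α β h'
  nonneg : ∀ β h, 0 < β → 0 ≤ Pr c α β h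
  le_exp : ∀ β h, 0 < β → Pr c α β h ≤ Real.exp (h + β * B)

def PrPropsStmt : Prop :=
  ∀ (c α : ℝ → ℝ) (B : ℝ), CoreOK c → AttrOK α → Stab c α B → PrProps c α B

/-! ## Module T: thermodynamic limit of the canonical free energy -/

structure TLProps (c α : ℝ → ℝ) (G : ℝ → ℝ → ℝ) : Prop where
  lim : ∀ ρ, 0 ≤ ρ → ∀ β, 0 < β →
    Tendsto (fun L : ℝ => -(1 / L ^ 3) * LZ c α β L ⌊ρ * L ^ 3⌋₊) atTop (𝓝 (G β ρ))
  zero : ∀ β, 0 < β → G β 0 = 0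
  conv : ∀ β, 0 < β → ConvexOn ℝ (Set.Ici 0) (G β)
  conc : ∀ r, 0 ≤ r → ConcaveOn ℝ (Set.Ioi 0) (fun β => G β r)
  pr1 : ∀ β, 0 < β → ∀ r, 0 ≤ r → ∀ h, h * r - G β r ≤ Pr c α β h
  pr2 : ∀ β, 0 < β → ∀ h y, (∀ r, 0 ≤ r → h * r - G β r ≤ y) → Pr c α β h ≤ y

def TLStmt : Prop :=
  ∀ (c α : ℝ → ℝ) (B : ℝ), CoreOK c → AttrOK α → Stab c α B → ∃ G, TLProps c α G

/-- Relation with the partition function of the statement. -/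
def PartitionStmt : Prop :=
  ∀ (c α : ℝ → ℝ) (B : ℝ), CoreOK c → AttrOK α → Stab c α B → ∀ (β L : ℝ) (n : ℕ), 0 < β → 0 < L →
    Real.log (partitionFn (fun r => c r - α r) L n β) = LZ c α β L n - β * n * α 0 / 2

/-! ## Module L: Lebowitz-Penrose bounds -/

/-- Lower bound for the pressure after adding one scale. -/
def LPLowerStmt : Prop :=
  ∀ (c α : ℝ → ℝ) (B R a : ℝ), CoreOK c → AttrOK α → 0 < R → 0 ≤ a →
    Stab c (fun r => α r + a * wk R r) B →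
    ∀ β h m : ℝ, 0 < β →
      Pr c α β (h + β * a * m) - β * a * m ^ 2 / 2 ≤ Pr c (fun r => α r + a * wk R r) β h

/-- Upper bound for the pressure after adding one scale.  The constants `C, M0` depend only on
`K, a1, H`. -/
def LPUpperStmt : Prop :=
  ∀ (K : ℕ) (a1 H : ℝ), 1 ≤ K → 0 < a1 → ∃ C M0 : ℝ, 0 ≤ C ∧ 0 ≤ M0 ∧
    ∀ (c α : ℝ → ℝ) (M R' R a : ℝ) (ℓ : ℕ), CoreOK c → CoreK c K M → M0 ≤ M → AttrOK α →
      (∀ t, 2 * R' ≤ t → α t = 0) → 0 ≤ R' → 1 ≤ R → 0 ≤ a → a ≤ a1 →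
      AttrBound (fun r => α r + a * wk R r) a1 →
      1 ≤ ℓ → 4 * (4 * R' + 3) ≤ ℓ → (ℓ : ℝ) ≤ R →
      ∀ β h : ℝ, 1 / 2 ≤ β → β ≤ 3 / 2 → h ≤ H → ∀ y : ℝ,
        (∀ m : ℝ, 0 ≤ m → m ≤ 16 * K → Pr c α β (h + β * a * m) - β * a * m ^ 2 / 2 ≤ y) →
        Pr c (fun r => α r + a * wk R r) β h ≤ y + C * ((R' + 1) / ℓ + ℓ / R)

/-- Convergence of the pressures along the scales. -/
def LimStmt : Prop :=
  ∀ (c : ℝ → ℝ) (K : ℕ) (M a1 : ℝ) (α : ℕ → ℝ → ℝ) (αi : ℝ → ℝ) (τ : ℕ → ℝ),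
    CoreOK c → 1 ≤ K → 0 < a1 → 16 * K * a1 ≤ M → CoreK c K M →
    (∀ k, AttrOK (α k)) → AttrOK αi → (∀ k r, α k r ≤ α (k + 1) r) → (∀ k r, α k r ≤ αi r) →
    AttrBound αi a1 → (∀ k, 0 ≤ τ k) → Tendsto τ atTop (𝓝 0) →
    (∀ (k : ℕ) (ι : Type) [Fintype ι] (x : ι → Pt), A αi x ≤ A (α k) x + τ k * N2 (1 / 2) 0 x) →
    ∀ β h : ℝ, 0 < β → Tendsto (fun k => Pr c (α k) β h) atTop (𝓝 (Pr c αi β h))

/-! ## Module I: base model -/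

/-- Existence of the geometric data. -/
def KGeomStmt : Prop := ∃ (K : ℕ) (θ₂ θ₃ : ℝ), KGeom K θ₂ θ₃

/-- `CoreType` implies `CoreK`. -/
def CoreKStmt : Prop :=
  ∀ (K : ℕ) (θ₂ θ₃ ξ δ M : ℝ) (c : ℝ → ℝ), KGeom K θ₂ θ₃ → CoreType c θ₂ θ₃ ξ δ M → CoreK c K M

/-- Lower bound for the base pressure (`δ = exp(-Λ/3)`). -/
def BaseLowerStmt : Prop :=
  ∀ (K : ℕ) (θ₂ θ₃ p η : ℝ), KGeom K θ₂ θ₃ → 0 < p →
    Tendsto (fun L : ℝ => (packingNumber L : ℝ) / L ^ 3) atTop (𝓝 p) → 0 < η →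
    ∃ ξ Λ0 : ℝ, 0 < ξ ∧ ξ ≤ 1 ∧ ∀ Λ, Λ0 ≤ Λ → ∀ (M : ℝ) (c : ℝ → ℝ),
      CoreType c θ₂ θ₃ ξ (Real.exp (-Λ / 3)) M →
      ∃ p', p - η ≤ p' ∧ p' ≤ p ∧ ∀ β h, 0 < β → Λ * (MF0 p' K h - η) ≤ Pr c (fun _ => 0) β (Λ * h)

/-- Upper bound for the base pressure. -/
def BaseUpperStmt : Prop :=
  ∀ (K : ℕ) (θ₂ θ₃ p η H : ℝ), KGeom K θ₂ θ₃ → 0 < p →
    Tendsto (fun L : ℝ => (packingNumber L : ℝ) / L ^ 3) atTop (𝓝 p) → 0 < η →
    ∃ Λ0 : ℝ, 0 < Λ0 ∧ ∀ Λ, Λ0 ≤ Λ → ∃ M0 : ℝ, ∀ (M ξ : ℝ) (c : ℝ → ℝ), M0 ≤ M →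
      CoreType c θ₂ θ₃ ξ (Real.exp (-Λ / 3)) M →
      ∀ β h, 1 / 2 ≤ β → β ≤ 3 / 2 → h ≤ H → Pr c (fun _ => 0) β (Λ * h) ≤ Λ * (MF0 p K h + η)

/-- Cores for S0209 (continuous, bounded). -/
def Core1Stmt : Prop :=
  ∀ (θ₂ θ₃ ξ δ M : ℝ), 1 / 2 < θ₂ → θ₂ < θ₃ → θ₃ < 1 → 0 < ξ → ξ ≤ 1 → 0 < δ → δ ≤ 1 / 4 → 0 ≤ M →
    ∃ c : ℝ → ℝ, CoreType c θ₂ θ₃ ξ δ M ∧ Continuous c ∧ ∀ r, c r ≤ M

/-- Cores for S0210 (divergent at `0+`, locally bounded at positive distances). -/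
def Core2Stmt : Prop :=
  ∀ (θ₂ θ₃ ξ δ M : ℝ), 1 / 2 < θ₂ → θ₂ < θ₃ → θ₃ < 1 → 0 < ξ → ξ ≤ 1 → 0 < δ → δ ≤ 1 / 4 → 0 ≤ M →
    ∃ c : ℝ → ℝ, CoreType c θ₂ θ₃ ξ δ M ∧ Tendsto c (𝓝[>] 0) atTop ∧
      (∀ a b, 0 < a → a ≤ b → ∃ C, ∀ r, a ≤ r → r ≤ b → c r ≤ C)

/-! ## Module F: final assembly -/

/-- The scales: `R_k = N^(32·2^k)`, amplitudes `a_0 = a0`, `a_k = N^(-2^k)` for `k ≥ 1`. -/
noncomputable def scR (N : ℕ) (k : ℕ) : ℝ := (N : ℝ) ^ (32 * 2 ^ k)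

noncomputable def scA (N : ℕ) (a0 : ℝ) (k : ℕ) : ℝ := if k = 0 then a0 else ((N : ℝ) ^ (2 ^ k))⁻¹

/-- Partial sums of the attraction. -/
noncomputable def αk (N : ℕ) (a0 : ℝ) (k : ℕ) (r : ℝ) : ℝ :=
  ∑ j ∈ Finset.range k, scA N a0 j * wk (scR N j) r

/-- The full attraction. -/
noncomputable def αi (N : ℕ) (a0 : ℝ) (r : ℝ) : ℝ := ∑' j, scA N a0 j * wk (scR N j) r

/-- Properties of the full attraction used at the end. -/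
structure AttrProps (N : ℕ) (a0 : ℝ) : Prop where
  ok : AttrOK (αi N a0)
  okk : ∀ k, AttrOK (αk N a0 k)
  cont : Continuous (αi N a0)
  le : ∀ k r, αk N a0 k r ≤ αi N a0 r
  farR : ∀ k r, 2 * scR N k ≤ r → αk N a0 (k + 1) r = 0
  decay : ∃ C : ℝ, ∀ r, 1 ≤ r → αi N a0 r ≤ C * r ^ (-(3 + 1 / 32 : ℝ))
  pos : ∃ a : ℝ, 0 < a ∧ ∀ r, 2 ≤ r → r ≤ 3 → a ≤ αi N a0 r
  bound : AttrBound (αi N a0) (8 * (a0 + 1))
  tail : ∃ τ : ℕ → ℝ, (∀ k, 0 ≤ τ k) ∧ Tendsto τ atTop (𝓝 0) ∧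
    ∀ (k : ℕ) (ι : Type) [Fintype ι] (x : ι → Pt),
      A (αi N a0) x ≤ A (αk N a0 k) x + τ k * N2 (1 / 2) 0 x

def AttrPropsStmt : Prop := ∀ (N : ℕ) (a0 : ℝ), 4 ≤ N → 0 < a0 → AttrProps N a0

/-- The main theorem: everything needed for both statements, for any core of the right type. -/
def MainStmt : Prop :=
  ∀ (K : ℕ) (θ₂ θ₃ p : ℝ), KGeom K θ₂ θ₃ → 0 < p → p ≤ 8 →
    Tendsto (fun L : ℝ => (packingNumber L : ℝ) / L ^ 3) atTop (𝓝 p) →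
    ∃ ξ δ M : ℝ, 0 < ξ ∧ ξ ≤ 1 ∧ 0 < δ ∧ δ ≤ 1 / 4 ∧ 0 ≤ M ∧
      ∀ c : ℝ → ℝ, CoreType c θ₂ θ₃ ξ δ M →
        ∃ (N : ℕ) (a0 B : ℝ) (G : ℝ → ℝ → ℝ) (βc hc : ℝ) (e ρ : Fin 3 → ℝ), 4 ≤ N ∧ 0 < a0 ∧
          Stab c (αi N a0) B ∧ TLProps c (αi N a0) G ∧ 7 / 8 < βc ∧ βc < 9 / 8 ∧
          Triple (Pr c (αi N a0)) βc hc e ρ ∧ 0 ≤ ρ 0 ∧ ρ 0 < p / 4 ∧ K * p - p / 4 < ρ 2

end Crest.Agent.R149
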