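import Mathlib
import Crest.Agent.R149.Blocks
import Crest.Agent.R149.Stmts

-- ▼ part R149/Energy
section

/-!
Pair energy on multisets of points, Boltzmann weight, and relation with `Continuum.partitionFn`.
-/

set_option autoImplicit false

open MeasureTheory Crest.ProbabilityR.Continuum
open scoped ENNReal

namespace Crest.Agent.R149

/-- cross sum -/
noncomputable def Cross (φ : ℝ → ℝ) (s t : Multiset Pt) : ℝ :=
  (s.map fun x => (t.map fun y => φ (dist x y)).sum).sum

/-- pair energy of a finite multiset of points -/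
noncomputable def En (φ : ℝ → ℝ) (s : Multiset Pt) : ℝ := (Cross φ s s - s.card * φ 0) / 2









theorem Cross_mset (φ : ℝ → ℝ) {ι κ : Type*} [Fintype ι] [Fintype κ] (x : ι → Pt) (y : κ → Pt) :
    Cross φ (mset x) (mset y) = ∑ i, ∑ j, φ (dist (x i) (y j)) := by
  unfold Cross mset
  simp only [Multiset.map_map, Function.comp_def]
  rfl

theorem En_mset (φ : ℝ → ℝ) {N : ℕ} (x : Fin N → Pt) : En φ (mset x) = energy φ x := by
  unfold En energy
  rw [Cross_mset, card_mset, Fintype.card_fin]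
  have h1 : ∑ i : Fin N, ∑ j : Fin N, φ (dist (x i) (x j)) =
      ∑ p : Fin N × Fin N, φ (dist (x p.1) (x p.2)) := by
    rw [Fintype.sum_prod_type]
  have h2 : ∑ p : Fin N × Fin N, φ (dist (x p.1) (x p.2)) =
      ∑ p ∈ Finset.univ.filter (fun p : Fin N × Fin N => p.1 < p.2), φ (dist (x p.1) (x p.2)) +
      ∑ p ∈ Finset.univ.filter (fun p : Fin N × Fin N => p.2 < p.1), φ (dist (x p.1) (x p.2)) +
      ∑ p ∈ Finset.univ.filter (fun p : Fin N × Fin N => p.1 = p.2), φ (dist (x p.1) (x p.2)) := by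
    rw [← Finset.sum_filter_add_sum_filter_not Finset.univ (fun p : Fin N × Fin N => p.1 < p.2)]
    rw [add_assoc]
    congr 1
    rw [← Finset.sum_filter_add_sum_filter_not
      (Finset.univ.filter (fun p : Fin N × Fin N => ¬ p.1 < p.2)) (fun p : Fin N × Fin N => p.2 < p.1)]
    congr 1
    · refine Finset.sum_congr ?_ (fun _ _ => rfl)
      ext p; simp only [Finset.mem_filter, Finset.mem_univ, true_and]; omega
    · refine Finset.sum_congr ?_ (fun _ _ => rfl)
      ext p; simp only [Finset.mem_filter, Finset.mem_univ, true_and]; omega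
  have h3 : ∑ p ∈ Finset.univ.filter (fun p : Fin N × Fin N => p.2 < p.1), φ (dist (x p.1) (x p.2)) =
      ∑ p ∈ Finset.univ.filter (fun p : Fin N × Fin N => p.1 < p.2), φ (dist (x p.1) (x p.2)) := by
    refine Finset.sum_nbij' (fun p => (p.2, p.1)) (fun p => (p.2, p.1)) ?_ ?_ ?_ ?_ ?_
    · intro p hp; simpa using hp
    · intro p hp; simpa using hp
    · intro p _; rfl
    · intro p _; rfl
    · intro p _; rw [dist_comm]
  have h4 : ∑ p ∈ Finset.univ.filter (fun p : Fin N × Fin N => p.1 = p.2), φ (dist (x p.1) (x p.2)) =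
      N * φ 0 := by
    have : ∑ p ∈ Finset.univ.filter (fun p : Fin N × Fin N => p.1 = p.2), φ (dist (x p.1) (x p.2)) =
        ∑ i : Fin N, φ 0 := by
      refine Finset.sum_nbij' (fun p => p.1) (fun i => (i, i)) ?_ ?_ ?_ ?_ ?_
      · intro p hp; simp
      · intro p hp; simp
      · rintro ⟨a, b⟩ hp
        simp only [Finset.mem_filter, Finset.mem_univ, true_and] at hp
        simp [hp]
      · intro p _; rfl
      · rintro ⟨a, b⟩ hp
        simp only [Finset.mem_filter, Finset.mem_univ, true_and] at hp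
        simp [hp]
    rw [this]; simp
  have h5 : ∑ p : {p : Fin N × Fin N // p.1 < p.2}, φ (dist (x (p : Fin N × Fin N).1) (x (p : Fin N × Fin N).2)) =
      ∑ p ∈ Finset.univ.filter (fun p : Fin N × Fin N => p.1 < p.2), φ (dist (x p.1) (x p.2)) := by
    rw [← Finset.sum_subtype_eq_sum_filter]
    simp
  rw [h1, h2, h3, h4, h5]
  ring










end Crest.Agent.R149
end

-- ▼ part R149/LZProps

/-!
# Row 149: basic facts on `LZ` (log of the canonical partition sum of a cube)
-/

set_option autoImplicit false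

open MeasureTheory Crest.ProbabilityR.Continuum Filter Topology
open scoped ENNReal

namespace Crest.Agent.R149

namespace LZ

/-! ### the cube -/

theorem cube_eq_preimage (L : ℝ) :
    cube L = (WithLp.ofLp : Pt → (Fin 3 → ℝ)) ⁻¹' (Set.Icc (fun _ => 0) (fun _ => L)) := by
  ext x
  simp only [cube, Set.mem_ofPred_eq, Set.mem_preimage, Set.mem_Icc, Pi.le_def]
  constructor
  · intro h; exact ⟨fun k => (h k).1, fun k => (h k).2⟩
  · intro h k; exact ⟨h.1 k, h.2 k⟩


theorem volume_cube {L : ℝ} (hL : 0 ≤ L) : volume (cube L) = ENNReal.ofReal (L ^ 3) := by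
  rw [cube_eq_preimage, (PiLp.volume_preserving_ofLp (Fin 3)).measure_preimage
    measurableSet_Icc.nullMeasurableSet, Real.volume_Icc_pi]
  simp only [sub_zero, Finset.prod_const, Finset.card_univ, Fintype.card_fin]
  rw [← ENNReal.ofReal_pow hL]

theorem volume_pi_cube {L : ℝ} (hL : 0 ≤ L) (n : ℕ) :
    volume (Set.pi Set.univ (fun _ : Fin n => cube L)) = ENNReal.ofReal (L ^ 3) ^ n := by
  rw [volume_pi_pi]
  simp [volume_cube hL]

theorem cube_mono {L L' : ℝ} (h : L ≤ L') : cube L ⊆ cube L' := by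
  intro x hx k
  exact ⟨(hx k).1, (hx k).2.trans h⟩

/-! ### measurability -/

theorem measurable_SS {g : ℝ → ℝ} (hg : Measurable g) (ι : Type) [Fintype ι] :
    Measurable (fun x : ι → Pt => SS g x) := by
  unfold SS
  refine Finset.measurable_sum _ (fun i _ => Finset.measurable_sum _ (fun j _ => ?_))
  exact hg.comp ((measurable_pi_apply i).dist (measurable_pi_apply j))

theorem measurable_Ham {c α : ℝ → ℝ} (hc : Measurable c) (hα : Measurable α) (ι : Type)
    [Fintype ι] : Measurable (fun x : ι → Pt => Ham c α x) := by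
  unfold Ham U A
  have h1 := measurable_SS hc ι
  have h2 := measurable_SS hα ι
  exact ((h1.sub_const _).div_const _).sub (h2.div_const _)

theorem SS_perm (g : ℝ → ℝ) {ι κ : Type} [Fintype ι] [Fintype κ] (e : ι ≃ κ) (x : κ → Pt) :
    SS g (fun i => x (e i)) = SS g x := by
  unfold SS
  rw [← e.sum_comp]
  refine Finset.sum_congr rfl (fun i _ => ?_)
  rw [← e.sum_comp]

theorem Ham_perm (c α : ℝ → ℝ) {ι κ : Type} [Fintype ι] [Fintype κ] (e : ι ≃ κ) (x : κ → Pt) :
    Ham c α (fun i => x (e i)) = Ham c α x := by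
  unfold Ham U A
  rw [SS_perm, SS_perm, Fintype.card_congr e]

theorem famOK_HF {c α : ℝ → ℝ} (hc : Measurable c) (hα : Measurable α) (β : ℝ) :
    FamOK (HF c α β) where
  meas := fun ι _ => by
    unfold HF
    exact (measurable_Ham hc hα ι).const_mul _
  perm := fun ι κ _ _ e x => by
    unfold HF
    rw [Ham_perm]

/-! ### energies -/

theorem U_nonneg {c : ℝ → ℝ} (hc : ∀ r, 0 ≤ c r) {ι : Type} [Fintype ι] (x : ι → Pt) :
    0 ≤ U c x := by
  classical
  unfold U SS
  have h : (Fintype.card ι : ℝ) * c 0 ≤ ∑ i, ∑ j, c (dist (x i) (x j)) := by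
    have h1 : (Fintype.card ι : ℝ) * c 0 = ∑ i : ι, c 0 := by simp
    rw [h1]
    refine Finset.sum_le_sum (fun i _ => ?_)
    have h2 : c 0 = c (dist (x i) (x i)) := by simp
    rw [h2]
    exact Finset.single_le_sum (f := fun j => c (dist (x i) (x j))) (fun j _ => hc _)
      (Finset.mem_univ i)
  linarith


theorem Ham_lower {c α : ℝ → ℝ} {B : ℝ} (hc : ∀ r, 0 ≤ c r) (hS : Stab c α B) {ι : Type}
    [Fintype ι] (x : ι → Pt) : -(B * Fintype.card ι) ≤ Ham c α x := by
  have h1 := U_nonneg hc x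
  have h2 := hS.2 ι x
  unfold Ham
  linarith

theorem SS_cons (g : ℝ → ℝ) {n : ℕ} (y : Pt) (x : Fin n → Pt) :
    SS g (Fin.cons y x : Fin (n + 1) → Pt) =
      SS g x + 2 * ∑ i, g (dist y (x i)) + g 0 := by
  unfold SS
  rw [Fin.sum_univ_succ]
  simp only [Fin.sum_univ_succ, Fin.cons_zero, Fin.cons_succ, dist_self]
  rw [Finset.sum_add_distrib]
  have : ∑ i : Fin n, g (dist (x i) y) = ∑ i, g (dist y (x i)) :=
    Finset.sum_congr rfl (fun i _ => by rw [dist_comm])
  rw [this]; ring

theorem Ham_cons (c α : ℝ → ℝ) {n : ℕ} (y : Pt) (x : Fin n → Pt) :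
    Ham c α (Fin.cons y x : Fin (n + 1) → Pt) =
      Ham c α x + ∑ i, c (dist y (x i)) - ∑ i, α (dist y (x i)) - α 0 / 2 := by
  unfold Ham U A
  rw [SS_cons, SS_cons]
  simp only [Fintype.card_fin]
  push_cast
  ring

theorem Ham_empty (c α : ℝ → ℝ) (x : Fin 0 → Pt) : Ham c α x = 0 := by
  simp [Ham, U, A, SS]

theorem energy_eq (c α : ℝ → ℝ) {n : ℕ} (x : Fin n → Pt) :
    energy (fun r => c r - α r) x = Ham c α x + n * α 0 / 2 := by
  rw [← En_mset]
  unfold En
  rw [Cross_mset, card_mset]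
  unfold Ham U A SS
  simp only [Fintype.card_fin, Finset.sum_sub_distrib]
  ring

/-! ### positivity, finiteness -/

theorem ZF_pos {c α : ℝ → ℝ} (hc : Measurable c) (hα : Measurable α) (β : ℝ) {L : ℝ}
    (hL : 0 < L) (n : ℕ) : 0 < ZF (HF c α β) (cube L) n := by
  unfold ZF
  refine ENNReal.mul_pos ?_ ?_
  · simp
  · have hm : Measurable (fun x : Fin n → Pt => ENNReal.ofReal (Real.exp (HF c α β (Fin n) x))) :=
      (((famOK_HF hc hα β).meas (Fin n)).exp).ennreal_ofReal
    rw [← pos_iff_ne_zero, setLIntegral_pos_iff hm]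
    have hsupp : Function.support
        (fun x : Fin n → Pt => ENNReal.ofReal (Real.exp (HF c α β (Fin n) x))) = Set.univ := by
      ext x
      simp only [Function.mem_support, Set.mem_univ, iff_true]
      simp [Real.exp_pos]
    rw [hsupp, Set.univ_inter, volume_pi_cube hL.le]
    have : 0 < ENNReal.ofReal (L ^ 3) := by
      rw [ENNReal.ofReal_pos]; positivity
    exact pos_iff_ne_zero.2 (pow_ne_zero n this.ne')

theorem ZF_le {c α : ℝ → ℝ} {B β : ℝ} (hc : ∀ r, 0 ≤ c r) (hS : Stab c α B) (hβ : 0 < β) {L : ℝ}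
    (hL : 0 < L) (n : ℕ) : ZF (HF c α β) (cube L) n ≤
      ENNReal.ofReal ((L ^ 3) ^ n * Real.exp (β * B * n) / n.factorial) := by
  unfold ZF
  have h1 : ∫⁻ x in Set.pi Set.univ (fun _ : Fin n => cube L),
      ENNReal.ofReal (Real.exp (HF c α β (Fin n) x)) ≤
      ∫⁻ x in Set.pi Set.univ (fun _ : Fin n => cube L), ENNReal.ofReal (Real.exp (β * B * n)) := by
    refine lintegral_mono (fun x => ?_)
    refine ENNReal.ofReal_le_ofReal (Real.exp_le_exp.2 ?_)
    unfold HF
    have := Ham_lower hc hS x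
    simp only [Fintype.card_fin] at this
    nlinarith
  rw [setLIntegral_const, volume_pi_cube hL.le] at h1
  calc (n.factorial : ℝ≥0∞)⁻¹ * ∫⁻ x in Set.pi Set.univ (fun _ : Fin n => cube L),
      ENNReal.ofReal (Real.exp (HF c α β (Fin n) x)) ≤
      (n.factorial : ℝ≥0∞)⁻¹ * (ENNReal.ofReal (Real.exp (β * B * n)) * ENNReal.ofReal (L ^ 3) ^ n) := by
        gcongr
    _ = ENNReal.ofReal ((L ^ 3) ^ n * Real.exp (β * B * n) / n.factorial) := by
      rw [← ENNReal.ofReal_pow (by positivity), ← ENNReal.ofReal_mul (by positivity),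
        ENNReal.ofReal_div_of_pos (by positivity), ENNReal.ofReal_natCast, mul_comm,
        ENNReal.div_eq_inv_mul, mul_comm]
      rw [mul_comm ((L ^ 3) ^ n)]

theorem ZF_ne_top {c α : ℝ → ℝ} {B β : ℝ} (hc : ∀ r, 0 ≤ c r) (hS : Stab c α B) (hβ : 0 < β) {L : ℝ}
    (hL : 0 < L) (n : ℕ) : ZF (HF c α β) (cube L) n ≠ ⊤ :=
  ne_top_of_le_ne_top ENNReal.ofReal_ne_top (ZF_le hc hS hβ hL n)


theorem ZF_toReal_pos {c α : ℝ → ℝ} {B β : ℝ} (h1 : CoreOK c) (h2 : AttrOK α) (hS : Stab c α B)
    (hβ : 0 < β) {L : ℝ} (hL : 0 < L) (n : ℕ) : 0 < (ZF (HF c α β) (cube L) n).toReal :=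
  ENNReal.toReal_pos (ZF_pos h1.meas h2.meas β hL n).ne' (ZF_ne_top h1.nonneg hS hβ hL n)

theorem LZ_zero (c α : ℝ → ℝ) (β L : ℝ) : LZ c α β L 0 = 0 := by
  unfold LZ ZF
  have : ∫⁻ x in Set.pi Set.univ (fun _ : Fin 0 => cube L),
      ENNReal.ofReal (Real.exp (HF c α β (Fin 0) x)) = 1 := by
    have h1 : ∀ x : Fin 0 → Pt, ENNReal.ofReal (Real.exp (HF c α β (Fin 0) x)) = 1 := by
      intro x
      simp [HF, Ham_empty]
    simp only [h1, setLIntegral_one]
    rw [volume_pi_pi]
    simp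
  rw [this]
  simp

theorem LZ_mono {c α : ℝ → ℝ} {B β : ℝ} (h1 : CoreOK c) (h2 : AttrOK α) (hS : Stab c α B)
    (hβ : 0 < β) {L L' : ℝ} (n : ℕ) (hL : 0 < L) (hLL : L ≤ L') :
    LZ c α β L n ≤ LZ c α β L' n := by
  unfold LZ
  refine Real.log_le_log (ZF_toReal_pos h1 h2 hS hβ hL n) ?_
  refine ENNReal.toReal_mono (ZF_ne_top h1.nonneg hS hβ (hL.trans_le hLL) n) ?_
  unfold ZF
  gcongr
  exact cube_mono hLL

theorem LZ_upper {c α : ℝ → ℝ} {B β : ℝ} (h1 : CoreOK c) (h2 : AttrOK α) (hS : Stab c α B)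
    (hβ : 0 < β) {L : ℝ} (n : ℕ) (h : ℝ) (hL : 0 < L) :
    h * n + LZ c α β L n ≤ L ^ 3 * Real.exp (h + β * B) := by
  have hp := ZF_toReal_pos h1 h2 hS hβ hL n
  have hle : (ZF (HF c α β) (cube L) n).toReal ≤
      (L ^ 3) ^ n * Real.exp (β * B * n) / n.factorial := by
    have := ENNReal.toReal_mono ENNReal.ofReal_ne_top (ZF_le h1.nonneg hS hβ hL n)
    rwa [ENNReal.toReal_ofReal (by positivity)] at this
  have hfac : (L ^ 3 * Real.exp (h + β * B)) ^ n / n.factorial ≤
      Real.exp (L ^ 3 * Real.exp (h + β * B)) := Real.pow_div_factorial_le_exp _ (by positivity) n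
  have h3 : Real.exp (h * n) * (ZF (HF c α β) (cube L) n).toReal ≤
      Real.exp (L ^ 3 * Real.exp (h + β * B)) := by
    refine le_trans ?_ hfac
    calc Real.exp (h * n) * (ZF (HF c α β) (cube L) n).toReal ≤
        Real.exp (h * n) * ((L ^ 3) ^ n * Real.exp (β * B * n) / n.factorial) := by gcongr
      _ = (L ^ 3 * Real.exp (h + β * B)) ^ n / n.factorial := by
        rw [mul_pow, ← Real.exp_nat_mul]
        rw [mul_div_assoc', mul_left_comm, ← Real.exp_add]
        ring_nf
  have h4 := Real.log_le_log (by positivity) h3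
  rw [Real.log_exp, Real.log_mul (Real.exp_pos _).ne' hp.ne', Real.log_exp] at h4
  exact h4

/-! ### adding one particle -/

/-- The `L^1` norm of the core. -/
noncomputable def cint (c : ℝ → ℝ) : ℝ := ∫ y : Pt, c ‖y‖

theorem integrable_core {c : ℝ → ℝ} (h1 : CoreOK c) : Integrable (fun y : Pt => c ‖y‖) := by
  refine ⟨(h1.meas.comp measurable_norm).aestronglyMeasurable, ?_⟩
  rw [hasFiniteIntegral_iff_ofReal (Filter.Eventually.of_forall (fun y => h1.nonneg _))]
  exact lt_top_iff_ne_top.2 h1.int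

theorem integrable_core_dist {c : ℝ → ℝ} (h1 : CoreOK c) (x : Pt) :
    Integrable (fun y : Pt => c (dist y x)) := by
  have := (integrable_core h1).comp_sub_right x
  simpa only [dist_eq_norm] using this

theorem integral_core_dist (c : ℝ → ℝ) (x : Pt) :
    ∫ y : Pt, c (dist y x) = cint c := by
  unfold cint
  rw [← integral_sub_right_eq_self (fun y : Pt => c ‖y‖) x]
  simp only [dist_eq_norm]

theorem cint_nonneg {c : ℝ → ℝ} (h1 : CoreOK c) : 0 ≤ cint c :=
  integral_nonneg (fun _ => h1.nonneg _)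

theorem setIntegral_exp_ge {c : ℝ → ℝ} (h1 : CoreOK c) {β L : ℝ} (hβ : 0 < β) (hL : 0 < L)
    {n : ℕ} (x : Fin n → Pt) :
    L ^ 3 * Real.exp (-(β * (n * cint c / L ^ 3))) ≤
      ∫ y in cube L, Real.exp (-β * ∑ i, c (dist y (x i))) := by
  have hV : (volume (cube L)).toReal = L ^ 3 := by
    rw [volume_cube hL.le, ENNReal.toReal_ofReal (by positivity)]
  have hfin : volume (cube L) ≠ ⊤ := by
    rw [volume_cube hL.le]; exact ENNReal.ofReal_ne_top
  have hint : IntegrableOn (fun y : Pt => ∑ i, c (dist y (x i))) (cube L) :=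
    (integrable_finsetSum _ (fun i _ => integrable_core_dist h1 (x i))).integrableOn
  have hS : ∫ y in cube L, ∑ i, c (dist y (x i)) ≤ n * cint c := by
    calc ∫ y in cube L, ∑ i, c (dist y (x i)) ≤ ∫ y, ∑ i, c (dist y (x i)) :=
          setIntegral_le_integral (integrable_finsetSum _ (fun i _ => integrable_core_dist h1 (x i)))
            (Filter.Eventually.of_forall (fun y => Finset.sum_nonneg (fun i _ => h1.nonneg _)))
      _ = ∑ i : Fin n, ∫ y, c (dist y (x i)) :=
          integral_finsetSum _ (fun i _ => integrable_core_dist h1 (x i))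
      _ = n * cint c := by simp [integral_core_dist]
  set s0 : ℝ := n * cint c / L ^ 3 with hs0
  have hmeas : Measurable (fun y : Pt => Real.exp (-β * ∑ i, c (dist y (x i)))) := by
    refine Measurable.exp (Measurable.const_mul (Finset.measurable_sum _ (fun i _ => ?_)) _)
    exact h1.meas.comp (measurable_id.dist measurable_const)
  have hexp : IntegrableOn (fun y : Pt => Real.exp (-β * ∑ i, c (dist y (x i)))) (cube L) := by
    refine Measure.integrableOn_of_bounded (M := 1) hfin hmeas.aestronglyMeasurable ?_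
    refine Filter.Eventually.of_forall (fun y => ?_)
    rw [Real.norm_eq_abs, abs_of_nonneg (Real.exp_nonneg _)]
    rw [Real.exp_le_one_iff]
    have : 0 ≤ ∑ i, c (dist y (x i)) := Finset.sum_nonneg (fun i _ => h1.nonneg _)
    nlinarith
  have hlow : ∀ y : Pt, Real.exp (-(β * s0)) * (1 + β * s0) -
      Real.exp (-(β * s0)) * β * (∑ i, c (dist y (x i))) ≤
      Real.exp (-β * ∑ i, c (dist y (x i))) := by
    intro y
    set t := ∑ i, c (dist y (x i))
    have h2 := Real.add_one_le_exp (β * s0 - β * t)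
    have h3 : Real.exp (-β * t) = Real.exp (-(β * s0)) * Real.exp (β * s0 - β * t) := by
      rw [← Real.exp_add]; ring_nf
    rw [h3]
    have h4 := mul_le_mul_of_nonneg_left h2 (Real.exp_nonneg (-(β * s0)))
    linarith
  have hconst : IntegrableOn (fun _ : Pt => Real.exp (-(β * s0)) * (1 + β * s0)) (cube L) :=
    integrableOn_const hfin
  have hint2 : IntegrableOn (fun y : Pt => Real.exp (-(β * s0)) * (1 + β * s0) -
      Real.exp (-(β * s0)) * β * (∑ i, c (dist y (x i)))) (cube L) :=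
    hconst.sub (hint.const_mul _)
  have hmono := integral_mono hint2 hexp hlow
  have hcalc : ∫ y in cube L, (Real.exp (-(β * s0)) * (1 + β * s0) -
      Real.exp (-(β * s0)) * β * (∑ i, c (dist y (x i)))) =
      L ^ 3 * (Real.exp (-(β * s0)) * (1 + β * s0)) -
      Real.exp (-(β * s0)) * β * ∫ y in cube L, (∑ i, c (dist y (x i))) := by
    have e1 : ∫ _y in cube L, Real.exp (-(β * s0)) * (1 + β * s0) =
        L ^ 3 * (Real.exp (-(β * s0)) * (1 + β * s0)) := by
      rw [setIntegral_const, Measure.real, hV, smul_eq_mul]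
    have e2 : ∫ y in cube L, Real.exp (-(β * s0)) * β * (∑ i, c (dist y (x i))) =
        Real.exp (-(β * s0)) * β * ∫ y in cube L, (∑ i, c (dist y (x i))) :=
      integral_const_mul _ _
    rw [integral_sub hconst (hint.const_mul _), e1, e2]
  rw [hcalc] at hmono
  refine le_trans ?_ hmono
  have hs : L ^ 3 * s0 = n * cint c := by
    rw [hs0]; field_simp
  have h5 : Real.exp (-(β * s0)) * β * ∫ y in cube L, (∑ i, c (dist y (x i))) ≤
      Real.exp (-(β * s0)) * β * (L ^ 3 * s0) := by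
    rw [hs]; gcongr
  nlinarith

theorem setLIntegral_exp_ge {c : ℝ → ℝ} (h1 : CoreOK c) {β L : ℝ} (hβ : 0 < β) (hL : 0 < L)
    {n : ℕ} (x : Fin n → Pt) :
    ENNReal.ofReal (L ^ 3 * Real.exp (-(β * (n * cint c / L ^ 3)))) ≤
      ∫⁻ y in cube L, ENNReal.ofReal (Real.exp (-β * ∑ i, c (dist y (x i)))) := by
  have hfin : volume (cube L) ≠ ⊤ := by
    rw [volume_cube hL.le]; exact ENNReal.ofReal_ne_top
  have hmeas : Measurable (fun y : Pt => Real.exp (-β * ∑ i, c (dist y (x i)))) := by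
    refine Measurable.exp (Measurable.const_mul (Finset.measurable_sum _ (fun i _ => ?_)) _)
    exact h1.meas.comp (measurable_id.dist measurable_const)
  have hexp : IntegrableOn (fun y : Pt => Real.exp (-β * ∑ i, c (dist y (x i)))) (cube L) := by
    refine Measure.integrableOn_of_bounded (M := 1) hfin hmeas.aestronglyMeasurable ?_
    refine Filter.Eventually.of_forall (fun y => ?_)
    rw [Real.norm_eq_abs, abs_of_nonneg (Real.exp_nonneg _)]
    rw [Real.exp_le_one_iff]
    have : 0 ≤ ∑ i, c (dist y (x i)) := Finset.sum_nonneg (fun i _ => h1.nonneg _)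
    nlinarith
  rw [← ofReal_integral_eq_lintegral_ofReal hexp
    (Filter.Eventually.of_forall (fun y => Real.exp_nonneg _))]
  exact ENNReal.ofReal_le_ofReal (setIntegral_exp_ge h1 hβ hL x)

theorem setLIntegral_succ (L : ℝ) (n : ℕ) (f : (Fin (n + 1) → Pt) → ℝ≥0∞) (hf : Measurable f) :
    ∫⁻ x in Set.pi Set.univ (fun _ : Fin (n + 1) => cube L), f x =
      ∫⁻ x in Set.pi Set.univ (fun _ : Fin n => cube L), ∫⁻ y in cube L, f (Fin.cons y x) := by
  have hmp := (volume_preserving_piFinSuccAbove (fun _ : Fin (n + 1) => Pt) 0).symm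
  rw [← hmp.setLIntegral_comp_preimage_emb (MeasurableEquiv.measurableEmbedding _)]
  have hset : (MeasurableEquiv.piFinSuccAbove (fun _ : Fin (n + 1) => Pt) 0).symm ⁻¹'
      (Set.pi Set.univ (fun _ : Fin (n + 1) => cube L)) =
      cube L ×ˢ Set.pi Set.univ (fun _ : Fin n => cube L) := by
    ext p
    simp only [Set.mem_preimage, Set.mem_pi, Set.mem_univ, true_implies, Set.mem_prod]
    rw [Fin.forall_fin_succ]
    simp [MeasurableEquiv.piFinSuccAbove, Fin.insertNthEquiv]
  rw [hset]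
  have hfun : ∀ p : Pt × (Fin n → Pt),
      f ((MeasurableEquiv.piFinSuccAbove (fun _ : Fin (n + 1) => Pt) 0).symm p) =
        f (Fin.cons p.1 p.2) := by
    intro p
    simp [MeasurableEquiv.piFinSuccAbove, Fin.insertNthEquiv]
  simp only [hfun]
  rw [Measure.volume_eq_prod, ← Measure.prod_restrict]
  have hm : Measurable (fun p : Pt × (Fin n → Pt) => f (Fin.cons p.1 p.2)) := by
    have h2 : Measurable (fun p : Pt × (Fin n → Pt) =>
        f ((MeasurableEquiv.piFinSuccAbove (fun _ : Fin (n + 1) => Pt) 0).symm p)) :=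
      hf.comp (MeasurableEquiv.measurable _)
    simpa only [hfun] using h2
  rw [lintegral_prod_symm _ hm.aemeasurable]

theorem ZF_add_one {c α : ℝ → ℝ} {β : ℝ} (h1 : CoreOK c) (h2 : AttrOK α) (hβ : 0 < β)
    {L : ℝ} (hL : 0 < L) (n : ℕ) :
    ENNReal.ofReal (L ^ 3 * Real.exp (-(β * (n * cint c / L ^ 3))) / (n + 1)) *
      ZF (HF c α β) (cube L) n ≤ ZF (HF c α β) (cube L) (n + 1) := by
  have hm : Measurable (fun x : Fin (n + 1) → Pt =>
      ENNReal.ofReal (Real.exp (HF c α β (Fin (n + 1)) x))) :=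
    (((famOK_HF h1.meas h2.meas β).meas (Fin (n + 1))).exp).ennreal_ofReal
  have hm' : Measurable (fun x : Fin n → Pt =>
      ENNReal.ofReal (Real.exp (HF c α β (Fin n) x))) :=
    (((famOK_HF h1.meas h2.meas β).meas (Fin n)).exp).ennreal_ofReal
  have key : ∫⁻ x in Set.pi Set.univ (fun _ : Fin n => cube L),
      ENNReal.ofReal (L ^ 3 * Real.exp (-(β * (n * cint c / L ^ 3)))) *
        ENNReal.ofReal (Real.exp (HF c α β (Fin n) x)) ≤
      ∫⁻ x in Set.pi Set.univ (fun _ : Fin (n + 1) => cube L),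
        ENNReal.ofReal (Real.exp (HF c α β (Fin (n + 1)) x)) := by
    rw [setLIntegral_succ L n _ hm]
    refine lintegral_mono (fun x => ?_)
    calc ENNReal.ofReal (L ^ 3 * Real.exp (-(β * (n * cint c / L ^ 3)))) *
        ENNReal.ofReal (Real.exp (HF c α β (Fin n) x)) ≤
        (∫⁻ y in cube L, ENNReal.ofReal (Real.exp (-β * ∑ i, c (dist y (x i))))) *
        ENNReal.ofReal (Real.exp (HF c α β (Fin n) x)) := by
          gcongr
          exact setLIntegral_exp_ge h1 hβ hL x
      _ = ∫⁻ y in cube L, ENNReal.ofReal (Real.exp (-β * ∑ i, c (dist y (x i)))) *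
        ENNReal.ofReal (Real.exp (HF c α β (Fin n) x)) := by
          rw [lintegral_mul_const']
          exact ENNReal.ofReal_ne_top
      _ ≤ ∫⁻ y in cube L, ENNReal.ofReal (Real.exp (HF c α β (Fin (n + 1)) (Fin.cons y x))) := by
          refine lintegral_mono (fun y => ?_)
          rw [← ENNReal.ofReal_mul (Real.exp_nonneg _), ← Real.exp_add]
          refine ENNReal.ofReal_le_ofReal (Real.exp_le_exp.2 ?_)
          unfold HF
          rw [Ham_cons]
          have h3 : 0 ≤ ∑ i, α (dist y (x i)) := Finset.sum_nonneg (fun i _ => h2.nonneg _)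
          have h4 := h2.nonneg 0
          nlinarith
  rw [lintegral_const_mul _ hm'] at key
  unfold ZF
  calc ENNReal.ofReal (L ^ 3 * Real.exp (-(β * (n * cint c / L ^ 3))) / (n + 1)) *
      ((n.factorial : ℝ≥0∞)⁻¹ * ∫⁻ x in Set.pi Set.univ (fun _ : Fin n => cube L),
        ENNReal.ofReal (Real.exp (HF c α β (Fin n) x))) =
      ((n + 1).factorial : ℝ≥0∞)⁻¹ * (ENNReal.ofReal (L ^ 3 * Real.exp (-(β * (n * cint c / L ^ 3)))) *
        ∫⁻ x in Set.pi Set.univ (fun _ : Fin n => cube L),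
        ENNReal.ofReal (Real.exp (HF c α β (Fin n) x))) := by
        rw [ENNReal.ofReal_div_of_pos (by positivity), Nat.factorial_succ, Nat.cast_mul,
          ENNReal.mul_inv (Or.inr (ENNReal.natCast_ne_top _)) (Or.inl (ENNReal.natCast_ne_top _))]
        have : ENNReal.ofReal ((n : ℝ) + 1) = ((n + 1 : ℕ) : ℝ≥0∞) := by
          rw [← ENNReal.ofReal_natCast]; push_cast; rfl
        rw [this, ENNReal.div_eq_inv_mul]
        ring
    _ ≤ _ := by gcongr

theorem LZ_add {c α : ℝ → ℝ} {B β : ℝ} (h1 : CoreOK c) (h2 : AttrOK α) (hS : Stab c α B)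
    (hβ : 0 < β) (ρm : ℝ) (hρ : 0 < ρm) : ∃ C : ℝ, 0 ≤ C ∧ ∀ (L : ℝ) (n : ℕ), 0 < L →
      (n + 1 : ℝ) ≤ ρm * L ^ 3 → LZ c α β L n - C ≤ LZ c α β L (n + 1) := by
  have hc0 := cint_nonneg h1
  refine ⟨|Real.log ρm| + β * ρm * cint c, by positivity, ?_⟩
  intro L n hL hn
  have hp := ZF_toReal_pos h1 h2 hS hβ hL n
  have hL3 : 0 < L ^ 3 := by positivity
  have h3 := ENNReal.toReal_mono (ZF_ne_top h1.nonneg hS hβ hL (n + 1))
    (ZF_add_one h1 h2 hβ hL n)
  rw [ENNReal.toReal_mul, ENNReal.toReal_ofReal (by positivity)] at h3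
  have h4 := Real.log_le_log (by positivity) h3
  rw [Real.log_mul (by positivity) hp.ne', Real.log_div (by positivity) (by positivity),
    Real.log_mul (by positivity) (Real.exp_pos _).ne', Real.log_exp] at h4
  unfold LZ
  have h5 : Real.log (n + 1 : ℝ) ≤ Real.log ρm + Real.log (L ^ 3) := by
    rw [← Real.log_mul hρ.ne' hL3.ne']
    exact Real.log_le_log (by positivity) hn
  have h6 : β * (n * cint c / L ^ 3) ≤ β * ρm * cint c := by
    rw [mul_assoc]
    refine mul_le_mul_of_nonneg_left ?_ hβ.le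
    rw [div_le_iff₀ hL3]
    nlinarith
  have h7 := le_abs_self (Real.log ρm)
  linarith

end LZ

theorem lzProps : LZPropsStmt := by
  intro c α B β h1 h2 hS hβ
  exact
    { pos := fun L n hL => LZ.ZF_pos h1.meas h2.meas β hL n
      fin := fun L n hL => LZ.ZF_ne_top h1.nonneg hS hβ hL n
      zero := fun L => LZ.LZ_zero c α β L
      mono := fun L L' n hL hLL => LZ.LZ_mono h1 h2 hS hβ n hL hLL
      upper := fun L n h hL => LZ.LZ_upper h1 h2 hS hβ n h hL
      add := fun ρm hρ => LZ.LZ_add h1 h2 hS hβ ρm hρ }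

theorem partitionStmt : PartitionStmt := by
  intro c α B h1 h2 hS β L n hβ hL
  have hp := LZ.ZF_toReal_pos h1 h2 hS hβ hL n
  have hm : Measurable (fun r => c r - α r) := h1.meas.sub h2.meas
  have key : partitionFn (fun r => c r - α r) L n β =
      Real.exp (-β * (n * α 0 / 2)) * (ZF (HF c α β) (cube L) n).toReal := by
    have hmeas : Measurable (fun x : Fin n → Pt => Real.exp (HF c α β (Fin n) x)) :=
      ((LZ.famOK_HF h1.meas h2.meas β).meas (Fin n)).exp
    unfold partitionFn ZF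
    rw [ENNReal.toReal_mul, ENNReal.toReal_inv, ENNReal.toReal_natCast, one_div]
    rw [mul_left_comm]
    congr 1
    rw [← integral_eq_lintegral_of_nonneg_ae
      (Filter.Eventually.of_forall (fun x => (Real.exp_nonneg _))) hmeas.aestronglyMeasurable,
      ← integral_const_mul]
    refine integral_congr_ae (Filter.Eventually.of_forall (fun x => ?_))
    simp only
    rw [LZ.energy_eq, ← Real.exp_add]
    unfold HF
    ring_nf
  rw [key, Real.log_mul (Real.exp_pos _).ne' hp.ne', Real.log_exp]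
  unfold LZ
  ring

end Crest.Agent.R149
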