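import Crest.Agent.R149.Stmts
import Crest.Agent.R149.LZProps
import Crest.Agent.R149.AbsSplit
import Mathlib

-- ▼ part R149/Final
section

/-!
# Row 149: the two final statements (S0209, S0210) from the module statements.
-/

set_option autoImplicit false

open MeasureTheory Crest.ProbabilityR.Continuum Filter Topology
open scoped ENNReal

namespace Crest.Agent.R149

namespace Final

/-- The canonical free energy of the statement from the limit of `LZ`. -/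
theorem tendsto_free {c α : ℝ → ℝ} {B : ℝ} {G : ℝ → ℝ → ℝ} (hP : PartitionStmt) (hc : CoreOK c)
    (hα : AttrOK α) (hS : Stab c α B) (hG : TLProps c α G) {r : ℝ} (hr : 0 ≤ r) {β : ℝ}
    (hβ : 0 < β) :
    Tendsto (fun L : ℝ => -(1 / (β * L ^ 3)) *
        Real.log (partitionFn (fun t => c t - α t) L ⌊r * L ^ 3⌋₊ β)) atTop
      (𝓝 (G β r / β + r * α 0 / 2)) := by
  have h1 := (hG.lim r hr β hβ).div_const β
  have h3 : Tendsto (fun L : ℝ => L ^ 3) atTop atTop := tendsto_pow_atTop (by norm_num)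
  have h2 : Tendsto (fun L : ℝ => (⌊r * L ^ 3⌋₊ : ℝ) / L ^ 3) atTop (𝓝 r) :=
    (tendsto_nat_floor_mul_div_atTop hr).comp h3
  have h4 := h1.add ((h2.mul_const (α 0)).div_const 2)
  refine h4.congr' ?_
  filter_upwards [eventually_gt_atTop 0] with L hL
  rw [hP c α B hc hα hS β L _ hβ hL]
  have hL3 : L ^ 3 ≠ 0 := by positivity
  field_simp
  ring

/-- One-sided derivatives of `G β r / β + const`. -/
theorem deriv_free {G : ℝ → ℝ} {βc C Dl Dr : ℝ} (hβ : 0 < βc)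
    (hl : HasDerivWithinAt G Dl (Set.Iio βc) βc) (hr : HasDerivWithinAt G Dr (Set.Ioi βc) βc)
    (h : Dr < Dl) : ∃ Dl' Dr' : ℝ,
      HasDerivWithinAt (fun β => G β / β + C) Dl' (Set.Iio βc) βc ∧
      HasDerivWithinAt (fun β => G β / β + C) Dr' (Set.Ioi βc) βc ∧ Dr' < Dl' := by
  refine ⟨(Dl * βc - G βc * 1) / βc ^ 2, (Dr * βc - G βc * 1) / βc ^ 2,
    (hl.div (hasDerivWithinAt_id _ _) hβ.ne').add_const C,
    (hr.div (hasDerivWithinAt_id _ _) hβ.ne').add_const C, ?_⟩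
  apply div_lt_div_of_pos_right _ (by positivity)
  nlinarith

theorem stable_energy {c α : ℝ → ℝ} {B : ℝ} (hc : CoreOK c) (hα : AttrOK α) (hS : Stab c α B)
    {n : ℕ} (x : Fin n → Pt) : -B * n ≤ energy (fun t => c t - α t) x := by
  rw [LZ.energy_eq]
  have h1 := LZ.Ham_lower hc.nonneg hS x
  have h2 := hα.nonneg 0
  simp only [Fintype.card_fin] at h1
  have h3 : 0 ≤ (n : ℝ) * α 0 / 2 := by positivity
  linarith

/-- `S0209` from the module statements. -/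
theorem s0209_of (hMain : MainStmt) (hPack : PackingStmt) (hKG : KGeomStmt) (hC : Core1Stmt)
    (hAP : AttrPropsStmt) (hP : PartitionStmt) (hK : KinkStmt) :
    ∃ φ : ℝ → ℝ, Continuous φ ∧ (∃ M : ℝ, ∀ r : ℝ, |φ r| ≤ M) ∧
      (∃ B : ℝ, ∀ (N : ℕ) (x : Fin N → Pt), -B * N ≤ energy φ x) ∧
      (∃ C : ℝ, ∀ r : ℝ, 1 ≤ r → |φ r| ≤ C * r ^ (-(3 + 1 / 32 : ℝ))) ∧
      ∃ p η βc : ℝ, 0 < p ∧
        Tendsto (fun L : ℝ => (packingNumber L : ℝ) / L ^ 3) atTop (𝓝 p) ∧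
        0 < η ∧ η ≤ 5 * p / 3 ∧ 7 / 8 ≤ βc ∧ βc ≤ 9 / 8 ∧
        ∃ f : ℝ → ℝ → ℝ,
          (∀ ρ : ℝ, 5 * p / 3 - η < ρ → ρ < 5 * p / 3 + η → ∀ β : ℝ, 0 < β →
            Tendsto (fun L : ℝ => -(1 / (β * L ^ 3)) *
                Real.log (partitionFn φ L ⌊ρ * L ^ 3⌋₊ β)) atTop (𝓝 (f β ρ))) ∧
          (∀ ρ : ℝ, 5 * p / 3 - η < ρ → ρ < 5 * p / 3 + η → ∃ Dl Dr : ℝ,
            HasDerivWithinAt (fun β => f β ρ) Dl (Set.Iio βc) βc ∧
            HasDerivWithinAt (fun β => f β ρ) Dr (Set.Ioi βc) βc ∧ Dr < Dl) := by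
  obtain ⟨p, hp, hp8, hlim⟩ := hPack
  obtain ⟨K, θ₂, θ₃, hKG⟩ := hKG
  obtain ⟨ξ, δ, M, hξ, hξ1, hδ, hδ1, hM, hmain⟩ := hMain K θ₂ θ₃ p hKG hp hp8 hlim
  obtain ⟨c, hct, hcc, hcM⟩ := hC θ₂ θ₃ ξ δ M hKG.h12 hKG.h23 hKG.h31 hξ hξ1 hδ hδ1 hM
  obtain ⟨N, a0, B, G, βc, hc, e, ρ, hN, ha0, hS, hG, hβ7, hβ9, hT, hρ0, hρp, hρ2⟩ := hmain c hct
  have AP := hAP N a0 hN ha0
  have hcore : CoreOK c := hct.toCoreOK
  have hKr : (2 : ℝ) ≤ K := by exact_mod_cast hKG.two_le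
  have hβ0 : 0 < βc := by linarith
  obtain ⟨A₀, hA₀⟩ := AP.ok.bdd
  have hA₀0 : 0 ≤ A₀ := (AP.ok.nonneg 0).trans (hA₀ 0)
  have hbd : ∀ r, |c r - αi N a0 r| ≤ M + A₀ := fun r => by
    rw [abs_le]
    have h1 := hcore.nonneg r
    have h2 := hcM r
    have h3 := AP.ok.nonneg r
    have h4 := hA₀ r
    constructor <;> linarith
  refine ⟨fun r => c r - αi N a0 r, hcc.sub AP.cont, ⟨M + A₀, hbd⟩,
    ⟨B, fun n x => stable_energy hcore AP.ok hS x⟩, ?_, p, p / 12, βc, hp, hlim, by linarith,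
    by linarith, hβ7.le, hβ9.le, fun β r => G β r / β + r * αi N a0 0 / 2, ?_, ?_⟩
  · obtain ⟨C, hC⟩ := AP.decay
    have h2pos : (0 : ℝ) < 2 ^ (-(3 + 1 / 32 : ℝ)) := Real.rpow_pos_of_pos (by norm_num) _
    have hC0 : 0 ≤ C := by
      have h1 := (AP.ok.nonneg 1).trans (hC 1 le_rfl)
      rwa [Real.one_rpow, mul_one] at h1
    refine ⟨C + M / 2 ^ (-(3 + 1 / 32 : ℝ)), fun r hr => ?_⟩
    have hr0 : 0 < r := by linarith
    have hrp : 0 < r ^ (-(3 + 1 / 32 : ℝ)) := Real.rpow_pos_of_pos hr0 _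
    have h1 : |c r| ≤ M / 2 ^ (-(3 + 1 / 32 : ℝ)) * r ^ (-(3 + 1 / 32 : ℝ)) := by
      rcases le_or_gt 2 r with h2 | h2
      · rw [hcore.far r h2, abs_zero]; positivity
      · rw [abs_of_nonneg (hcore.nonneg r)]
        have h3 : (2 : ℝ) ^ (-(3 + 1 / 32 : ℝ)) ≤ r ^ (-(3 + 1 / 32 : ℝ)) :=
          Real.rpow_le_rpow_of_nonpos hr0 h2.le (by norm_num)
        calc c r ≤ M := hcM r
          _ = M / 2 ^ (-(3 + 1 / 32 : ℝ)) * 2 ^ (-(3 + 1 / 32 : ℝ)) := by
              field_simp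
          _ ≤ M / 2 ^ (-(3 + 1 / 32 : ℝ)) * r ^ (-(3 + 1 / 32 : ℝ)) := by gcongr
    have h2 : |αi N a0 r| ≤ C * r ^ (-(3 + 1 / 32 : ℝ)) := by
      rw [abs_of_nonneg (AP.ok.nonneg r)]; exact hC r hr
    calc |c r - αi N a0 r| ≤ |c r| + |αi N a0 r| := abs_sub _ _
      _ ≤ _ := by rw [add_mul]; linarith
  · intro r hr1 hr2 β hβ
    exact tendsto_free hP hcore AP.ok hS hG (by linarith) hβ
  · intro r hr1 hr2
    obtain ⟨Dl, Dr, h1, h2, h3⟩ := hK G (Pr c (αi N a0)) βc hc e ρ hβ0 hρ0 hG.conv hG.conc hG.pr1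
      hG.pr2 hT r (by linarith) (by nlinarith)
    exact deriv_free hβ0 h1 h2 h3

/-- `S0210` from the module statements. -/
theorem s0210_of (hMain : MainStmt) (hPack : PackingStmt) (hKG : KGeomStmt) (hC : Core2Stmt)
    (hAP : AttrPropsStmt) (hP : PartitionStmt) (hK : KinkStmt) :
    ∃ φ : ℝ → ℝ, Measurable φ ∧
      (∀ a b : ℝ, 0 < a → a ≤ b → ∃ M : ℝ, ∀ r : ℝ, a ≤ r → r ≤ b → |φ r| ≤ M) ∧
      Tendsto φ (𝓝[>] 0) atTop ∧
      (∃ r₁ r₂ a : ℝ, 0 < r₁ ∧ r₁ < r₂ ∧ 0 < a ∧ ∀ r : ℝ, r₁ ≤ r → r ≤ r₂ → φ r ≤ -a) ∧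
      (∃ R : ℝ, 0 < R ∧ IntegrableOn (fun r : ℝ => r ^ 2 * |φ r|) (Set.Ioi R)) ∧
      Tendsto (fun r : ℝ => r ^ 3 * φ r) atTop (𝓝 0) ∧
      (∃ B : ℝ, ∀ (N : ℕ) (x : Fin N → Pt), Function.Injective x → -B * N ≤ energy φ x) ∧
      ∃ f : ℝ → ℝ → ℝ,
        (∀ ρ : ℝ, 0 < ρ → ∀ β : ℝ, 0 < β →
          Tendsto (fun L : ℝ => -(1 / (β * L ^ 3)) *
              Real.log (partitionFn φ L ⌊ρ * L ^ 3⌋₊ β)) atTop (𝓝 (f β ρ))) ∧
        ∃ ρ₁ ρ₂ βc : ℝ, 0 ≤ ρ₁ ∧ ρ₁ < ρ₂ ∧ 1 / 2 < βc ∧ βc < 3 / 2 ∧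
          ∀ ρ : ℝ, ρ₁ < ρ → ρ < ρ₂ → ∃ Dl Dr : ℝ,
            HasDerivWithinAt (fun β => f β ρ) Dl (Set.Iio βc) βc ∧
            HasDerivWithinAt (fun β => f β ρ) Dr (Set.Ioi βc) βc ∧ Dr < Dl := by
  obtain ⟨p, hp, hp8, hlim⟩ := hPack
  obtain ⟨K, θ₂, θ₃, hKG⟩ := hKG
  obtain ⟨ξ, δ, M, hξ, hξ1, hδ, hδ1, hM, hmain⟩ := hMain K θ₂ θ₃ p hKG hp hp8 hlim
  obtain ⟨c, hct, hc0, hcb⟩ := hC θ₂ θ₃ ξ δ M hKG.h12 hKG.h23 hKG.h31 hξ hξ1 hδ hδ1 hM
  obtain ⟨N, a0, B, G, βc, hc, e, ρ, hN, ha0, hS, hG, hβ7, hβ9, hT, hρ0, hρp, hρ2⟩ := hmain c hct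
  have AP := hAP N a0 hN ha0
  have hcore : CoreOK c := hct.toCoreOK
  have hKr : (2 : ℝ) ≤ K := by exact_mod_cast hKG.two_le
  have hβ0 : 0 < βc := by linarith
  obtain ⟨A₀, hA₀⟩ := AP.ok.bdd
  have hA₀0 : 0 ≤ A₀ := (AP.ok.nonneg 0).trans (hA₀ 0)
  have hmeas : Measurable (fun r => c r - αi N a0 r) := hcore.meas.sub AP.ok.meas
  obtain ⟨C, hCd⟩ := AP.decay
  -- decay beyond `2`
  have hdec : ∀ r : ℝ, 2 ≤ r → |c r - αi N a0 r| ≤ C * r ^ (-(3 + 1 / 32 : ℝ)) := fun r hr => by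
    rw [hcore.far r hr, zero_sub, abs_neg, abs_of_nonneg (AP.ok.nonneg r)]
    exact hCd r (by linarith)
  refine ⟨fun r => c r - αi N a0 r, hmeas, ?_, ?_, ?_, ?_, ?_,
    ⟨B, fun n x _ => stable_energy hcore AP.ok hS x⟩,
    fun β r => G β r / β + r * αi N a0 0 / 2, ?_,
    p / 4, K * p - p / 4, βc, by linarith, by nlinarith, by linarith, by linarith, ?_⟩
  · intro a b ha hab
    obtain ⟨C', hC'⟩ := hcb a b ha hab
    refine ⟨C' + A₀, fun r hr1 hr2 => ?_⟩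
    rw [abs_le]
    have h1 := hcore.nonneg r
    have h2 := hC' r hr1 hr2
    have h3 := AP.ok.nonneg r
    have h4 := hA₀ r
    constructor <;> linarith
  · have h1 : Tendsto (fun r => c r + (-A₀)) (𝓝[>] 0) atTop := tendsto_atTop_add_const_right _ _ hc0
    refine tendsto_atTop_mono (fun r => ?_) h1
    have := hA₀ r
    linarith
  · obtain ⟨a, ha, hpos⟩ := AP.pos
    refine ⟨2, 3, a, by norm_num, by norm_num, ha, fun r h1 h2 => ?_⟩
    have h3 := hpos r h1 h2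
    have h4 := hcore.far r h1
    simp only
    linarith
  · refine ⟨2, by norm_num, ?_⟩
    have hint : IntegrableOn (fun r : ℝ => C * r ^ (-(1 + 1 / 32 : ℝ))) (Set.Ioi 2) :=
      (integrableOn_Ioi_rpow_of_lt (by norm_num) (by norm_num)).const_mul C
    refine Integrable.mono' hint ?_ ?_
    · exact ((measurable_id.pow_const 2).mul
        (by simpa [Real.norm_eq_abs] using hmeas.norm)).aestronglyMeasurable
    · refine (ae_restrict_iff' measurableSet_Ioi).2 (Eventually.of_forall fun r hr => ?_)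
      have hr2 : (2 : ℝ) ≤ r := (Set.mem_Ioi.1 hr).le
      have hr0 : 0 < r := by linarith
      rw [Real.norm_eq_abs, abs_of_nonneg (by positivity)]
      calc r ^ 2 * |c r - αi N a0 r| ≤ r ^ 2 * (C * r ^ (-(3 + 1 / 32 : ℝ))) := by
            gcongr; exact hdec r hr2
        _ = C * r ^ (-(1 + 1 / 32 : ℝ)) := by
            have : r ^ (-(1 + 1 / 32 : ℝ)) = r ^ (2 : ℝ) * r ^ (-(3 + 1 / 32 : ℝ)) := by
              rw [← Real.rpow_add hr0]; norm_num
            rw [this, Real.rpow_two]; ring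
  · have h0 : Tendsto (fun r : ℝ => C * r ^ (-(1 / 32 : ℝ))) atTop (𝓝 (C * 0)) :=
      (tendsto_rpow_neg_atTop (by norm_num)).const_mul C
    rw [mul_zero] at h0
    refine squeeze_zero_norm' ?_ h0
    filter_upwards [eventually_ge_atTop 2] with r hr
    have hr0 : 0 < r := by linarith
    rw [Real.norm_eq_abs, abs_mul, abs_of_nonneg (by positivity : (0 : ℝ) ≤ r ^ 3)]
    calc r ^ 3 * |c r - αi N a0 r| ≤ r ^ 3 * (C * r ^ (-(3 + 1 / 32 : ℝ))) := by
          gcongr; exact hdec r hr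
      _ = C * r ^ (-(1 / 32 : ℝ)) := by
          have : r ^ (-(1 / 32 : ℝ)) = r ^ (3 : ℝ) * r ^ (-(3 + 1 / 32 : ℝ)) := by
            rw [← Real.rpow_add hr0]; norm_num
          rw [this, show r ^ (3 : ℝ) = r ^ (3 : ℕ) by
            rw [← Real.rpow_natCast]; norm_num]
          ring
  · intro r hr β hβ
    exact tendsto_free hP hcore AP.ok hS hG hr.le hβ
  · intro r hr1 hr2
    obtain ⟨Dl, Dr, h1, h2, h3⟩ := hK G (Pr c (αi N a0)) βc hc e ρ hβ0 hρ0 hG.conv hG.conc hG.pr1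
      hG.pr2 hT r (by linarith) (by linarith)
    exact deriv_free hβ0 h1 h2 h3

end Final

end Crest.Agent.R149
end

-- ▼ part R149/Main
section

/-!
# Row 149: assembly of the main theorem from the module statements
-/

set_option autoImplicit false

open MeasureTheory Crest.ProbabilityR.Continuum Filter Topology
open scoped ENNReal

namespace Crest.Agent.R149.MainAux

theorem SS_mono {g g' : ℝ → ℝ} (h : ∀ r, g r ≤ g' r) {ι : Type} [Fintype ι] (x : ι → Pt) :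
    SS g x ≤ SS g' x :=
  Finset.sum_le_sum fun _ _ => Finset.sum_le_sum fun _ _ => h _

theorem A_mono {g g' : ℝ → ℝ} (h : ∀ r, g r ≤ g' r) {ι : Type} [Fintype ι] (x : ι → Pt) :
    A g x ≤ A g' x := by
  unfold A; have := SS_mono h x; linarith

theorem Stab_mono {c α α' : ℝ → ℝ} {B : ℝ} (hS : Stab c α' B) (h : ∀ r, α r ≤ α' r) :
    Stab c α B :=
  ⟨hS.1, fun ι _ x => (A_mono h x).trans (hS.2 ι x)⟩

theorem AttrBound_mono {α α' : ℝ → ℝ} {a : ℝ} (hS : AttrBound α' a) (h : ∀ r, α r ≤ α' r) :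
    AttrBound α a :=
  ⟨hS.1, fun ι _ x => (A_mono h x).trans (hS.2 ι x)⟩

theorem U_nonneg {c : ℝ → ℝ} (hc : ∀ r, 0 ≤ c r) {ι : Type} [Fintype ι] (x : ι → Pt) :
    0 ≤ U c x := by
  classical
  unfold U SS
  have : (Fintype.card ι : ℝ) * c 0 ≤ ∑ i, ∑ j, c (dist (x i) (x j)) := by
    have h1 : (Fintype.card ι : ℝ) * c 0 = ∑ i : ι, c (dist (x i) (x i)) := by
      simp
    rw [h1]
    refine Finset.sum_le_sum fun i _ => ?_
    exact Finset.single_le_sum (f := fun j => c (dist (x i) (x j))) (fun j _ => hc _)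
      (Finset.mem_univ i)
  linarith

/-- Superstability gives stability. -/
theorem stab_of_superStab (hSS : SuperStabStmt) {c α : ℝ → ℝ} {K : ℕ} {M a1 : ℝ}
    (hc : ∀ t, 0 ≤ c t) (hK : 1 ≤ K) (hCK : CoreK c K M) (ha1 : 0 < a1)
    (hM : 16 * K * a1 ≤ M) (hA : AttrBound α a1) : Stab c α (2 * K * a1) := by
  have hK' : (1 : ℝ) ≤ K := by exact_mod_cast hK
  have hM0 : 0 ≤ M := le_trans (by positivity) hM
  refine ⟨by positivity, fun ι _ x => ?_⟩
  have h1 := hA.2 ι x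
  have h2 := hSS c K M hc hK hM0 hCK ι x
  have h3 := U_nonneg hc x
  set n : ℝ := (Fintype.card ι : ℝ) with hn
  set T := N2 (1 / 2) 0 x with hT
  have hn0 : 0 ≤ n := by positivity
  refine h1.trans ?_
  by_cases hcase : T ≤ 2 * K * n
  · have : a1 * T ≤ a1 * (2 * K * n) := mul_le_mul_of_nonneg_left hcase ha1.le
    nlinarith
  · push Not at hcase
    have h4 : T / (4 * K) ≤ T / (2 * K) - n / 2 := by
      have : n / 2 ≤ T / (4 * K) := by
        rw [div_le_div_iff₀ (by norm_num) (by positivity)]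
        nlinarith
      have h5 : T / (2 * K) = T / (4 * K) + T / (4 * K) := by field_simp; ring
      linarith
    have h6 : M * (T / (4 * K)) ≤ U c x := (mul_le_mul_of_nonneg_left h4 hM0).trans h2
    have hT0 : 0 ≤ T := le_trans (by positivity) hcase.le
    have h7 : 16 * K * a1 * (T / (4 * K)) ≤ M * (T / (4 * K)) :=
      mul_le_mul_of_nonneg_right hM (by positivity)
    have h8 : 16 * K * a1 * (T / (4 * K)) = 4 * (a1 * T) := by field_simp; ring
    have h9 : 0 ≤ 2 * K * a1 * n := by positivity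
    linarith

theorem αk_succ (N : ℕ) (a0 : ℝ) (k : ℕ) :
    αk N a0 (k + 1) = fun r => αk N a0 k r + scA N a0 k * wk (scR N k) r := by
  funext r; simp [αk, Finset.sum_range_succ]

theorem αk_zero (N : ℕ) (a0 : ℝ) : αk N a0 0 = fun _ => 0 := by
  funext r; simp [αk]

/-- The block size used when adding scale `k`. -/
def blk (N : ℕ) (k : ℕ) : ℕ := if k = 0 then N ^ 16 else N ^ (24 * 2 ^ k)

/-- The range parameter before adding scale `k`. -/
noncomputable def rng (N : ℕ) (k : ℕ) : ℝ := if k = 0 then 0 else scR N (k - 1)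

theorem two_pow_ge (k : ℕ) : k + 1 ≤ 2 ^ k := Nat.lt_two_pow_self

theorem rng_succ (N k : ℕ) : rng N (k + 1) = (N : ℝ) ^ (16 * 2 ^ (k + 1)) := by
  simp only [rng, scR]
  simp only [Nat.add_eq_zero_iff, one_ne_zero, and_false, if_false, Nat.add_sub_cancel]
  congr 1
  rw [pow_succ]; ring

theorem blk_pos {N : ℕ} (hN : 4 ≤ N) (k : ℕ) : 1 ≤ blk N k := by
  unfold blk; split_ifs <;> exact Nat.one_le_pow _ _ (by omega)

theorem blk_cond {N : ℕ} (hN : 4 ≤ N) (k : ℕ) : 4 * (4 * rng N k + 3) ≤ (blk N k : ℝ) := by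
  have hN' : (4 : ℝ) ≤ N := by exact_mod_cast hN
  rcases k with _ | k
  · simp only [rng, blk, if_true]
    push_cast
    have : (4 : ℝ) ^ 16 ≤ (N : ℝ) ^ 16 := pow_le_pow_left₀ (by norm_num) hN' 16
    norm_num at this ⊢
    linarith
  · rw [rng_succ]
    simp only [blk, Nat.add_eq_zero_iff, one_ne_zero, and_false, if_false]
    push_cast
    have h1 : (N : ℝ) ^ (24 * 2 ^ (k + 1)) =
        (N : ℝ) ^ (16 * 2 ^ (k + 1)) * (N : ℝ) ^ (8 * 2 ^ (k + 1)) := by
      rw [← pow_add]; congr 1; ring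
    rw [h1]
    have h2 : (4 : ℝ) ^ 8 ≤ (N : ℝ) ^ (8 * 2 ^ (k + 1)) := by
      calc (4 : ℝ) ^ 8 ≤ (N : ℝ) ^ 8 := pow_le_pow_left₀ (by norm_num) hN' 8
        _ ≤ (N : ℝ) ^ (8 * 2 ^ (k + 1)) :=
            pow_le_pow_right₀ (by linarith) (Nat.le_mul_of_pos_right _ (by positivity))
    have h3 : (1 : ℝ) ≤ (N : ℝ) ^ (16 * 2 ^ (k + 1)) := one_le_pow₀ (by linarith)
    norm_num at h2
    nlinarith

theorem blk_le {N : ℕ} (hN : 4 ≤ N) (k : ℕ) : (blk N k : ℝ) ≤ scR N k := by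
  have hN' : (1 : ℝ) ≤ N := by exact_mod_cast (by omega : 1 ≤ N)
  unfold blk scR
  split_ifs with h
  · subst h; push_cast; exact pow_le_pow_right₀ hN' (by norm_num)
  · push_cast; exact pow_le_pow_right₀ hN' (Nat.mul_le_mul_right _ (by norm_num))

theorem err_le {N : ℕ} (hN : 4 ≤ N) (k : ℕ) :
    (rng N k + 1) / blk N k + blk N k / scR N k ≤ 3 / (N : ℝ) ^ (8 * 2 ^ k) := by
  have hN' : (1 : ℝ) ≤ N := by exact_mod_cast (by omega : 1 ≤ N)
  have hN0 : (0 : ℝ) < N := by linarith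
  rcases k with _ | k
  · simp only [rng, blk, scR, if_true, pow_zero, mul_one]
    push_cast
    have h1 : (0 + 1 : ℝ) / (N : ℝ) ^ 16 ≤ 1 / (N : ℝ) ^ 8 := by
      rw [zero_add]
      exact one_div_le_one_div_of_le (by positivity) (pow_le_pow_right₀ hN' (by norm_num))
    have h2 : (N : ℝ) ^ 16 / (N : ℝ) ^ 32 ≤ 1 / (N : ℝ) ^ 8 := by
      rw [div_le_div_iff₀ (by positivity) (by positivity), ← pow_add, one_mul]
      exact pow_le_pow_right₀ hN' (by norm_num)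
    have h3 : (3 : ℝ) / (N : ℝ) ^ 8 = 1 / (N : ℝ) ^ 8 + 1 / (N : ℝ) ^ 8 + 1 / (N : ℝ) ^ 8 := by
      ring
    have h4 : (0 : ℝ) ≤ 1 / (N : ℝ) ^ 8 := by positivity
    linarith
  · rw [rng_succ]
    simp only [blk, scR, Nat.add_eq_zero_iff, one_ne_zero, and_false, if_false]
    push_cast
    set e := 2 ^ (k + 1) with he
    have hA : (N : ℝ) ^ (24 * e) = (N : ℝ) ^ (16 * e) * (N : ℝ) ^ (8 * e) := by
      rw [← pow_add]; congr 1; ring
    have hB : (N : ℝ) ^ (32 * e) = (N : ℝ) ^ (24 * e) * (N : ℝ) ^ (8 * e) := by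
      rw [← pow_add]; congr 1; ring
    have h1 : ((N : ℝ) ^ (16 * e) + 1) / (N : ℝ) ^ (24 * e) ≤ 2 / (N : ℝ) ^ (8 * e) := by
      rw [hA, div_le_div_iff₀ (by positivity) (by positivity)]
      have h3 : (1 : ℝ) ≤ (N : ℝ) ^ (16 * e) := one_le_pow₀ hN'
      have h4 : (0 : ℝ) < (N : ℝ) ^ (8 * e) := by positivity
      nlinarith
    have h2 : (N : ℝ) ^ (24 * e) / (N : ℝ) ^ (32 * e) = 1 / (N : ℝ) ^ (8 * e) := by
      rw [hB]; field_simp
    rw [h2]
    have h3 : (3 : ℝ) / (N : ℝ) ^ (8 * e) = 2 / (N : ℝ) ^ (8 * e) + 1 / (N : ℝ) ^ (8 * e) := by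
      ring
    linarith

theorem scR_one_le {N : ℕ} (hN : 4 ≤ N) (k : ℕ) : 1 ≤ scR N k := by
  have hN' : (1 : ℝ) ≤ N := by exact_mod_cast (by omega : 1 ≤ N)
  exact one_le_pow₀ hN'

theorem scA_pos {N : ℕ} (hN : 4 ≤ N) {a0 : ℝ} (ha : 0 < a0) (k : ℕ) : 0 < scA N a0 k := by
  have hN' : (0 : ℝ) < N := by exact_mod_cast (by omega : 0 < N)
  unfold scA; split_ifs
  · exact ha
  · positivity

theorem scA_le {N : ℕ} (hN : 4 ≤ N) {a0 : ℝ} (ha : 0 < a0) (k : ℕ) :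
    scA N a0 k ≤ 8 * (a0 + 1) := by
  have hN' : (1 : ℝ) ≤ N := by exact_mod_cast (by omega : 1 ≤ N)
  unfold scA; split_ifs
  · linarith
  · have : ((N : ℝ) ^ 2 ^ k)⁻¹ ≤ 1 := inv_le_one_of_one_le₀ (one_le_pow₀ hN')
    linarith

theorem scA_succ_le {N : ℕ} (hN : 4 ≤ N) (a0 : ℝ) (k : ℕ) :
    scA N a0 (k + 1) ≤ (1 / N) * (1 / 2) ^ (k + 1) := by
  have hN' : (4 : ℝ) ≤ N := by exact_mod_cast hN
  have hN0 : (0 : ℝ) < N := by linarith
  simp only [scA, Nat.add_eq_zero_iff, one_ne_zero, and_false, if_false]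
  have hR : (1 / (N : ℝ)) * (1 / 2) ^ (k + 1) = ((2 : ℝ) ^ (k + 1) * N)⁻¹ := by
    rw [div_pow, one_pow]; field_simp
  rw [hR]
  apply inv_anti₀ (by positivity)
  calc (2 : ℝ) ^ (k + 1) * N ≤ (N : ℝ) ^ (k + 1) * N := by
        apply mul_le_mul_of_nonneg_right _ hN0.le
        exact pow_le_pow_left₀ (by norm_num) (by linarith) _
    _ = (N : ℝ) ^ (k + 1 + 1) := by rw [pow_succ _ (k + 1)]
    _ ≤ (N : ℝ) ^ 2 ^ (k + 1) := pow_le_pow_right₀ (by linarith) (two_pow_ge (k + 1))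

end Crest.Agent.R149.MainAux

namespace Crest.Agent.R149

open MainAux

/-- The main theorem from the module statements. -/
theorem main_of (hAbs : AbsStmt) (hTL : TLStmt) (hPr : PrPropsStmt) (hLPL : LPLowerStmt)
    (hLPU : LPUpperStmt) (hLim : LimStmt) (hBL : BaseLowerStmt) (hBU : BaseUpperStmt)
    (hCK : CoreKStmt) (hSS : SuperStabStmt) (hAP : AttrPropsStmt) : MainStmt := by
  intro K θ₂ θ₃ p hKG hp hp8 hlim
  have hK2 : 2 ≤ K := hKG.two_le
  have hK1 : 1 ≤ K := by omega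
  have hKr : (2 : ℝ) ≤ K := by exact_mod_cast hK2
  set mm : ℝ := 16 * K with hmm
  have hmmK : K * p + p ≤ mm := by rw [hmm]; nlinarith
  obtain ⟨s, hs, habs⟩ := hAbs p K mm hp hK2 hmmK
  set H0 : ℝ := 3 + 4 * mm / (p * K) with hH0
  obtain ⟨ξ, ΛL, hξ0, hξ1, hBL'⟩ := hBL K θ₂ θ₃ p s hKG hp hlim hs
  obtain ⟨ΛU, hΛU0, hBU'⟩ := hBU K θ₂ θ₃ p s H0 hKG hp hlim hs
  set Λ : ℝ := max 10 (max ΛL ΛU) with hΛ
  have hΛ10 : 10 ≤ Λ := le_max_left _ _
  have hΛL : ΛL ≤ Λ := (le_max_left _ _).trans (le_max_right _ _)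
  have hΛU : ΛU ≤ Λ := (le_max_right _ _).trans (le_max_right _ _)
  have hΛ0 : 0 < Λ := by linarith
  obtain ⟨M0U, hBU''⟩ := hBU' Λ hΛU
  set a0 : ℝ := Λ * (2 / (p * K)) with ha0
  have ha0p : 0 < a0 := by positivity
  set a1 : ℝ := 8 * (a0 + 1) with ha1
  have ha1p : 0 < a1 := by positivity
  obtain ⟨C, M0L, hC0, hM0L0, hLPU'⟩ := hLPU K a1 (3 * Λ) hK1 ha1p
  set M : ℝ := max (max M0U M0L) (16 * K * a1) with hM
  have hMU : M0U ≤ M := (le_max_left _ _).trans (le_max_left _ _)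
  have hML : M0L ≤ M := (le_max_right _ _).trans (le_max_left _ _)
  have hMa : 16 * K * a1 ≤ M := le_max_right _ _
  have hM0 : 0 ≤ M := hM0L0.trans hML
  set δ : ℝ := Real.exp (-Λ / 3) with hδ
  have hδ0 : 0 < δ := Real.exp_pos _
  have hδ1 : δ ≤ 1 / 4 := by
    have h1 : δ ≤ Real.exp (-3) := Real.exp_le_exp.mpr (by linarith)
    have h2 : Real.exp (-3) ≤ 1 / 4 := by
      rw [Real.exp_neg, ← one_div]
      apply one_div_le_one_div_of_le (by norm_num)
      have := Real.add_one_le_exp (3 : ℝ)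
      linarith
    linarith
  refine ⟨ξ, δ, M, hξ0, hξ1, hδ0, hδ1, hM0, fun c hc => ?_⟩
  have hcOK : CoreOK c := hc.toCoreOK
  have hCoreK : CoreK c K M := hCK K θ₂ θ₃ ξ δ M c hKG hc
  -- choose N
  obtain ⟨N0, hN0⟩ := exists_nat_ge (max (3 * C / s ^ 2) (1 / s))
  set N : ℕ := max N0 4 with hN
  have hN4 : 4 ≤ N := le_max_right _ _
  have hNr4 : (4 : ℝ) ≤ N := by exact_mod_cast hN4
  have hNN0 : (N0 : ℝ) ≤ N := by exact_mod_cast le_max_left N0 4
  have hNpos : (0 : ℝ) < N := by linarith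
  have hN1 : 3 * C ≤ s ^ 2 * N := by
    have : 3 * C / s ^ 2 ≤ N := (le_max_left _ _).trans (hN0.trans hNN0)
    rw [div_le_iff₀ (by positivity)] at this
    linarith
  have hN2 : 1 ≤ s * N := by
    have : 1 / s ≤ N := (le_max_right _ _).trans (hN0.trans hNN0)
    rw [div_le_iff₀ hs] at this
    linarith
  have hAPN := hAP N a0 hN4 ha0p
  set αI := αi N a0 with hαI
  have hbound : AttrBound αI a1 := hAPN.bound
  have hboundk : ∀ k, AttrBound (αk N a0 k) a1 := fun k => AttrBound_mono hbound (hAPN.le k)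
  have hStab : Stab c αI (2 * K * a1) :=
    stab_of_superStab hSS hcOK.nonneg hK1 hCoreK ha1p hMa hbound
  have hStabk : ∀ k, Stab c (αk N a0 k) (2 * K * a1) := fun k => Stab_mono hStab (hAPN.le k)
  obtain ⟨G, hG⟩ := hTL c αI _ hcOK hAPN.ok hStab
  set P : ℕ → ℝ → ℝ → ℝ := fun k β h => Pr c (αk N a0 k) β (Λ * h) / Λ with hP
  set Pinf : ℝ → ℝ → ℝ := fun β h => Pr c αI β (Λ * h) / Λ with hPinf
  set a : ℕ → ℝ := fun k => scA N a0 k / Λ with ha
  set ε : ℕ → ℝ := fun k => if k = 0 then 0 else C * (3 / (N : ℝ) ^ (8 * 2 ^ (k - 1))) / Λ with hε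
  have hPk : ∀ k, PrProps c (αk N a0 k) (2 * K * a1) := fun k =>
    hPr c _ _ hcOK (hAPN.okk k) (hStabk k)
  have hdata : AbsData p K mm s P Pinf a ε := by
    refine
      { conv := ?_, mono := ?_, a0 := ?_, apos := ?_, asmall := ?_, εnn := ?_, εsmall := ?_,
        base_lower := ?_, base_upper := ?_, lower := ?_, upper := ?_, lim := ?_ }
    · intro k
      have h1 := (hPk k).conv
      refine ⟨?_, ?_⟩
      · exact h1.1
      · intro x hx y hy u v hu hv huv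
        have hx' : ((x.1, Λ * x.2) : ℝ × ℝ) ∈ {x : ℝ × ℝ | 0 < x.1} := hx
        have hy' : ((y.1, Λ * y.2) : ℝ × ℝ) ∈ {x : ℝ × ℝ | 0 < x.1} := hy
        have h2 := h1.2 hx' hy' hu hv huv
        simp only [Prod.smul_mk, Prod.mk_add_mk, smul_eq_mul, Prod.fst_add, Prod.snd_add,
          Prod.smul_fst, Prod.smul_snd] at h2 ⊢
        have h3 : Λ * (u * x.2 + v * y.2) = u * (Λ * x.2) + v * (Λ * y.2) := by ring
        simp only [hP]
        rw [h3]
        calc _ ≤ (u * Pr c (αk N a0 k) x.1 (Λ * x.2) + v * Pr c (αk N a0 k) y.1 (Λ * y.2)) / Λ :=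
              div_le_div_of_nonneg_right h2 hΛ0.le
          _ = _ := by ring
    · intro k β h h' hβ hh
      exact div_le_div_of_nonneg_right
        ((hPk k).mono β _ _ hβ (mul_le_mul_of_nonneg_left hh hΛ0.le)) hΛ0.le
    · simp only [ha, scA, if_true]
      rw [ha0]; field_simp
    · intro k; exact div_pos (scA_pos hN4 ha0p k) hΛ0
    · intro k hk
      obtain ⟨j, rfl⟩ : ∃ j, k = j + 1 := ⟨k - 1, by omega⟩
      have h1 := scA_succ_le hN4 a0 j
      have h2 : scA N a0 (j + 1) / Λ ≤ scA N a0 (j + 1) := by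
        rw [div_le_iff₀ hΛ0]
        nlinarith [scA_pos hN4 ha0p (j + 1)]
      refine h2.trans (h1.trans ?_)
      apply mul_le_mul_of_nonneg_right _ (by positivity)
      rw [div_le_iff₀ hNpos]; linarith
    · intro k
      simp only [hε]; split_ifs
      · exact le_rfl
      · positivity
    · intro k hk
      obtain ⟨j, rfl⟩ : ∃ j, k = j + 1 := ⟨k - 1, by omega⟩
      simp only [hε, ha, scA, Nat.add_eq_zero_iff, one_ne_zero, and_false, if_false,
        Nat.add_sub_cancel]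
      set E := 2 ^ j with hE
      have hE1 : j + 1 ≤ E := two_pow_ge j
      have hE2 : 2 ^ (j + 1) = 2 * E := by rw [pow_succ]; ring
      rw [hE2]
      have h8 : (N : ℝ) ^ (8 * E) = (N : ℝ) ^ (2 * E) * (N : ℝ) ^ (6 * E) := by
        rw [← pow_add]; congr 1; ring
      have h6 : (4 : ℝ) ^ (j + 1) * N ≤ (N : ℝ) ^ (6 * E) := by
        calc (4 : ℝ) ^ (j + 1) * N ≤ (N : ℝ) ^ (j + 1) * N := by
              apply mul_le_mul_of_nonneg_right _ hNpos.le
              exact pow_le_pow_left₀ (by norm_num) hNr4 _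
          _ = (N : ℝ) ^ (j + 1 + 1) := by rw [pow_succ _ (j + 1)]
          _ ≤ (N : ℝ) ^ (6 * E) := pow_le_pow_right₀ (by linarith) (by omega)
      have h4 : (s * (1 / 2) ^ (j + 1)) ^ 2 = s ^ 2 / (4 : ℝ) ^ (j + 1) := by
        rw [mul_pow, ← pow_mul, mul_comm (j + 1) 2, pow_mul, div_eq_mul_inv (s ^ 2), ← inv_pow]
        norm_num
      rw [h4, h8]
      have hX : 0 < (N : ℝ) ^ (2 * E) := by positivity
      have hY : 0 < (N : ℝ) ^ (6 * E) := by positivity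
      have hZ : (0 : ℝ) < 4 ^ (j + 1) := by positivity
      have hmain : 3 * C * (4 : ℝ) ^ (j + 1) ≤ s ^ 2 * (N : ℝ) ^ (6 * E) := by
        calc 3 * C * (4 : ℝ) ^ (j + 1) ≤ s ^ 2 * N * (4 : ℝ) ^ (j + 1) :=
              mul_le_mul_of_nonneg_right hN1 hZ.le
          _ = s ^ 2 * ((4 : ℝ) ^ (j + 1) * N) := by ring
          _ ≤ s ^ 2 * (N : ℝ) ^ (6 * E) := mul_le_mul_of_nonneg_left h6 (by positivity)
      have e1 : C * (3 / ((N : ℝ) ^ (2 * E) * (N : ℝ) ^ (6 * E))) / Λ =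
          (3 * C * (4 : ℝ) ^ (j + 1)) /
            ((N : ℝ) ^ (2 * E) * (N : ℝ) ^ (6 * E) * (4 : ℝ) ^ (j + 1) * Λ) := by
        field_simp
      have e2 : s ^ 2 / (4 : ℝ) ^ (j + 1) * (((N : ℝ) ^ (2 * E))⁻¹ / Λ) =
          (s ^ 2 * (N : ℝ) ^ (6 * E)) /
            ((N : ℝ) ^ (2 * E) * (N : ℝ) ^ (6 * E) * (4 : ℝ) ^ (j + 1) * Λ) := by
        field_simp
      rw [e1, e2]
      exact div_le_div_of_nonneg_right hmain (by positivity)
    · obtain ⟨p', hp1, hp2, h3⟩ := hBL' Λ hΛL M c hc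
      refine ⟨p', hp1, hp2, fun β h hβ => ?_⟩
      have := h3 β h hβ
      simp only [hP, αk_zero]
      rw [le_div_iff₀ hΛ0]; linarith
    · intro β h hβ1 hβ2 hh
      have := hBU'' M ξ c hMU hc β h hβ1 hβ2 hh
      simp only [hP, αk_zero]
      rw [div_le_iff₀ hΛ0]; linarith
    · intro k β h m hβ hm
      have h1 := hLPL c (αk N a0 k) (2 * K * a1) (scR N k) (scA N a0 k) hcOK (hAPN.okk k)
        (lt_of_lt_of_le one_pos (scR_one_le hN4 k)) (scA_pos hN4 ha0p k).le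
        (by rw [← αk_succ]; exact hStabk (k + 1)) β (Λ * h) m hβ
      rw [← αk_succ] at h1
      simp only [hP, ha]
      rw [le_div_iff₀ hΛ0]
      have e1 : Λ * (h + β * (scA N a0 k / Λ) * m) = Λ * h + β * scA N a0 k * m := by
        field_simp
      rw [e1]
      calc _ = Pr c (αk N a0 k) β (Λ * h + β * scA N a0 k * m) - β * scA N a0 k * m ^ 2 / 2 := by
            field_simp
        _ ≤ _ := h1
    · intro k β h hβ1 hβ2 hh y hy
      have h1 := hLPU' c (αk N a0 k) M (rng N k) (scR N k) (scA N a0 k) (blk N k) hcOK hCoreK hML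
        (hAPN.okk k)
        (by
          rcases k with _ | k
          · intro t _; simp [αk_zero]
          · intro t ht
            have : 2 * scR N k ≤ t := by simpa [rng] using ht
            exact hAPN.farR k t this)
        (by
          rcases k with _ | k
          · simp [rng]
          · rw [rng_succ]; positivity)
        (scR_one_le hN4 k) (scA_pos hN4 ha0p k).le (scA_le hN4 ha0p k)
        (by rw [← αk_succ]; exact hboundk (k + 1)) (blk_pos hN4 k) (blk_cond hN4 k) (blk_le hN4 k)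
        β (Λ * h) hβ1 hβ2 (by nlinarith) (Λ * y) (by
          intro m hm0 hm1
          have h2 := hy m hm0 (by rw [hmm]; exact hm1)
          simp only [hP, ha] at h2
          have e1 : Λ * (h + β * (scA N a0 k / Λ) * m) = Λ * h + β * scA N a0 k * m := by
            field_simp
          rw [e1] at h2
          have e2 : Pr c (αk N a0 k) β (Λ * h + β * scA N a0 k * m) / Λ -
              β * (scA N a0 k / Λ) * m ^ 2 / 2 =
              (Pr c (αk N a0 k) β (Λ * h + β * scA N a0 k * m) - β * scA N a0 k * m ^ 2 / 2) / Λ := by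
            field_simp
          rw [e2, div_le_iff₀ hΛ0] at h2
          linarith)
      rw [← αk_succ] at h1
      simp only [hP, hε, Nat.add_eq_zero_iff, one_ne_zero, and_false, if_false,
        Nat.add_sub_cancel]
      rw [div_le_iff₀ hΛ0]
      have h3 : C * ((rng N k + 1) / blk N k + blk N k / scR N k) ≤
          C * (3 / (N : ℝ) ^ (8 * 2 ^ k)) := mul_le_mul_of_nonneg_left (err_le hN4 k) hC0
      have h4 : (y + C * (3 / (N : ℝ) ^ (8 * 2 ^ k)) / Λ) * Λ =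
          Λ * y + C * (3 / (N : ℝ) ^ (8 * 2 ^ k)) := by field_simp
      rw [h4]; linarith
    · intro β h hβ
      obtain ⟨τ, hτ0, hτl, hτ⟩ := hAPN.tail
      have h1 := hLim c K M a1 (αk N a0) αI τ hcOK hK1 ha1p hMa hCoreK hAPN.okk hAPN.ok
        (by
          intro k r
          rw [αk_succ]
          have h2 : 0 ≤ scA N a0 k * wk (scR N k) r := by
            apply mul_nonneg (scA_pos hN4 ha0p k).le
            unfold wk; positivity
          simpa using h2)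
        hAPN.le hbound hτ0 hτl hτ β (Λ * h) hβ
      exact h1.div_const Λ
  obtain ⟨βc, hcc, e, ρ, hβ1, hβ2, hT, hρ0, hρ0', hρ2⟩ := habs P Pinf a ε hdata
  refine ⟨N, a0, 2 * K * a1, G, βc, Λ * hcc, fun i => Λ * e i, ρ, hN4, ha0p, hStab, hG, hβ1, hβ2,
    ?_, hρ0, hρ0', hρ2⟩
  refine { sub := ?_, lt01 := hT.lt01, lt12 := hT.lt12, indep := ?_ }
  · intro i β h hβ
    have h1 := hT.sub i β (h / Λ) hβ
    simp only [hPinf] at h1
    have e1 : Λ * (h / Λ) = h := by field_simp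
    rw [e1, le_div_iff₀ hΛ0] at h1
    have e2 : (Pr c αI βc (Λ * hcc) / Λ - e i * (β - βc) + ρ i * (h / Λ - hcc)) * Λ =
        Pr c αI βc (Λ * hcc) - Λ * e i * (β - βc) + ρ i * (h - Λ * hcc) := by
      field_simp
    rw [e2] at h1
    exact h1
  · intro h
    apply hT.indep
    have h2 : Λ * ((e 1 - e 0) * (ρ 2 - ρ 0)) = Λ * ((e 2 - e 0) * (ρ 1 - ρ 0)) := by
      linarith [h]
    exact mul_left_cancel₀ hΛ0.ne' h2

end Crest.Agent.R149
end

-- ▼ part R149/AbsTriple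
section

/-!
# Row 149: the triple point (AbsTripleStmt)
-/

set_option autoImplicit false

open MeasureTheory Crest.ProbabilityR.Continuum Filter Topology Set

namespace Crest.Agent.R149.AbsTriple

/-- `i`-th phase is present at `(β, h)`. -/
def In (P : ℝ → ℝ → ℝ) (E D : Fin 3 → ℝ) (η : ℝ) (i : Fin 3) (β h : ℝ) : Prop :=
  ∃ e ρ : ℝ, |e - E i| ≤ η ∧ |ρ - D i| ≤ η ∧ ESub P 0 β h e ρ

/-- monotonicity of the phases in `h`. -/
theorem In_mono {P : ℝ → ℝ → ℝ} {E D : Fin 3 → ℝ} {η : ℝ} {i j : Fin 3} {β h h' : ℝ}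
    (hβ : 0 < β) (hi : In P E D η i β h) (hj : In P E D η j β h') (hh : h < h') :
    D i - η ≤ D j + η := by
  obtain ⟨e, ρ, -, hρ, hs⟩ := hi
  obtain ⟨e', ρ', -, hρ', hs'⟩ := hj
  have h1 := hs β h' hβ
  have h2 := hs' β h hβ
  have h3 : ρ ≤ ρ' := by
    by_contra hc
    push Not at hc
    nlinarith
  have := (abs_le.mp hρ).1
  have := (abs_le.mp hρ').2
  linarith

/-- Window. -/
def W : Set (ℝ × ℝ) := Icc (7 / 8) (9 / 8) ×ˢ Icc (-2) 2

theorem lipW {P : ℝ → ℝ → ℝ} {E D : Fin 3 → ℝ} {η Cb : ℝ}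
    (hC : ∀ i, |E i| + η ≤ Cb ∧ |D i| + η ≤ Cb)
    (hsub : ∀ β h, 7 / 8 ≤ β → β ≤ 9 / 8 → h ≤ 2 → ∃ i, In P E D η i β h) :
    ContinuousOn (fun x : ℝ × ℝ => P x.1 x.2) W := by
  have key : ∀ x ∈ W, ∀ y ∈ W, P x.1 x.2 - P y.1 y.2 ≤ Cb * (|x.1 - y.1| + |x.2 - y.2|) := by
    rintro ⟨β, h⟩ ⟨hx1, hx2⟩ ⟨β', h'⟩ ⟨hy1, hy2⟩
    obtain ⟨i, e, ρ, he, hρ, hs⟩ := hsub β h hx1.1 hx1.2 hx2.2
    have h1 := hs β' h' (by have := hy1.1; simp only at this; linarith)
    have he' : |e| ≤ Cb := by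
      have := (hC i).1
      have h2 : |e| ≤ |e - E i| + |E i| := by simpa using abs_add_le (e - E i) (E i)
      linarith
    have hρ' : |ρ| ≤ Cb := by
      have := (hC i).2
      have h2 : |ρ| ≤ |ρ - D i| + |D i| := by simpa using abs_add_le (ρ - D i) (D i)
      linarith
    have h3 : e * (β' - β) ≤ Cb * |β - β'| := by
      calc e * (β' - β) ≤ |e * (β' - β)| := le_abs_self _
        _ = |e| * |β - β'| := by rw [abs_mul, abs_sub_comm β' β]
        _ ≤ Cb * |β - β'| := mul_le_mul_of_nonneg_right he' (abs_nonneg _)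
    have h4 : -(ρ * (h' - h)) ≤ Cb * |h - h'| := by
      calc -(ρ * (h' - h)) ≤ |ρ * (h' - h)| := neg_le_abs _
        _ = |ρ| * |h - h'| := by rw [abs_mul, abs_sub_comm h' h]
        _ ≤ Cb * |h - h'| := mul_le_mul_of_nonneg_right hρ' (abs_nonneg _)
    simp only
    linarith
  have hC0 : 0 ≤ Cb := by
    have h1 := hsub 1 0 (by norm_num) (by norm_num) (by norm_num)
    obtain ⟨i, e, ρ, he, hρ, hs⟩ := h1
    have := (hC i).1
    have := abs_nonneg (E i)
    have := (abs_nonneg (e - E i)).trans he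
    linarith
  rw [Metric.continuousOn_iff]
  intro x hx ε hε
  refine ⟨ε / (2 * Cb + 1), by positivity, fun y hy hxy => ?_⟩
  have h1 := key x hx y hy
  have h2 := key y hy x hx
  have h3 : |x.1 - y.1| ≤ dist y x := by
    rw [dist_comm, Prod.dist_eq, ← Real.dist_eq]; exact le_max_left _ _
  have h4 : |x.2 - y.2| ≤ dist y x := by
    rw [dist_comm, Prod.dist_eq, ← Real.dist_eq]; exact le_max_right _ _
  rw [Real.dist_eq]
  have h5 : |P y.1 y.2 - P x.1 x.2| ≤ Cb * (|x.1 - y.1| + |x.2 - y.2|) := by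
    rw [abs_le]
    constructor
    · linarith
    · rw [abs_sub_comm x.1, abs_sub_comm x.2]; linarith
  have h6 : Cb * (|x.1 - y.1| + |x.2 - y.2|) ≤ 2 * Cb * dist y x := by nlinarith
  have h7 : 2 * Cb * dist y x ≤ (2 * Cb + 1) * dist y x := by
    nlinarith [dist_nonneg (x := y) (y := x)]
  have h8 : (2 * Cb + 1) * dist y x < ε := by
    rw [lt_div_iff₀ (by positivity)] at hxy
    linarith
  linarith

/-- The set of points of the window where phase `i` is present. -/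
def Wi (P : ℝ → ℝ → ℝ) (E D : Fin 3 → ℝ) (η : ℝ) (i : Fin 3) : Set (ℝ × ℝ) :=
  {x | x ∈ W ∧ In P E D η i x.1 x.2}

theorem isCompact_Wi {P : ℝ → ℝ → ℝ} {E D : Fin 3 → ℝ} {η : ℝ} (hP : ContinuousOn (fun x : ℝ × ℝ => P x.1 x.2) W)
    (i : Fin 3) : IsCompact (Wi P E D η i) := by
  set B : Set ((ℝ × ℝ) × (ℝ × ℝ)) :=
    W ×ˢ (Icc (E i - η) (E i + η) ×ˢ Icc (D i - η) (D i + η)) with hB
  have hBc : IsCompact B := by
    refine (isCompact_Icc.prod isCompact_Icc).prod (isCompact_Icc.prod isCompact_Icc)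
  set Kset : Set ((ℝ × ℝ) × (ℝ × ℝ)) := ⋂ y : {y : ℝ × ℝ // 0 < y.1},
    B ∩ (fun q : (ℝ × ℝ) × (ℝ × ℝ) =>
      P q.1.1 q.1.2 - 0 - q.2.1 * (y.1.1 - q.1.1) + q.2.2 * (y.1.2 - q.1.2)) ⁻¹'
        Iic (P y.1.1 y.1.2) with hK
  have hKc : IsCompact Kset := by
    refine hBc.of_isClosed_subset (isClosed_iInter fun y => ?_) ?_
    · apply ContinuousOn.preimage_isClosed_of_isClosed _ hBc.isClosed isClosed_Iic
      have h1 : ContinuousOn (fun q : (ℝ × ℝ) × (ℝ × ℝ) => P q.1.1 q.1.2) B :=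
        hP.comp continuousOn_fst (fun q hq => hq.1)
      have h2 : Continuous (fun q : (ℝ × ℝ) × (ℝ × ℝ) => q.2.1 * (y.1.1 - q.1.1)) := by fun_prop
      have h3 : Continuous (fun q : (ℝ × ℝ) × (ℝ × ℝ) => q.2.2 * (y.1.2 - q.1.2)) := by fun_prop
      exact ((h1.sub continuousOn_const).sub h2.continuousOn).add h3.continuousOn
    · intro q hq
      exact (mem_iInter.mp hq ⟨(1, 0), by simp⟩).1
  have himg : Wi P E D η i = Prod.fst '' Kset := by
    ext x
    constructor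
    · rintro ⟨hx, e, ρ, he, hρ, hs⟩
      refine ⟨(x, (e, ρ)), ?_, rfl⟩
      rw [hK, mem_iInter]
      rintro ⟨y, hy⟩
      refine ⟨⟨hx, ?_, ?_⟩, hs y.1 y.2 hy⟩
      · rw [abs_le] at he; exact ⟨by linarith, by linarith⟩
      · rw [abs_le] at hρ; exact ⟨by linarith, by linarith⟩
    · rintro ⟨⟨x', e, ρ⟩, hq, rfl⟩
      rw [hK, mem_iInter] at hq
      obtain ⟨hx, he, hρ⟩ := (hq ⟨(1, 0), by simp⟩).1
      refine ⟨hx, e, ρ, ?_, ?_, fun β' h' hβ' => (hq ⟨(β', h'), hβ'⟩).2⟩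
      · rw [abs_le]; exact ⟨by linarith [he.1], by linarith [he.2]⟩
      · rw [abs_le]; exact ⟨by linarith [hρ.1], by linarith [hρ.2]⟩
  rw [himg]
  exact hKc.image continuous_fst

theorem indep_aux {p K η e0 e1 e2 ρ0 ρ1 ρ2 : ℝ} (hp : 0 < p) (hKr : 2 ≤ K) (hηdef : η = p / 1000)
    (he0 : -η ≤ e0 - 0) (he0' : e0 - 0 ≤ η) (he1 : -η ≤ e1 - -p / K) (he1' : e1 - -p / K ≤ η)
    (he2 : -η ≤ e2 - -p * K) (he2' : e2 - -p * K ≤ η)
    (hρ0 : -η ≤ ρ0 - 0) (hρ0' : ρ0 - 0 ≤ η) (hρ1 : -η ≤ ρ1 - p) (hρ1' : ρ1 - p ≤ η)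
    (hρ2 : -η ≤ ρ2 - K * p) (hρ2' : ρ2 - K * p ≤ η) :
    (e1 - e0) * (ρ2 - ρ0) ≠ (e2 - e0) * (ρ1 - ρ0) := by
  have hK0 : 0 < K := by linarith
  have hη : 0 < η := by rw [hηdef]; positivity
  have hKp : 2 * p ≤ K * p := mul_le_mul_of_nonneg_right hKr hp.le
  have hpK : p / K ≤ p / 2 := div_le_div_of_nonneg_left hp.le (by norm_num) hKr
  have hpK0 : 0 < p / K := by positivity
  have hneg : -p / K = -(p / K) := by ring
  rw [hneg] at he1 he1'
  have g1 : -(p / K + 2 * η) ≤ e1 - e0 := by linarith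
  have g2 : 0 < ρ2 - ρ0 := by linarith
  have g3 : ρ2 - ρ0 ≤ K * p + 2 * η := by linarith
  have L : -((p / K + 2 * η) * (K * p + 2 * η)) ≤ (e1 - e0) * (ρ2 - ρ0) := by
    have a1 : -(p / K + 2 * η) * (ρ2 - ρ0) ≤ (e1 - e0) * (ρ2 - ρ0) :=
      mul_le_mul_of_nonneg_right g1 g2.le
    have a2 : (p / K + 2 * η) * (ρ2 - ρ0) ≤ (p / K + 2 * η) * (K * p + 2 * η) :=
      mul_le_mul_of_nonneg_left g3 (by positivity)
    linarith
  have g4 : e2 - e0 ≤ -(K * p - 2 * η) := by linarith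
  have g5 : p - 2 * η ≤ ρ1 - ρ0 := by linarith
  have g6 : 0 < p - 2 * η := by linarith
  have g7 : 0 < K * p - 2 * η := by linarith
  have R : (e2 - e0) * (ρ1 - ρ0) ≤ -((K * p - 2 * η) * (p - 2 * η)) := by
    have a1 : (e2 - e0) * (ρ1 - ρ0) ≤ -(K * p - 2 * η) * (ρ1 - ρ0) :=
      mul_le_mul_of_nonneg_right g4 (by linarith)
    have a2 : (K * p - 2 * η) * (p - 2 * η) ≤ (K * p - 2 * η) * (ρ1 - ρ0) :=
      mul_le_mul_of_nonneg_left g5 g7.le
    linarith
  have hfin : (p / K + 2 * η) * (K * p + 2 * η) < (K * p - 2 * η) * (p - 2 * η) := by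
    have b1 : (p / K + 2 * η) * (K * p + 2 * η) =
        p ^ 2 + 2 * η * (p / K) + 2 * η * K * p + 4 * η ^ 2 := by field_simp; ring
    have b2 : (K * p - 2 * η) * (p - 2 * η) = K * p ^ 2 - 2 * η * K * p - 2 * η * p + 4 * η ^ 2 := by
      ring
    rw [b1, b2]
    have b3 : 2 * η * (p / K) ≤ 2 * η * (p / 2) := mul_le_mul_of_nonneg_left hpK (by positivity)
    have b4 : η * p = p ^ 2 / 1000 := by rw [hηdef]; ring
    have b5 : 2 * η * K * p = K * (p ^ 2 / 500) := by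
      have : 2 * η * K * p = 2 * K * (η * p) := by ring
      rw [this, b4]; ring
    have hpp : 0 < p ^ 2 := by positivity
    have b6 : 2 * p ^ 2 ≤ K * p ^ 2 := mul_le_mul_of_nonneg_right hKr hpp.le
    nlinarith
  intro heq
  linarith

/-- The affine planes of the mean-field pressure. -/
noncomputable def plane (p : ℝ) (K : ℕ) (i : Fin 3) (β h : ℝ) : ℝ :=
  ![0, p * (h + β / K), p * (K * (h + β) - (K - 1))] i

theorem near_opt {p : ℝ} {K : ℕ} {η : ℝ} {P : ℝ → ℝ → ℝ} (hp : 0 < p) (hK : 2 ≤ K) (hη : 0 < η)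
    (hclose : ∀ β h, 7 / 8 ≤ β → β ≤ 9 / 8 → -2 ≤ h → h ≤ 2 → |P β h - MF1 p K β h| ≤ η)
    (i : Fin 3) {β h : ℝ} (hβ1 : 7 / 8 ≤ β) (hβ2 : β ≤ 9 / 8) (hh1 : -2 ≤ h) (hh2 : h ≤ 2)
    (hi : In P (cE p K) (cD p K) η i β h) : MF1 p K β h ≤ plane p K i β h + 7 * η := by
  have hKr : (2 : ℝ) ≤ K := by exact_mod_cast hK
  have hK0 : (0 : ℝ) < K := by linarith
  obtain ⟨e, ρ, he, hρ, hs⟩ := hi
  have hc := hclose β h hβ1 hβ2 hh1 hh2
  -- reference point
  obtain ⟨βr, hr, hr1, hr2, hr3, hr4, hMF⟩ : ∃ βr hr : ℝ, 7 / 8 ≤ βr ∧ βr ≤ 9 / 8 ∧ -2 ≤ hr ∧ hr ≤ 2 ∧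
      MF1 p K βr hr ≤ plane p K i βr hr := by
    have hKi : 1 / (K : ℝ) ≤ 1 / 2 := one_div_le_one_div_of_le (by norm_num) hKr
    have hKi0 : 0 < 1 / (K : ℝ) := by positivity
    fin_cases i
    · refine ⟨1, -2, by norm_num, by norm_num, by norm_num, by norm_num, ?_⟩
      simp only [MF1, plane, Fin.zero_eta, Matrix.cons_val_zero]
      refine max_le le_rfl (max_le ?_ ?_)
      · have : -2 + 1 / (K : ℝ) ≤ 0 := by linarith
        exact mul_nonpos_of_nonneg_of_nonpos hp.le this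
      · have : (K : ℝ) * (-2 + 1) - (K - 1) ≤ 0 := by linarith
        exact mul_nonpos_of_nonneg_of_nonpos hp.le this
    · refine ⟨7 / 8, -(7 / 8) / K, by norm_num, by norm_num, ?_, ?_, ?_⟩
      · rw [le_div_iff₀ hK0]; nlinarith
      · rw [div_le_iff₀ hK0]; nlinarith
      · simp only [MF1, plane, Fin.mk_one, Matrix.cons_val_one, Matrix.cons_val_zero]
        have h1 : -(7 / 8 : ℝ) / K + 7 / 8 / K = 0 := by ring
        rw [h1, mul_zero]
        refine max_le le_rfl (max_le le_rfl ?_)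
        have h2 : (K : ℝ) * (-(7 / 8) / K + 7 / 8) - (K - 1) ≤ 0 := by
          have : (K : ℝ) * (-(7 / 8) / K + 7 / 8) = -(7 / 8) + 7 / 8 * K := by field_simp
          rw [this]; linarith
        exact mul_nonpos_of_nonneg_of_nonpos hp.le h2
    · refine ⟨1, 2, by norm_num, by norm_num, by norm_num, by norm_num, ?_⟩
      simp only [MF1, plane, Fin.reduceFinMk, Matrix.cons_val]
      have h2 : 0 ≤ (K : ℝ) * (2 + 1) - (K - 1) := by linarith
      refine max_le (mul_nonneg hp.le h2) (max_le ?_ le_rfl)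
      apply mul_le_mul_of_nonneg_left _ hp.le
      linarith
  have hc' := hclose βr hr hr1 hr2 hr3 hr4
  have h1 := hs βr hr (by linarith)
  have hpl : plane p K i βr hr = plane p K i β h - cE p K i * (βr - β) + cD p K i * (hr - h) := by
    fin_cases i
    · simp [plane, cE, cD]
    · simp only [plane, cE, cD, Fin.mk_one, Matrix.cons_val_one, Matrix.cons_val_zero]; ring
    · simp only [plane, cE, cD, Fin.reduceFinMk, Matrix.cons_val]; ring
  have hb1 : |βr - β| ≤ 1 / 4 := by rw [abs_le]; constructor <;> linarith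
  have hb2 : |hr - h| ≤ 4 := by rw [abs_le]; constructor <;> linarith
  have h2 : (e - cE p K i) * (βr - β) ≤ η * (1 / 4) := by
    calc _ ≤ |(e - cE p K i) * (βr - β)| := le_abs_self _
      _ = |e - cE p K i| * |βr - β| := abs_mul _ _
      _ ≤ η * (1 / 4) := mul_le_mul he hb1 (abs_nonneg _) hη.le
  have h3 : -((ρ - cD p K i) * (hr - h)) ≤ η * 4 := by
    calc _ ≤ |(ρ - cD p K i) * (hr - h)| := neg_le_abs _
      _ = |ρ - cD p K i| * |hr - h| := abs_mul _ _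
      _ ≤ η * 4 := mul_le_mul hρ hb2 (abs_nonneg _) hη.le
  have h4 := (abs_le.mp hc).1
  have h5 := (abs_le.mp hc').2
  have h6 : (e - cE p K i) * (βr - β) = e * (βr - β) - cE p K i * (βr - β) := by ring
  have h7 : (ρ - cD p K i) * (hr - h) = ρ * (hr - h) - cD p K i * (hr - h) := by ring
  linarith

end Crest.Agent.R149.AbsTriple

namespace Crest.Agent.R149

open AbsTriple

theorem absTriple : AbsTripleStmt := by
  intro p K hp hK
  have hKr : (2 : ℝ) ≤ K := by exact_mod_cast hK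
  have hK0 : (0 : ℝ) < K := by linarith
  refine ⟨p / 1000, by positivity, fun P hmono hsub hclose => ?_⟩
  set η : ℝ := p / 1000 with hηdef
  have hη : 0 < η := by positivity
  set E := cE p K with hE
  set D := cD p K with hD
  have hD0 : D 0 = 0 := rfl
  have hD1 : D 1 = p := rfl
  have hD2 : D 2 = K * p := rfl
  have hE0 : E 0 = 0 := rfl
  have hE1 : E 1 = -p / K := rfl
  have hE2 : E 2 = -p * K := rfl
  have hKp : 2 * p ≤ K * p := mul_le_mul_of_nonneg_right hKr hp.le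
  have hcont : ContinuousOn (fun x : ℝ × ℝ => P x.1 x.2) W := by
    apply lipW (E := E) (D := D) (η := η) (Cb := |E 0| + |E 1| + |E 2| + |D 0| + |D 1| + |D 2| + η) _ hsub
    intro i
    have := abs_nonneg (E 0); have := abs_nonneg (E 1); have := abs_nonneg (E 2)
    have := abs_nonneg (D 0); have := abs_nonneg (D 1); have := abs_nonneg (D 2)
    fin_cases i <;> constructor <;> simp only [Fin.zero_eta, Fin.mk_one, Fin.reduceFinMk] <;> linarith
  have hcW : ∀ i, IsCompact (Wi P E D η i) := fun i => isCompact_Wi hcont i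
  -- ordering of the phases
  have hord : ∀ {i j : Fin 3} {β h h' : ℝ}, 7 / 8 ≤ β → In P E D η i β h → In P E D η j β h' →
      h < h' → D i - η ≤ D j + η := fun hβ hi hj hh => In_mono (by linarith) hi hj hh
  have hopt : ∀ (i : Fin 3) {β h : ℝ}, 7 / 8 ≤ β → β ≤ 9 / 8 → -2 ≤ h → h ≤ 2 →
      In P E D η i β h → MF1 p K β h ≤ plane p K i β h + 7 * η :=
    fun i β h a b c d hi => near_opt hp hK hη hclose i a b c d hi
  -- at h = -2 phase 0, at h = 2 phase 2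
  have hm2 : ∀ β, 7 / 8 ≤ β → β ≤ 9 / 8 → In P E D η 0 β (-2) := by
    intro β hβ1 hβ2
    obtain ⟨i, hi⟩ := hsub β (-2) hβ1 hβ2 (by norm_num)
    have h1 := hopt i hβ1 hβ2 le_rfl (by norm_num) hi
    have h0 : 0 ≤ MF1 p K β (-2) := le_max_left _ _
    have hβK : β / K ≤ 9 / 16 := by rw [div_le_iff₀ hK0]; nlinarith
    fin_cases i
    · exact hi
    · exfalso
      simp only [plane, Fin.mk_one, Matrix.cons_val_one, Matrix.cons_val_zero] at h1
      nlinarith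
    · exfalso
      simp only [plane, Fin.reduceFinMk, Matrix.cons_val] at h1
      have h2 : (K : ℝ) * (-2 + β) - (K - 1) ≤ -1 := by nlinarith
      nlinarith
  have hp2 : ∀ β, 7 / 8 ≤ β → β ≤ 9 / 8 → In P E D η 2 β 2 := by
    intro β hβ1 hβ2
    obtain ⟨i, hi⟩ := hsub β 2 hβ1 hβ2 le_rfl
    have h1 := hopt i hβ1 hβ2 (by norm_num) le_rfl hi
    have h0 : p * (K * (2 + β) - (K - 1)) ≤ MF1 p K β 2 := (le_max_right _ _).trans (le_max_right _ _)
    have hβK : β / K ≤ 9 / 16 := by rw [div_le_iff₀ hK0]; nlinarith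
    fin_cases i
    · exfalso
      simp only [plane, Fin.zero_eta, Matrix.cons_val_zero] at h1
      have h2 : 1 ≤ (K : ℝ) * (2 + β) - (K - 1) := by nlinarith
      nlinarith
    · exfalso
      simp only [plane, Fin.mk_one, Matrix.cons_val_one, Matrix.cons_val_zero] at h1
      have h2 : 2 + β / K + 1 ≤ (K : ℝ) * (2 + β) - (K - 1) := by nlinarith
      nlinarith
    · exact hi
  -- Claim A
  have hA : ∀ β, 7 / 8 ≤ β → β ≤ 9 / 8 →
      ∃ h, (β, h) ∈ Wi P E D η 0 ∧ ((β, h) ∈ Wi P E D η 1 ∨ (β, h) ∈ Wi P E D η 2) := by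
    intro β hβ1 hβ2
    have hconn : IsPreconnected (Icc (-2 : ℝ) 2) := isPreconnected_Icc
    rw [isPreconnected_closed_iff] at hconn
    have hcl : ∀ i, IsClosed {h : ℝ | (β, h) ∈ Wi P E D η i} := fun i =>
      (hcW i).isClosed.preimage (Continuous.prodMk_right β)
    have hin : ∀ (i : Fin 3) (h : ℝ), -2 ≤ h → h ≤ 2 → In P E D η i β h → (β, h) ∈ Wi P E D η i :=
      fun i h a b hi => ⟨⟨⟨hβ1, hβ2⟩, ⟨a, b⟩⟩, hi⟩
    obtain ⟨h, -, hh0, hh1⟩ := hconn {h : ℝ | (β, h) ∈ Wi P E D η 0}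
      ({h : ℝ | (β, h) ∈ Wi P E D η 1} ∪ {h : ℝ | (β, h) ∈ Wi P E D η 2}) (hcl 0)
      ((hcl 1).union (hcl 2)) (by
        intro h hh
        obtain ⟨i, hi⟩ := hsub β h hβ1 hβ2 hh.2
        have := hin i h hh.1 hh.2 hi
        fin_cases i
        · exact Or.inl this
        · exact Or.inr (Or.inl this)
        · exact Or.inr (Or.inr this))
      ⟨-2, ⟨by norm_num, by norm_num⟩, hin 0 _ le_rfl (by norm_num) (hm2 β hβ1 hβ2)⟩
      ⟨2, ⟨by norm_num, by norm_num⟩, Or.inr (hin 2 _ (by norm_num) le_rfl (hp2 β hβ1 hβ2))⟩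
    exact ⟨h, hh0, hh1⟩
  -- the two closed sets
  set T : Fin 3 → Set ℝ := fun j => Prod.fst '' (Wi P E D η 0 ∩ Wi P E D η j) with hT
  have hTcl : ∀ j, IsClosed (T j) := fun j =>
    (((hcW 0).inter_right (hcW j).isClosed).image continuous_fst).isClosed
  have hcover : Icc (15 / 16 : ℝ) (17 / 16) ⊆ T 1 ∪ T 2 := by
    intro β hβ
    obtain ⟨h, h0, h1⟩ := hA β (by linarith [hβ.1]) (by linarith [hβ.2])
    rcases h1 with h1 | h1
    · exact Or.inl ⟨(β, h), ⟨h0, h1⟩, rfl⟩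
    · exact Or.inr ⟨(β, h), ⟨h0, h1⟩, rfl⟩
  have hKK : (K : ℝ) + 1 ≤ 3 * (K - 1) := by linarith
  have hn2 : (15 / 16 : ℝ) ∉ T 2 := by
    rintro ⟨⟨β, h⟩, ⟨⟨⟨hb, hh⟩, h0⟩, ⟨-, h2⟩⟩, hβ⟩
    simp only at hβ
    subst hβ
    have e0 := hopt 0 hb.1 hb.2 hh.1 hh.2 h0
    have e2 := hopt 2 hb.1 hb.2 hh.1 hh.2 h2
    have e3 : p * (h + (15 / 16) / K) ≤ MF1 p K (15 / 16) h :=
      (le_max_left _ _).trans (le_max_right _ _)
    have e4 : 0 ≤ MF1 p K (15 / 16) h := le_max_left _ _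
    simp only [plane, Matrix.cons_val_zero] at e0
    simp only [plane, Matrix.cons_val] at e2
    have e5 : p * (h * K + 15 / 16) ≤ 7 * η * K := by
      have : p * (h + (15 / 16) / K) * K ≤ 7 * η * K :=
        mul_le_mul_of_nonneg_right (by linarith) hK0.le
      have e6 : p * (h + (15 / 16) / K) * K = p * (h * K + 15 / 16) := by field_simp
      linarith
    have e6 : -(7 * η) ≤ p * (K * (h + 15 / 16) - (K - 1)) := by linarith
    have e7 : p * ((K : ℝ) - 1) / 16 ≤ 7 * η * (K + 1) := by nlinarith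
    have e8 : 7 * η * (K + 1) ≤ 21 * η * (K - 1) := by nlinarith
    have e9 : 0 < (K : ℝ) - 1 := by linarith
    have e10 : 21 * η * (K - 1) < p * ((K : ℝ) - 1) / 16 := by
      rw [hηdef]; nlinarith [mul_pos hp e9]
    linarith
  have hn1 : (17 / 16 : ℝ) ∉ T 1 := by
    rintro ⟨⟨β, h⟩, ⟨⟨⟨hb, hh⟩, h0⟩, ⟨-, h2⟩⟩, hβ⟩
    simp only at hβ
    subst hβ
    have e0 := hopt 0 hb.1 hb.2 hh.1 hh.2 h0
    have e2 := hopt 1 hb.1 hb.2 hh.1 hh.2 h2
    have e3 : p * (K * (h + 17 / 16) - (K - 1)) ≤ MF1 p K (17 / 16) h :=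
      (le_max_right _ _).trans (le_max_right _ _)
    have e4 : 0 ≤ MF1 p K (17 / 16) h := le_max_left _ _
    simp only [plane, Matrix.cons_val_zero] at e0
    simp only [plane, Matrix.cons_val_one, Matrix.cons_val_zero] at e2
    have e5 : -(7 * η * K) ≤ p * (h * K + 17 / 16) := by
      have : -(7 * η) * K ≤ p * (h + (17 / 16) / K) * K :=
        mul_le_mul_of_nonneg_right (by linarith) hK0.le
      have e6 : p * (h + (17 / 16) / K) * K = p * (h * K + 17 / 16) := by field_simp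
      linarith
    have e6 : p * (K * (h + 17 / 16) - (K - 1)) ≤ 7 * η := by linarith
    have e7 : p * ((K : ℝ) - 1) / 16 ≤ 7 * η * (K + 1) := by nlinarith
    have e8 : 7 * η * (K + 1) ≤ 21 * η * (K - 1) := by nlinarith
    have e9 : 0 < (K : ℝ) - 1 := by linarith
    have e10 : 21 * η * (K - 1) < p * ((K : ℝ) - 1) / 16 := by
      rw [hηdef]; nlinarith [mul_pos hp e9]
    linarith
  have hconn : IsPreconnected (Icc (15 / 16 : ℝ) (17 / 16)) := isPreconnected_Icc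
  rw [isPreconnected_closed_iff] at hconn
  obtain ⟨βc, hβc, ht1, ht2⟩ := hconn (T 1) (T 2) (hTcl 1) (hTcl 2) hcover
    (by
      have h1 : (15 / 16 : ℝ) ∈ Icc (15 / 16 : ℝ) (17 / 16) := ⟨le_rfl, by norm_num⟩
      rcases hcover h1 with h2 | h2
      · exact ⟨_, h1, h2⟩
      · exact absurd h2 hn2)
    (by
      have h1 : (17 / 16 : ℝ) ∈ Icc (15 / 16 : ℝ) (17 / 16) := ⟨by norm_num, le_rfl⟩
      rcases hcover h1 with h2 | h2
      · exact absurd h2 hn1
      · exact ⟨_, h1, h2⟩)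
  obtain ⟨⟨β1, h1⟩, ⟨⟨⟨hb1, hh1⟩, i10⟩, ⟨-, i11⟩⟩, hβ1⟩ := ht1
  obtain ⟨⟨β2, h2⟩, ⟨⟨⟨hb2, hh2⟩, i20⟩, ⟨-, i22⟩⟩, hβ2⟩ := ht2
  simp only at hβ1 hβ2 i10 i11 i20 i22
  rw [hβ1] at i10 i11
  rw [hβ2] at i20 i22
  have hβc78 : 7 / 8 ≤ βc := by linarith [hβc.1]
  have hβpos : 0 < βc := by linarith
  -- same h
  have hheq : h1 = h2 := by
    rcases lt_trichotomy h1 h2 with hlt | heq | hgt
    · have := hord hβc78 i11 i20 hlt
      rw [hD1, hD0] at this
      linarith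
    · exact heq
    · have := hord hβc78 i22 i10 hgt
      rw [hD2, hD0] at this
      linarith
  subst hheq
  obtain ⟨e0, ρ0, he0, hρ0, hs0⟩ := i10
  obtain ⟨e1, ρ1, he1, hρ1, hs1⟩ := i11
  obtain ⟨e2, ρ2, he2, hρ2, hs2⟩ := i22
  rw [hD0] at hρ0
  rw [hE0] at he0
  rw [hD1] at hρ1
  rw [hE1] at he1
  rw [hD2] at hρ2
  rw [hE2] at he2
  rw [abs_le] at he0 hρ0 he1 hρ1 he2 hρ2
  have hρ0nn : 0 ≤ ρ0 := by
    have h3 := hs0 βc (h1 - 1) hβpos
    have h4 := hmono βc (h1 - 1) h1 hβpos (by linarith)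
    linarith
  refine ⟨βc, h1, ![e0, e1, e2], ![ρ0, ρ1, ρ2], by linarith [hβc.1], by linarith [hβc.2], ?_, ?_, ?_, ?_⟩
  · refine { sub := ?_, lt01 := ?_, lt12 := ?_, indep := ?_ }
    · intro i β h hβ
      fin_cases i
      · simpa using hs0 β h hβ
      · simpa using hs1 β h hβ
      · simpa using hs2 β h hβ
    · simp only [Matrix.cons_val_zero, Matrix.cons_val_one]; linarith
    · simp only [Matrix.cons_val_one, Matrix.cons_val_zero, Matrix.cons_val]; linarith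
    · simp only [Matrix.cons_val_zero, Matrix.cons_val_one, Matrix.cons_val]
      exact indep_aux hp hKr hηdef he0.1 he0.2 he1.1 he1.2 he2.1 he2.2 hρ0.1 hρ0.2 hρ1.1 hρ1.2
        hρ2.1 hρ2.2
  · simpa using hρ0nn
  · simp only [Matrix.cons_val_zero]; linarith
  · simp only [Matrix.cons_val]; linarith

end Crest.Agent.R149
end

-- ▼ part R149/TLAbs
section

/-!
R149, pure real-analysis side of the thermodynamic limit.
`z L n` stands for `log Z(L, n)`.  From block superadditivity we get existence of the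
limit `sigma z ρ = lim z L ⌊ρ L^3⌋ / L^3`, its concavity, and the finite-volume lower bound.
-/

set_option autoImplicit false

namespace Crest.Agent.R149.TLAbs

open Filter Topology

/-- Block superadditivity, normalisation and the a priori upper bound. -/
structure BlockSuper (R0 C : ℝ) (z : ℝ → ℕ → ℝ) : Prop where
  R0_pos : 0 < R0
  super : ∀ (b L : ℝ) (k : ℕ), 0 < b → (k : ℝ) * (b + R0) ≤ L + R0 →
    ∀ n : Fin (k ^ 3) → ℕ, ∑ c, z b (n c) ≤ z L (∑ c, n c)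
  zero : ∀ L : ℝ, 0 < L → z L 0 = 0
  upper : ∀ (L : ℝ) (n : ℕ), 0 < L → 0 < n → z L n ≤ C * n + n * Real.log (L ^ 3 / n)

/-- the two-density combination -/
noncomputable def combo (R0 : ℝ) (z : ℝ → ℕ → ℝ) (ρ b : ℝ) (n1 n2 : ℕ) : ℝ :=
  ((n2 - ρ * (b + R0) ^ 3) * z b n1 + (ρ * (b + R0) ^ 3 - n1) * z b n2) /
    ((b + R0) ^ 3 * (n2 - n1))

/-- number of blocks per side -/
noncomputable def kk (R0 b L : ℝ) : ℕ := ⌊(L + R0) / (b + R0)⌋₊

lemma kk_le {R0 b L : ℝ} (hbR : 0 < b + R0) (hL : 0 ≤ L + R0) :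
    (kk R0 b L : ℝ) * (b + R0) ≤ L + R0 := by
  have := Nat.floor_le (div_nonneg hL hbR.le)
  calc (kk R0 b L : ℝ) * (b + R0) ≤ (L + R0) / (b + R0) * (b + R0) :=
        mul_le_mul_of_nonneg_right this hbR.le
    _ = L + R0 := by field_simp

lemma kk_div_tendsto {R0 b : ℝ} (hbR : 0 < b + R0) :
    Tendsto (fun L : ℝ => (kk R0 b L : ℝ) / L) atTop (𝓝 (1 / (b + R0))) := by
  have h1 : Tendsto (fun L : ℝ => (⌊(1 / (b + R0)) * (L + R0)⌋₊ : ℝ) / (L + R0)) atTop
      (𝓝 (1 / (b + R0))) :=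
    (tendsto_nat_floor_mul_div_atTop (one_div_pos.mpr hbR).le).comp
      (tendsto_atTop_add_const_right _ R0 tendsto_id)
  have h2 : Tendsto (fun L : ℝ => (L + R0) / L) atTop (𝓝 1) := by
    have h3 : Tendsto (fun L : ℝ => 1 + R0 * L⁻¹) atTop (𝓝 (1 + R0 * 0)) :=
      tendsto_const_nhds.add (tendsto_inv_atTop_zero.const_mul R0)
    rw [mul_zero, add_zero] at h3
    refine h3.congr' ?_
    filter_upwards [eventually_gt_atTop 0] with L hL
    field_simp
  have h4 := h1.mul h2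
  rw [mul_one] at h4
  refine h4.congr' ?_
  filter_upwards [eventually_gt_atTop 0, eventually_gt_atTop (-R0)] with L hL hL'
  have h5 : L + R0 ≠ 0 := by linarith
  unfold kk
  rw [show (L + R0) / (b + R0) = (1 / (b + R0)) * (L + R0) by ring]
  field_simp

lemma kk3_div_tendsto {R0 b : ℝ} (hbR : 0 < b + R0) :
    Tendsto (fun L : ℝ => ((kk R0 b L ^ 3 - 1 : ℕ) : ℝ) / L ^ 3) atTop
      (𝓝 (1 / (b + R0) ^ 3)) := by
  have h1 := (kk_div_tendsto hbR).pow 3
  have h2 : Tendsto (fun L : ℝ => 1 / L ^ 3) atTop (𝓝 0) := by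
    have := tendsto_pow_neg_atTop (𝕜 := ℝ) (n := 3) (by norm_num)
    refine this.congr' ?_
    filter_upwards [eventually_gt_atTop 0] with L hL
    rw [zpow_neg, one_div]
    norm_cast
  have h3 := h1.sub h2
  have hk : ∀ᶠ L : ℝ in atTop, 1 ≤ kk R0 b L := by
    filter_upwards [eventually_ge_atTop b] with L hL
    unfold kk
    rw [Nat.one_le_floor_iff]
    rw [le_div_iff₀ hbR]
    linarith
  refine (h3.congr' ?_).trans (by simp)
  filter_upwards [hk, eventually_gt_atTop 0] with L hL hL0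
  have : 1 ≤ kk R0 b L ^ 3 := Nat.one_le_pow _ _ hL
  rw [Nat.cast_sub this]
  push_cast
  field_simp

lemma inv_cube_tendsto : Tendsto (fun L : ℝ => 1 / L ^ 3) atTop (𝓝 0) := by
  have := tendsto_pow_neg_atTop (𝕜 := ℝ) (n := 3) (by norm_num)
  refine this.congr' ?_
  filter_upwards [eventually_gt_atTop 0] with L hL
  rw [zpow_neg, one_div]
  norm_cast

lemma tendsto_cube_atTop : Tendsto (fun L : ℝ => L ^ 3) atTop atTop :=
  tendsto_pow_atTop (by norm_num)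

lemma floor_cube_tendsto {ρ : ℝ} (hρ : 0 ≤ ρ) :
    Tendsto (fun L : ℝ => (⌊ρ * L ^ 3⌋₊ : ℝ) / L ^ 3) atTop (𝓝 ρ) :=
  (tendsto_nat_floor_mul_div_atTop hρ).comp tendsto_cube_atTop

lemma sum_ite_range {α : Type*} [AddCommMonoid α] (m M : ℕ) (h : m ≤ M) (a b : α) :
    ∑ i ∈ Finset.range M, (if i < m then a else b) = m • a + (M - m) • b := by
  obtain ⟨t, rfl⟩ := Nat.exists_eq_add_of_le h
  rw [Finset.sum_range_add]
  congr 1
  · rw [Finset.sum_congr rfl (g := fun _ => a)]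
    · simp
    · intro i hi
      simp [Finset.mem_range.mp hi]
  · rw [Finset.sum_congr rfl (g := fun _ => b)]
    · simp
    · intro i _
      simp

lemma sum_blocks {α : Type*} [AddCommMonoid α] (g : ℕ → α) (m M n1 n2 r : ℕ) (h : m ≤ M) :
    ∑ c : Fin (M + 1), g (if (c : ℕ) < m then n2 else if (c : ℕ) < M then n1 else r)
      = m • g n2 + (M - m) • g n1 + g r := by
  rw [Fin.sum_univ_eq_sum_range
    (fun i => g (if i < m then n2 else if i < M then n1 else r)) (M + 1),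
    Finset.sum_range_succ]
  congr 1
  · rw [← sum_ite_range m M h]
    refine Finset.sum_congr rfl fun i hi => ?_
    rw [Finset.mem_range] at hi
    by_cases h' : i < m <;> simp [h', hi]
  · have : ¬ (M < m) := by omega
    simp [this]

theorem lower_combo {R0 C : ℝ} {z : ℝ → ℕ → ℝ} (h : BlockSuper R0 C z) {b ρ : ℝ} (hb : 0 < b)
    {n1 n2 : ℕ} (h1 : (n1 : ℝ) < ρ * (b + R0) ^ 3) (h2 : ρ * (b + R0) ^ 3 < n2)
    {ε : ℝ} (hε : 0 < ε) :
    ∀ᶠ L in atTop, combo R0 z ρ b n1 n2 - ε ≤ z L ⌊ρ * L ^ 3⌋₊ / L ^ 3 := by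
  have hR := h.R0_pos
  have hbR : 0 < b + R0 := by linarith
  have hv : 0 < (b + R0) ^ 3 := by positivity
  have hn12 : (n1 : ℝ) < n2 := h1.trans h2
  have hn12' : n1 < n2 := by exact_mod_cast hn12
  have hρ : 0 ≤ ρ := by
    have : 0 < ρ * (b + R0) ^ 3 := lt_of_le_of_lt (Nat.cast_nonneg _) h1
    exact (pos_of_mul_pos_left this hv.le).le
  set q : ℕ := n2 - n1 with hq
  have hqpos : 0 < q := by omega
  have hqR : (q : ℝ) = n2 - n1 := by rw [hq, Nat.cast_sub hn12'.le]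
  have hqR0 : (0 : ℝ) < q := by exact_mod_cast hqpos
  -- main sequences
  let M : ℝ → ℕ := fun L => kk R0 b L ^ 3 - 1
  let N : ℝ → ℕ := fun L => ⌊ρ * L ^ 3⌋₊
  let D : ℝ → ℕ := fun L => N L - M L * n1
  have hM : Tendsto (fun L => (M L : ℝ) / L ^ 3) atTop (𝓝 (1 / (b + R0) ^ 3)) :=
    kk3_div_tendsto hbR
  have hN : Tendsto (fun L => (N L : ℝ) / L ^ 3) atTop (𝓝 ρ) := floor_cube_tendsto hρ
  have hk : ∀ᶠ L : ℝ in atTop, 1 ≤ kk R0 b L := by
    filter_upwards [eventually_ge_atTop b] with L hL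
    unfold kk
    rw [Nat.one_le_floor_iff, le_div_iff₀ hbR]
    linarith
  -- D is well defined eventually
  have hDlow : ∀ᶠ L : ℝ in atTop, M L * n1 ≤ N L := by
    have t1 : Tendsto (fun L => (N L : ℝ) / L ^ 3 - (M L : ℝ) / L ^ 3 * n1) atTop
        (𝓝 (ρ - 1 / (b + R0) ^ 3 * n1)) := hN.sub (hM.mul_const _)
    have t2 : 0 < ρ - 1 / (b + R0) ^ 3 * n1 := by
      have : n1 / (b + R0) ^ 3 < ρ := by rwa [div_lt_iff₀ hv]
      have e : 1 / (b + R0) ^ 3 * n1 = n1 / (b + R0) ^ 3 := by ring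
      rw [e]; linarith
    filter_upwards [t1.eventually (lt_mem_nhds t2), eventually_gt_atTop 0] with L hL hL0
    have hL3 : 0 < L ^ 3 := by positivity
    have : 0 < ((N L : ℝ) - M L * n1) / L ^ 3 := by
      have e : ((N L : ℝ) - M L * n1) / L ^ 3 = (N L : ℝ) / L ^ 3 - (M L : ℝ) / L ^ 3 * n1 := by
        ring
      rw [e]; exact hL
    have := (div_pos_iff_of_pos_right hL3).mp this
    have : (M L : ℝ) * n1 ≤ N L := by linarith
    exact_mod_cast this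
  have hDup : ∀ᶠ L : ℝ in atTop, N L ≤ M L * n2 := by
    have t1 : Tendsto (fun L => (M L : ℝ) / L ^ 3 * n2 - (N L : ℝ) / L ^ 3) atTop
        (𝓝 (1 / (b + R0) ^ 3 * n2 - ρ)) := (hM.mul_const _).sub hN
    have t2 : 0 < 1 / (b + R0) ^ 3 * n2 - ρ := by
      have : ρ < n2 / (b + R0) ^ 3 := by rwa [lt_div_iff₀ hv]
      have e : 1 / (b + R0) ^ 3 * n2 = n2 / (b + R0) ^ 3 := by ring
      rw [e]; linarith
    filter_upwards [t1.eventually (lt_mem_nhds t2), eventually_gt_atTop 0] with L hL hL0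
    have hL3 : 0 < L ^ 3 := by positivity
    have : 0 < ((M L : ℝ) * n2 - N L) / L ^ 3 := by
      have e : ((M L : ℝ) * n2 - N L) / L ^ 3 = (M L : ℝ) / L ^ 3 * n2 - (N L : ℝ) / L ^ 3 := by
        ring
      rw [e]; exact hL
    have := (div_pos_iff_of_pos_right hL3).mp this
    have : (N L : ℝ) ≤ (M L : ℝ) * n2 := by linarith
    exact_mod_cast this
  let K : ℝ := ∑ r ∈ Finset.range q, |z b r|
  -- finite volume inequality
  have hfin : ∀ᶠ L : ℝ in atTop,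
      ((D L / q : ℕ) : ℝ) * z b n2 + ((M L : ℝ) - ((D L / q : ℕ) : ℝ)) * z b n1 - K
        ≤ z L (N L) := by
    filter_upwards [hk, hDlow, hDup, eventually_gt_atTop 0] with L hkL hlow hup hL0
    have hm : D L / q ≤ M L := by
      apply Nat.div_le_of_le_mul
      show N L - M L * n1 ≤ q * M L
      have : M L * n2 = M L * n1 + q * M L := by
        have : n2 = n1 + q := by omega
        rw [this]; ring
      omega
    have hM1 : M L + 1 = kk R0 b L ^ 3 := by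
      have : 1 ≤ kk R0 b L ^ 3 := Nat.one_le_pow _ _ hkL
      show kk R0 b L ^ 3 - 1 + 1 = _
      omega
    have key := h.super b L (kk R0 b L) hb (kk_le hbR (by linarith))
    rw [← hM1] at key
    have key2 := key (fun c => if (c : ℕ) < D L / q then n2 else if (c : ℕ) < M L then n1
      else D L % q)
    have e1 := sum_blocks (fun n => n) (D L / q) (M L) n1 n2 (D L % q) hm
    have e2 := sum_blocks (fun n => z b n) (D L / q) (M L) n1 n2 (D L % q) hm
    simp only [smul_eq_mul, nsmul_eq_mul] at e1 e2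
    rw [e1, e2] at key2
    have e3 : D L / q * n2 + (M L - D L / q) * n1 + D L % q = N L := by
      have a1 : n2 = n1 + q := by omega
      have a2 : D L / q * q + D L % q = D L := Nat.div_add_mod' _ _
      have a3 : D L = N L - M L * n1 := rfl
      have a4 : D L / q * n1 + (M L - D L / q) * n1 = M L * n1 := by
        rw [← Nat.add_mul]
        congr 1
        omega
      rw [a1, Nat.mul_add]
      generalize D L / q * q = X at *
      generalize D L % q = Y at *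
      generalize D L / q * n1 = W at *
      generalize (M L - D L / q) * n1 = V at *
      omega
    rw [e3] at key2
    rw [Nat.cast_sub hm] at key2
    have e4 : -K ≤ z b (D L % q) := by
      have : |z b (D L % q)| ≤ K :=
        Finset.single_le_sum (f := fun r => |z b r|) (fun i _ => abs_nonneg _)
          (Finset.mem_range.mpr (Nat.mod_lt _ hqpos))
      have := neg_abs_le (z b (D L % q))
      linarith
    linarith
  -- limit of the lower bound
  have hD : Tendsto (fun L => ((D L / q : ℕ) : ℝ) / L ^ 3) atTop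
      (𝓝 ((ρ - 1 / (b + R0) ^ 3 * n1) / q)) := by
    have t1 : Tendsto (fun L => ((N L : ℝ) / L ^ 3 - (M L : ℝ) / L ^ 3 * n1) / q) atTop
        (𝓝 ((ρ - 1 / (b + R0) ^ 3 * n1) / q)) := (hN.sub (hM.mul_const _)).div_const _
    have t2 : Tendsto (fun L => ((N L : ℝ) / L ^ 3 - (M L : ℝ) / L ^ 3 * n1) / q - 1 / L ^ 3)
        atTop (𝓝 ((ρ - 1 / (b + R0) ^ 3 * n1) / q)) := by
      have := t1.sub inv_cube_tendsto
      rwa [sub_zero] at this
    refine tendsto_of_tendsto_of_tendsto_of_le_of_le' t2 t1 ?_ ?_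
    · filter_upwards [hDlow, eventually_gt_atTop 0] with L hlow hL0
      have hL3 : 0 < L ^ 3 := by positivity
      have hDR : (D L : ℝ) = (N L : ℝ) - M L * n1 := by
        show ((N L - M L * n1 : ℕ) : ℝ) = _
        rw [Nat.cast_sub hlow]; push_cast; ring
      have : (D L : ℝ) / q - 1 ≤ ((D L / q : ℕ) : ℝ) := by
        have hlt := Nat.lt_div_mul_add (a := D L) hqpos
        have hlt' : (D L : ℝ) < ((D L / q : ℕ) : ℝ) * q + q := by exact_mod_cast hlt
        rw [sub_le_iff_le_add, div_le_iff₀ hqR0]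
        linarith
      have e : ((N L : ℝ) / L ^ 3 - (M L : ℝ) / L ^ 3 * n1) / q - 1 / L ^ 3
          = ((D L : ℝ) / q - 1) / L ^ 3 := by
        rw [hDR]; field_simp
      rw [e]
      exact div_le_div_of_nonneg_right this hL3.le
    · filter_upwards [hDlow, eventually_gt_atTop 0] with L hlow hL0
      have hL3 : 0 < L ^ 3 := by positivity
      have hDR : (D L : ℝ) = (N L : ℝ) - M L * n1 := by
        show ((N L - M L * n1 : ℕ) : ℝ) = _
        rw [Nat.cast_sub hlow]; push_cast; ring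
      have : ((D L / q : ℕ) : ℝ) ≤ (D L : ℝ) / q := Nat.cast_div_le
      have e : ((N L : ℝ) / L ^ 3 - (M L : ℝ) / L ^ 3 * n1) / q
          = ((D L : ℝ) / q) / L ^ 3 := by
        rw [hDR]; field_simp
      rw [e]
      exact div_le_div_of_nonneg_right this hL3.le
  have hlim : Tendsto (fun L => ((D L / q : ℕ) : ℝ) / L ^ 3 * z b n2
      + ((M L : ℝ) / L ^ 3 - ((D L / q : ℕ) : ℝ) / L ^ 3) * z b n1 - K * (1 / L ^ 3)) atTop
      (𝓝 (combo R0 z ρ b n1 n2)) := by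
    have t := ((hD.mul_const (z b n2)).add ((hM.sub hD).mul_const (z b n1))).sub
      (inv_cube_tendsto.const_mul K)
    convert t using 2
    unfold combo
    rw [hqR]
    have : (n2 : ℝ) - n1 ≠ 0 := by linarith
    field_simp
    ring
  filter_upwards [hlim.eventually (lt_mem_nhds (show combo R0 z ρ b n1 n2 - ε < combo R0 z ρ b n1 n2
    by linarith)), hfin, eventually_gt_atTop 0] with L hL1 hL2 hL0
  have hL3 : 0 < L ^ 3 := by positivity
  refine hL1.le.trans ?_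
  rw [le_div_iff₀ hL3]
  refine le_trans (le_of_eq ?_) hL2
  field_simp

/-- finite-volume pressure at density `ρ` -/
noncomputable def g (z : ℝ → ℕ → ℝ) (ρ L : ℝ) : ℝ := z L ⌊ρ * L ^ 3⌋₊ / L ^ 3

/-- thermodynamic limit `lim L^{-3} z(L, ⌊ρ L^3⌋)` -/
noncomputable def sigma (z : ℝ → ℕ → ℝ) (ρ : ℝ) : ℝ := limUnder atTop (fun L : ℝ => g z ρ L)

lemma vol_ratio_tendsto (R0 : ℝ) :
    Tendsto (fun b : ℝ => (b + R0) ^ 3 / b ^ 3) atTop (𝓝 1) := by
  have h3 : Tendsto (fun L : ℝ => (1 + R0 * L⁻¹) ^ 3) atTop (𝓝 ((1 + R0 * 0) ^ 3)) :=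
    (tendsto_const_nhds.add (tendsto_inv_atTop_zero.const_mul R0)).pow 3
  rw [mul_zero, add_zero, one_pow] at h3
  refine h3.congr' ?_
  filter_upwards [eventually_gt_atTop 0] with L hL
  field_simp

lemma eventually_lt_vol {R0 ρ1 ρ : ℝ} (hR : 0 < R0) (h0 : 0 ≤ ρ1) (h1 : ρ1 ≤ ρ) (hρ : 0 < ρ) :
    ∀ᶠ b : ℝ in atTop, (⌊ρ1 * b ^ 3⌋₊ : ℝ) < ρ * (b + R0) ^ 3 := by
  filter_upwards [eventually_gt_atTop 0] with b hb
  have a1 : (⌊ρ1 * b ^ 3⌋₊ : ℝ) ≤ ρ1 * b ^ 3 := Nat.floor_le (by positivity)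
  have a2 : ρ1 * b ^ 3 ≤ ρ * b ^ 3 := mul_le_mul_of_nonneg_right h1 (by positivity)
  have a3 : b ^ 3 < (b + R0) ^ 3 := by gcongr; linarith
  have a4 : ρ * b ^ 3 < ρ * (b + R0) ^ 3 := by gcongr
  linarith

lemma eventually_vol_lt {R0 ρ2 ρ : ℝ} (h0 : 0 ≤ ρ2) (h1 : ρ < ρ2) :
    ∀ᶠ b : ℝ in atTop, ρ * (b + R0) ^ 3 < (⌊ρ2 * b ^ 3⌋₊ : ℝ) := by
  have t1 := ((vol_ratio_tendsto R0).const_mul ρ)
  have t2 := floor_cube_tendsto h0
  rw [mul_one] at t1
  filter_upwards [(t2.sub t1).eventually (lt_mem_nhds (show 0 < ρ2 - ρ by linarith)),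
    eventually_gt_atTop 0] with b hb hb0
  have hb3 : 0 < b ^ 3 := by positivity
  have e : (⌊ρ2 * b ^ 3⌋₊ : ℝ) / b ^ 3 - ρ * ((b + R0) ^ 3 / b ^ 3)
      = ((⌊ρ2 * b ^ 3⌋₊ : ℝ) - ρ * (b + R0) ^ 3) / b ^ 3 := by ring
  rw [e] at hb
  have := (div_pos_iff_of_pos_right hb3).mp hb
  linarith

/-- first coefficient -/
lemma coef1_tendsto {R0 ρ1 ρ ρ2 : ℝ} (h0 : 0 ≤ ρ1) (h12 : ρ1 < ρ2) :
    Tendsto (fun b : ℝ => ((⌊ρ2 * b ^ 3⌋₊ : ℝ) - ρ * (b + R0) ^ 3) * b ^ 3 /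
      ((b + R0) ^ 3 * ((⌊ρ2 * b ^ 3⌋₊ : ℝ) - ⌊ρ1 * b ^ 3⌋₊))) atTop
      (𝓝 ((ρ2 - ρ) / (ρ2 - ρ1))) := by
  have t1 := vol_ratio_tendsto R0
  have t2 := floor_cube_tendsto (h0.trans h12.le)
  have t3 := floor_cube_tendsto h0
  have t := (t2.sub (t1.const_mul ρ)).div (t1.mul (t2.sub t3)) (by
    rw [one_mul]; intro h; linarith)
  rw [mul_one, one_mul] at t
  refine t.congr' ?_
  filter_upwards [eventually_gt_atTop 0] with b hb
  have hb3 : b ^ 3 ≠ 0 := by positivity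
  simp only [Pi.div_apply]
  field_simp

lemma coef2_tendsto {R0 ρ1 ρ ρ2 : ℝ} (h0 : 0 ≤ ρ1) (h12 : ρ1 < ρ2) :
    Tendsto (fun b : ℝ => (ρ * (b + R0) ^ 3 - (⌊ρ1 * b ^ 3⌋₊ : ℝ)) * b ^ 3 /
      ((b + R0) ^ 3 * ((⌊ρ2 * b ^ 3⌋₊ : ℝ) - ⌊ρ1 * b ^ 3⌋₊))) atTop
      (𝓝 ((ρ - ρ1) / (ρ2 - ρ1))) := by
  have t1 := vol_ratio_tendsto R0
  have t2 := floor_cube_tendsto (h0.trans h12.le)
  have t3 := floor_cube_tendsto h0
  have t := ((t1.const_mul ρ).sub t3).div (t1.mul (t2.sub t3)) (by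
    rw [one_mul]; intro h; linarith)
  rw [mul_one, one_mul] at t
  refine t.congr' ?_
  filter_upwards [eventually_gt_atTop 0] with b hb
  have hb3 : b ^ 3 ≠ 0 := by positivity
  simp only [Pi.div_apply]
  field_simp

lemma combo_eq {R0 : ℝ} (z : ℝ → ℕ → ℝ) (ρ ρ1 ρ2 : ℝ) {b : ℝ} (hb : 0 < b) :
    combo R0 z ρ b ⌊ρ1 * b ^ 3⌋₊ ⌊ρ2 * b ^ 3⌋₊ =
      ((⌊ρ2 * b ^ 3⌋₊ : ℝ) - ρ * (b + R0) ^ 3) * b ^ 3 /
      ((b + R0) ^ 3 * ((⌊ρ2 * b ^ 3⌋₊ : ℝ) - ⌊ρ1 * b ^ 3⌋₊)) * g z ρ1 b +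
      (ρ * (b + R0) ^ 3 - (⌊ρ1 * b ^ 3⌋₊ : ℝ)) * b ^ 3 /
      ((b + R0) ^ 3 * ((⌊ρ2 * b ^ 3⌋₊ : ℝ) - ⌊ρ1 * b ^ 3⌋₊)) * g z ρ2 b := by
  unfold combo g
  have hb3 : b ^ 3 ≠ 0 := by positivity
  rw [add_div]
  congr 1
  · rw [div_mul_div_comm, mul_right_comm]
    rw [mul_div_mul_right _ _ hb3]
  · rw [div_mul_div_comm, mul_right_comm]
    rw [mul_div_mul_right _ _ hb3]

section main

variable {R0 C : ℝ} {z : ℝ → ℕ → ℝ}

lemma upper_tendsto {ρ : ℝ} (C : ℝ) (hρ : 0 < ρ) :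
    Tendsto (fun L : ℝ => C * ((⌊ρ * L ^ 3⌋₊ : ℝ) / L ^ 3) +
      ((⌊ρ * L ^ 3⌋₊ : ℝ) / L ^ 3) * Real.log (((⌊ρ * L ^ 3⌋₊ : ℝ) / L ^ 3)⁻¹)) atTop
      (𝓝 (C * ρ + ρ * Real.log ρ⁻¹)) := by
  have t := floor_cube_tendsto hρ.le
  exact (t.const_mul C).add (t.mul ((t.inv₀ hρ.ne').log (inv_ne_zero hρ.ne')))

lemma g_le (h : BlockSuper R0 C z) {ρ : ℝ} (hρ : 0 < ρ) :
    ∀ᶠ L : ℝ in atTop, g z ρ L ≤ C * ((⌊ρ * L ^ 3⌋₊ : ℝ) / L ^ 3) +
      ((⌊ρ * L ^ 3⌋₊ : ℝ) / L ^ 3) * Real.log (((⌊ρ * L ^ 3⌋₊ : ℝ) / L ^ 3)⁻¹) := by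
  have t := floor_cube_tendsto hρ.le
  filter_upwards [t.eventually (lt_mem_nhds hρ), eventually_gt_atTop 0] with L hL hL0
  have hL3 : 0 < L ^ 3 := by positivity
  have hN : (0 : ℝ) < ⌊ρ * L ^ 3⌋₊ := by
    by_contra hcon
    have h0 : (⌊ρ * L ^ 3⌋₊ : ℝ) = 0 :=
      le_antisymm (not_lt.mp hcon) (Nat.cast_nonneg _)
    rw [h0] at hL
    simp at hL
  have hN' : 0 < ⌊ρ * L ^ 3⌋₊ := by exact_mod_cast hN
  have := h.upper L _ hL0 hN'
  unfold g
  rw [div_le_iff₀ hL3, inv_div]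
  refine this.trans (le_of_eq ?_)
  field_simp

lemma bddAbove_g (h : BlockSuper R0 C z) {ρ : ℝ} (hρ : 0 < ρ) :
    ∃ K, ∀ᶠ L : ℝ in atTop, g z ρ L ≤ K := by
  refine ⟨C * ρ + ρ * Real.log ρ⁻¹ + 1, ?_⟩
  filter_upwards [g_le h hρ, (upper_tendsto C hρ).eventually
    (gt_mem_nhds (show _ < C * ρ + ρ * Real.log ρ⁻¹ + 1 by linarith))] with L h1 h2
  linarith

lemma bddBelow_g (h : BlockSuper R0 C z) {ρ : ℝ} (hρ : 0 < ρ) :
    ∃ K, ∀ᶠ L : ℝ in atTop, K ≤ g z ρ L := by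
  have hR := h.R0_pos
  have hpos : 0 < ρ * (1 + R0) ^ 3 := by positivity
  refine ⟨combo R0 z ρ 1 0 (⌊ρ * (1 + R0) ^ 3⌋₊ + 1) - 1, ?_⟩
  have := lower_combo h (b := 1) (ρ := ρ) one_pos (n1 := 0) (n2 := ⌊ρ * (1 + R0) ^ 3⌋₊ + 1)
    (by simpa using hpos) (by push_cast; exact Nat.lt_floor_add_one _) one_pos
  exact this

lemma bdd_norm_g (h : BlockSuper R0 C z) {ρ : ℝ} (hρ : 0 < ρ) :
    IsBoundedUnder (· ≤ ·) atTop (norm ∘ fun L : ℝ => g z ρ L) := by
  obtain ⟨K1, h1⟩ := bddAbove_g h hρ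
  obtain ⟨K2, h2⟩ := bddBelow_g h hρ
  refine ⟨max |K1| |K2|, ?_⟩
  rw [eventually_map]
  filter_upwards [h1, h2] with L a1 a2
  simp only [Function.comp, Real.norm_eq_abs]
  rw [abs_le]
  constructor
  · have := neg_abs_le K2
    have := le_max_right |K1| |K2|
    linarith
  · have := le_abs_self K1
    have := le_max_left |K1| |K2|
    linarith

lemma almost_mono (h : BlockSuper R0 C z) {ρ : ℝ} (hρ : 0 < ρ) {ε : ℝ} (hε : 0 < ε) :
    ∀ᶠ b : ℝ in atTop, ∀ᶠ L : ℝ in atTop, g z ρ b - ε ≤ g z ρ L := by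
  have hR := h.R0_pos
  have h2ρ : 0 < 2 * ρ := by linarith
  have c1 := coef1_tendsto (R0 := R0) (ρ := ρ) hρ.le (show ρ < 2 * ρ by linarith)
  have c2 := coef2_tendsto (R0 := R0) (ρ := ρ) hρ.le (show ρ < 2 * ρ by linarith)
  have e1 : (2 * ρ - ρ) / (2 * ρ - ρ) = 1 := div_self (by linarith)
  have e2 : (ρ - ρ) / (2 * ρ - ρ) = 0 := by simp
  rw [e1] at c1
  rw [e2] at c2
  have c1' : Tendsto (fun b : ℝ => ((⌊(2 * ρ) * b ^ 3⌋₊ : ℝ) - ρ * (b + R0) ^ 3) * b ^ 3 /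
      ((b + R0) ^ 3 * ((⌊(2 * ρ) * b ^ 3⌋₊ : ℝ) - ⌊ρ * b ^ 3⌋₊)) - 1) atTop (𝓝 0) := by
    have := c1.sub_const 1
    rwa [sub_self] at this
  have d1 := c1'.zero_mul_isBoundedUnder_le (bdd_norm_g h hρ)
  have d2 := c2.zero_mul_isBoundedUnder_le (bdd_norm_g h h2ρ)
  have d := d1.add d2
  rw [add_zero] at d
  filter_upwards [d.eventually (lt_mem_nhds (show -(ε / 2) < 0 by linarith)),
    eventually_lt_vol hR hρ.le le_rfl hρ,
    eventually_vol_lt (R0 := R0) h2ρ.le (show ρ < 2 * ρ by linarith),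
    eventually_gt_atTop 0] with b hb1 hb2 hb3 hb0
  filter_upwards [lower_combo h hb0 hb2 hb3 (half_pos hε)] with L hL
  rw [combo_eq z ρ ρ (2 * ρ) hb0] at hL
  change _ ≤ g z ρ L at hL
  linarith

theorem exists_tendsto (h : BlockSuper R0 C z) {ρ : ℝ} (hρ : 0 < ρ) :
    ∃ l, Tendsto (fun L : ℝ => g z ρ L) atTop (𝓝 l) := by
  obtain ⟨K1, h1⟩ := bddAbove_g h hρ
  obtain ⟨K2, h2⟩ := bddBelow_g h hρ
  have hb : IsBoundedUnder (· ≤ ·) atTop (fun L : ℝ => g z ρ L) := ⟨K1, by rwa [eventually_map]⟩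
  have hb' : IsBoundedUnder (· ≥ ·) atTop (fun L : ℝ => g z ρ L) := ⟨K2, by rwa [eventually_map]⟩
  have hc : IsCoboundedUnder (· ≤ ·) atTop (fun L : ℝ => g z ρ L) := hb'.isCoboundedUnder_le
  refine ⟨limsup (fun L : ℝ => g z ρ L) atTop, ?_⟩
  rw [Metric.tendsto_nhds]
  intro ε hε
  have u := eventually_lt_of_limsup_lt
    (show limsup (fun L : ℝ => g z ρ L) atTop < limsup (fun L : ℝ => g z ρ L) atTop + ε
      by linarith) hb
  have f := frequently_lt_of_lt_limsup hc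
    (show limsup (fun L : ℝ => g z ρ L) atTop - ε / 2 < limsup (fun L : ℝ => g z ρ L) atTop
      by linarith)
  obtain ⟨b, hb1, hb2⟩ := (f.and_eventually (almost_mono h hρ (half_pos hε))).exists
  filter_upwards [u, hb2] with L a1 a2
  rw [Real.dist_eq, abs_lt]
  constructor <;> linarith

lemma g_zero (h : BlockSuper R0 C z) : (fun L : ℝ => g z 0 L) =ᶠ[atTop] fun _ => 0 := by
  filter_upwards [eventually_gt_atTop 0] with L hL
  unfold g
  rw [zero_mul, Nat.floor_zero, h.zero L hL, zero_div]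

theorem tendsto_sigma (h : BlockSuper R0 C z) {ρ : ℝ} (hρ : 0 ≤ ρ) :
    Tendsto (fun L : ℝ => z L ⌊ρ * L ^ 3⌋₊ / L ^ 3) atTop (𝓝 (sigma z ρ)) := by
  rcases hρ.eq_or_lt with rfl | hρ
  · exact tendsto_nhds_limUnder ⟨0, tendsto_const_nhds.congr' (g_zero h).symm⟩
  · exact tendsto_nhds_limUnder (exists_tendsto h hρ)

theorem sigma_zero (h : BlockSuper R0 C z) : sigma z 0 = 0 :=
  tendsto_nhds_unique (tendsto_sigma h le_rfl) (tendsto_const_nhds.congr' (g_zero h).symm)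


/-- the combination at finite volume is a lower bound for the limit -/
theorem combo_le_sigma (h : BlockSuper R0 C z) {b ρ : ℝ} (hb : 0 < b)
    {n1 n2 : ℕ} (h1 : (n1 : ℝ) < ρ * (b + R0) ^ 3) (h2 : ρ * (b + R0) ^ 3 < n2) :
    combo R0 z ρ b n1 n2 ≤ sigma z ρ := by
  have hR := h.R0_pos
  have hv : 0 < (b + R0) ^ 3 := by
    have : 0 < b + R0 := by linarith
    positivity
  have hρ : 0 ≤ ρ := by
    have : 0 < ρ * (b + R0) ^ 3 := lt_of_le_of_lt (Nat.cast_nonneg _) h1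
    exact (pos_of_mul_pos_left this hv.le).le
  apply le_of_forall_pos_lt_add
  intro ε hε
  have := ge_of_tendsto (tendsto_sigma h hρ) (lower_combo h hb h1 h2 (half_pos hε))
  linarith

theorem sigma_combo (h : BlockSuper R0 C z) {ρ1 ρ ρ2 : ℝ} (h0 : 0 ≤ ρ1) (h1 : ρ1 < ρ)
    (h2 : ρ < ρ2) :
    (ρ2 - ρ) / (ρ2 - ρ1) * sigma z ρ1 + (ρ - ρ1) / (ρ2 - ρ1) * sigma z ρ2 ≤ sigma z ρ := by
  have hR := h.R0_pos
  have hρ : 0 < ρ := by linarith
  have hρ2 : 0 ≤ ρ2 := by linarith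
  have t := ((coef1_tendsto (R0 := R0) (ρ := ρ) h0 (h1.trans h2)).mul (tendsto_sigma h h0)).add
    ((coef2_tendsto (R0 := R0) (ρ := ρ) h0 (h1.trans h2)).mul (tendsto_sigma h hρ2))
  refine le_of_tendsto t ?_
  filter_upwards [eventually_lt_vol hR h0 h1.le hρ, eventually_vol_lt (R0 := R0) hρ2 h2,
    eventually_gt_atTop 0] with b hb1 hb2 hb0
  have := combo_le_sigma h hb0 hb1 hb2
  rw [combo_eq z ρ ρ1 ρ2 hb0] at this
  exact this

theorem sigma_concaveOn (h : BlockSuper R0 C z) : ConcaveOn ℝ (Set.Ici 0) (sigma z) := by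
  apply LinearOrder.concaveOn_of_lt (convex_Ici 0)
  intro x hx y hy hxy a c ha hc hac
  have hx0 : (0 : ℝ) ≤ x := hx
  have hyx : 0 < y - x := by linarith
  have e : a • x + c • y = a * x + c * y := by simp
  have hc' : c = 1 - a := by linarith
  have l1 : x < a * x + c * y := by
    have : a * x + c * y - x = c * (y - x) := by rw [hc']; ring
    have : 0 < c * (y - x) := by positivity
    linarith
  have l2 : a * x + c * y < y := by
    have : y - (a * x + c * y) = a * (y - x) := by rw [hc']; ring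
    have : 0 < a * (y - x) := by positivity
    linarith
  have key := sigma_combo h hx0 l1 l2
  rw [e]
  simp only [smul_eq_mul]
  refine le_trans (le_of_eq ?_) key
  have e1 : (y - (a * x + c * y)) / (y - x) = a := by
    rw [div_eq_iff hyx.ne', hc']; ring
  have e2 : (a * x + c * y - x) / (y - x) = c := by
    rw [div_eq_iff hyx.ne', hc']; ring
  rw [e1, e2]

theorem sigma_continuousOn (h : BlockSuper R0 C z) : ContinuousOn (sigma z) (Set.Ioi 0) :=
  ConcaveOn.continuousOn isOpen_Ioi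
    ((sigma_concaveOn h).subset Set.Ioi_subset_Ici_self (convex_Ioi 0))

/-- (S1) the finite-volume lower bound -/
theorem finite_le_sigma (h : BlockSuper R0 C z) {b : ℝ} (hb : 0 < b) (n : ℕ) :
    z b n / (b + R0) ^ 3 ≤ sigma z (n / (b + R0) ^ 3) := by
  have hR := h.R0_pos
  have hv : 0 < (b + R0) ^ 3 := by
    have : 0 < b + R0 := by linarith
    positivity
  rcases Nat.eq_zero_or_pos n with rfl | hn
  · rw [h.zero b hb]
    simp [sigma_zero h]
  · have hnR : (0 : ℝ) < n := by exact_mod_cast hn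
    set v := (b + R0) ^ 3 with hvdef
    have hρ : 0 < n / v := by positivity
    have c : ContinuousAt (sigma z) (n / v) :=
      (sigma_continuousOn h).continuousAt (Ioi_mem_nhds hρ)
    have t1 : Tendsto (sigma z) (𝓝[>] (n / v)) (𝓝 (sigma z (n / v))) :=
      c.tendsto.mono_left nhdsWithin_le_nhds
    have t2 : Tendsto (fun ρ => combo R0 z ρ b n (n + 1)) (𝓝[>] (n / v))
        (𝓝 (combo R0 z (n / v) b n (n + 1))) := by
      have : Continuous (fun ρ => combo R0 z ρ b n (n + 1)) := by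
        unfold combo
        fun_prop
      exact this.continuousAt.tendsto.mono_left nhdsWithin_le_nhds
    have e : combo R0 z (n / v) b n (n + 1) = z b n / v := by
      unfold combo
      rw [← hvdef]
      have : (n : ℝ) / v * v = n := by field_simp
      rw [this]
      push_cast
      ring
    rw [e] at t2
    refine le_of_tendsto_of_tendsto t2 t1 ?_
    have : Set.Ioo (n / v) ((n + 1) / v) ∈ 𝓝[>] (n / v) :=
      Ioo_mem_nhdsGT (by gcongr; linarith)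
    filter_upwards [this] with ρ hρ'
    refine combo_le_sigma h hb ?_ ?_
    · have := hρ'.1
      rw [div_lt_iff₀ hv] at this
      exact this
    · have := hρ'.2
      rw [lt_div_iff₀ hv] at this
      push_cast
      exact this

end main

/-- convexity in a parameter is inherited by the limit -/
theorem sigma_convexOn {R0 : ℝ} {z : ℝ → ℝ → ℕ → ℝ} {s : Set ℝ} (hs : Convex ℝ s)
    (h : ∀ β ∈ s, ∃ C, BlockSuper R0 C (z β))
    (hconv : ∀ (L : ℝ) (n : ℕ), 0 < L → ConvexOn ℝ s (fun β => z β L n)) {ρ : ℝ} (hρ : 0 ≤ ρ) :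
    ConvexOn ℝ s (fun β => sigma (z β) ρ) := by
  refine ⟨hs, ?_⟩
  intro x hx y hy a c ha hc hac
  obtain ⟨Cx, hx'⟩ := h x hx
  obtain ⟨Cy, hy'⟩ := h y hy
  obtain ⟨Cz, hz'⟩ := h _ (hs hx hy ha hc hac)
  have tx := tendsto_sigma hx' hρ
  have ty := tendsto_sigma hy' hρ
  have tz := tendsto_sigma hz' hρ
  refine le_of_tendsto_of_tendsto tz ((tx.const_smul a).add (ty.const_smul c)) ?_
  filter_upwards [eventually_gt_atTop 0] with L hL
  have := (hconv L ⌊ρ * L ^ 3⌋₊ hL).2 hx hy ha hc hac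
  simp only [smul_eq_mul] at this ⊢
  have hL3 : 0 < L ^ 3 := by positivity
  calc z (a * x + c * y) L ⌊ρ * L ^ 3⌋₊ / L ^ 3
      ≤ (a * z x L ⌊ρ * L ^ 3⌋₊ + c * z y L ⌊ρ * L ^ 3⌋₊) / L ^ 3 :=
        div_le_div_of_nonneg_right this hL3.le
    _ = _ := by ring

end Crest.Agent.R149.TLAbs
end

-- ▼ part R149/TL
section

/-!
R149, module T: thermodynamic limit of the canonical free energy (`TLStmt`).
-/

set_option autoImplicit false

open MeasureTheory Crest.ProbabilityR.Continuum Filter Topology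
open scoped ENNReal

namespace Crest.Agent.R149

open TLAbs

theorem blockSuper_LZ (hSA : SuperAddStmt) (hLZ : LZPropsStmt) {c α : ℝ → ℝ} {B β : ℝ}
    (hc : CoreOK c) (hα : AttrOK α) (hS : Stab c α B) (hβ : 0 < β) :
    BlockSuper 2 (1 + β * B) (LZ c α β) := by
  have P := hLZ c α B β hc hα hS hβ
  refine ⟨by norm_num, ?_, fun L _ => P.zero L, ?_⟩
  · intro b L k hb hk n
    rcases Nat.eq_zero_or_pos k with rfl | hk0
    · have : IsEmpty (Fin (0 ^ 3)) := ⟨fun i => by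
        have := i.isLt
        norm_num at this⟩
      have e : ∀ f : Fin (0 ^ 3) → ℝ, ∑ c, f c = 0 := by
        intro f; exact Finset.sum_of_isEmpty _
      have e' : ∀ f : Fin (0 ^ 3) → ℕ, ∑ c, f c = 0 := by
        intro f; exact Finset.sum_of_isEmpty _
      rw [e, e', P.zero]
    · have key := hSA c α B β hc hα hS hβ b k hb hk0 (fun v => n (finFunctionFinEquiv v))
      have e1 : ∑ v : Fin 3 → Fin k, LZ c α β b (n (finFunctionFinEquiv v))
          = ∑ i, LZ c α β b (n i) :=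
        Equiv.sum_comp (finFunctionFinEquiv (m := k) (n := 3)) (fun i => LZ c α β b (n i))
      have e2 : ∑ v : Fin 3 → Fin k, n (finFunctionFinEquiv v) = ∑ i, n i :=
        Equiv.sum_comp (finFunctionFinEquiv (m := k) (n := 3)) n
      rw [e1, e2] at key
      refine key.trans (P.mono _ _ _ ?_ ?_)
      · have : (1 : ℝ) ≤ k := by exact_mod_cast hk0
        nlinarith
      · linarith
  · intro L n hL hn
    have hnR : (0 : ℝ) < n := by exact_mod_cast hn
    have hL3 : 0 < L ^ 3 := by positivity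
    have h1 := P.upper L n (Real.log (n / L ^ 3) - β * B) hL
    have e1 : Real.log (n / L ^ 3) - β * B + β * B = Real.log (n / L ^ 3) := by ring
    rw [e1, Real.exp_log (by positivity)] at h1
    have e2 : L ^ 3 * (n / L ^ 3) = n := by field_simp
    rw [e2] at h1
    have e3 : Real.log (L ^ 3 / n) = - Real.log (n / L ^ 3) := by
      rw [← Real.log_inv, inv_div]
    rw [e3]
    nlinarith

theorem tl (hSA : SuperAddStmt) (hLZ : LZPropsStmt) (hC : LZConvStmt) : TLStmt := by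
  intro c α B hc hα hS
  have hBS : ∀ β, 0 < β → BlockSuper 2 (1 + β * B) (LZ c α β) := fun β hβ =>
    blockSuper_LZ hSA hLZ hc hα hS hβ
  refine ⟨fun β ρ => - sigma (LZ c α β) ρ, ?_, ?_, ?_, ?_, ?_, ?_⟩
  · intro ρ hρ β hβ
    have := (tendsto_sigma (hBS β hβ) hρ).neg
    refine this.congr fun L => ?_
    ring
  · intro β hβ
    simp [sigma_zero (hBS β hβ)]
  · intro β hβ
    exact (sigma_concaveOn (hBS β hβ)).neg
  · intro r hr
    refine ConvexOn.neg ?_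
    exact sigma_convexOn (R0 := 2) (convex_Ioi 0) (fun β hβ => ⟨_, hBS β hβ⟩)
      (fun L n hL => hC c α B hc hα hS L n hL) hr
  · intro β hβ r hr h
    have P := hLZ c α B β hc hα hS hβ
    have hbdd : BddAbove (Set.range fun q : ℕ × ℕ =>
        (h * q.2 + LZ c α β ((q.1 : ℝ) + 1) q.2) / ((q.1 : ℝ) + 3) ^ 3) := by
      refine ⟨Real.exp (h + β * B), ?_⟩
      rintro _ ⟨q, rfl⟩
      have hq : (0 : ℝ) < (q.1 : ℝ) + 1 := by positivity
      have := P.upper ((q.1 : ℝ) + 1) q.2 h hq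
      have h3 : (0 : ℝ) < ((q.1 : ℝ) + 3) ^ 3 := by positivity
      simp only
      rw [div_le_iff₀ h3]
      refine this.trans ?_
      have : ((q.1 : ℝ) + 1) ^ 3 ≤ ((q.1 : ℝ) + 3) ^ 3 := by gcongr; norm_num
      have he := Real.exp_pos (h + β * B)
      nlinarith
    have hnat : Tendsto (fun m : ℕ => (m : ℝ) + 1) atTop atTop :=
      tendsto_atTop_add_const_right _ 1 tendsto_natCast_atTop_atTop
    have t1 := (tendsto_sigma (hBS β hβ) hr).comp hnat
    have t2 := (floor_cube_tendsto hr).comp hnat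
    have t3 := (vol_ratio_tendsto 2).comp hnat
    have t := ((t2.const_mul h).add t1).div t3 one_ne_zero
    rw [div_one] at t
    show h * r - -sigma (LZ c α β) r ≤ _
    rw [sub_neg_eq_add]
    refine le_of_tendsto t (Eventually.of_forall fun m => ?_)
    have := le_ciSup hbdd (m, ⌊r * ((m : ℝ) + 1) ^ 3⌋₊)
    refine le_trans (le_of_eq ?_) this
    have hm : (0 : ℝ) < (m : ℝ) + 1 := by positivity
    simp only [Pi.div_apply, Function.comp]
    have e : (m : ℝ) + 1 + 2 = m + 3 := by ring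
    rw [e]
    field_simp
  · intro β hβ h y hy
    apply ciSup_le
    rintro ⟨m, n⟩
    have hm : (0 : ℝ) < (m : ℝ) + 1 := by positivity
    have s1 := finite_le_sigma (hBS β hβ) hm n
    have e : (m : ℝ) + 1 + 2 = m + 3 := by ring
    rw [e] at s1
    have hm3 : (0 : ℝ) < ((m : ℝ) + 3) ^ 3 := by positivity
    have := hy (n / ((m : ℝ) + 3) ^ 3) (by positivity)
    simp only
    rw [add_div]
    have e2 : h * (n / ((m : ℝ) + 3) ^ 3) = h * n / ((m : ℝ) + 3) ^ 3 := by ring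
    rw [e2] at this
    linarith

end Crest.Agent.R149
end

-- ▼ part R149/LPLower

/-!
R149, module L: lower bound for the pressure after adding one scale (`LPLowerStmt`).
-/

set_option autoImplicit false

open MeasureTheory Crest.ProbabilityR.Continuum Filter Topology
open scoped ENNReal

namespace Crest.Agent.R149.LPLow

lemma SS_mono {f g : ℝ → ℝ} (h : ∀ r, f r ≤ g r) {ι : Type} [Fintype ι] (x : ι → Pt) :
    SS f x ≤ SS g x :=
  Finset.sum_le_sum fun _ _ => Finset.sum_le_sum fun _ _ => h _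

lemma A_mono {f g : ℝ → ℝ} (h : ∀ r, f r ≤ g r) {ι : Type} [Fintype ι] (x : ι → Pt) :
    A f x ≤ A g x := by
  unfold A
  have := SS_mono h x
  linarith

lemma measurableSet_cube' (L : ℝ) : MeasurableSet (cube L) := by
  have : cube L = ⋂ k : Fin 3, {x : Pt | 0 ≤ x k ∧ x k ≤ L} := by
    ext x; simp [cube]
  rw [this]
  refine MeasurableSet.iInter fun k => ?_
  have hm : Measurable fun x : Pt => x k := by fun_prop
  exact (measurableSet_le measurable_const hm).inter (measurableSet_le hm measurable_const)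

/-- comparison of partition sums from a pointwise comparison of weights on the cube -/
lemma LZ_le_of_ham_cube {c α₁ α₂ : ℝ → ℝ} {B₁ B₂ β₁ β₂ L K : ℝ} {n : ℕ}
    (P₁ : LZProps c α₁ B₁ β₁) (P₂ : LZProps c α₂ B₂ β₂) (hL : 0 < L)
    (h : ∀ x : Fin n → Pt, (∀ i, x i ∈ cube L) →
      -β₁ * Ham c α₁ x ≤ -β₂ * Ham c α₂ x + K) :
    LZ c α₁ β₁ L n ≤ LZ c α₂ β₂ L n + K := by
  have p1 := P₁.pos L n hL
  have f2 := P₂.fin L n hL
  have p2 := P₂.pos L n hL
  have f1 := P₁.fin L n hL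
  have hmeas : MeasurableSet (Set.pi Set.univ (fun _ : Fin n => cube L)) :=
    MeasurableSet.univ_pi fun _ => measurableSet_cube' L
  have key : ZF (HF c α₁ β₁) (cube L) n ≤
      ENNReal.ofReal (Real.exp K) * ZF (HF c α₂ β₂) (cube L) n := by
    unfold ZF
    rw [mul_left_comm, ← lintegral_const_mul' _ _ ENNReal.ofReal_ne_top]
    refine mul_le_mul_right ?_ _
    refine lintegral_mono_ae ?_
    filter_upwards [ae_restrict_mem hmeas] with x hx
    rw [← ENNReal.ofReal_mul (Real.exp_pos _).le, ← Real.exp_add]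
    apply ENNReal.ofReal_le_ofReal
    apply Real.exp_le_exp.mpr
    have := h x (fun i => hx i (Set.mem_univ i))
    show -β₁ * Ham c α₁ x ≤ K + -β₂ * Ham c α₂ x
    linarith
  unfold LZ
  have h1 : 0 < (ZF (HF c α₁ β₁) (cube L) n).toReal := ENNReal.toReal_pos p1.ne' f1
  have h2 : 0 < (ZF (HF c α₂ β₂) (cube L) n).toReal := ENNReal.toReal_pos p2.ne' f2
  have h3 : (ZF (HF c α₁ β₁) (cube L) n).toReal ≤
      Real.exp K * (ZF (HF c α₂ β₂) (cube L) n).toReal := by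
    have := ENNReal.toReal_mono (ENNReal.mul_ne_top ENNReal.ofReal_ne_top f2) key
    rwa [ENNReal.toReal_mul, ENNReal.toReal_ofReal (Real.exp_pos _).le] at this
  calc Real.log (ZF (HF c α₁ β₁) (cube L) n).toReal
      ≤ Real.log (Real.exp K * (ZF (HF c α₂ β₂) (cube L) n).toReal) := Real.log_le_log h1 h3
    _ = _ := by
      rw [Real.log_mul (Real.exp_pos _).ne' h2.ne', Real.log_exp]
      ring

lemma A_add_mul (α w : ℝ → ℝ) (a : ℝ) {ι : Type} [Fintype ι] (x : ι → Pt) :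
    A (fun r => α r + a * w r) x = A α x + a * A w x := by
  unfold A SS
  simp only [Finset.sum_add_distrib, ← Finset.mul_sum]
  ring

lemma attrOK_add (hK : KernelProps) {α : ℝ → ℝ} (hα : AttrOK α) {R a : ℝ} (hR : 0 < R)
    (ha : 0 ≤ a) : AttrOK (fun r => α r + a * wk R r) := by
  obtain ⟨C, hC⟩ := hα.bdd
  refine ⟨hα.meas.add ((hK.cont R hR).measurable.const_mul a), fun r => ?_,
    ⟨C + a * (1 / vB R), fun r => ?_⟩⟩
  · have := hα.nonneg r
    have := mul_nonneg ha (hK.nonneg R r)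
    linarith
  · have := hC r
    have := mul_le_mul_of_nonneg_left (hK.le R r hR) ha
    linarith

end Crest.Agent.R149.LPLow

namespace Crest.Agent.R149

open LPLow in
theorem lpLower (hK : KernelProps) (hE1 : E1Stmt) (hSA : SuperAddStmt) (hLZ : LZPropsStmt)
    (hPr : PrPropsStmt) : LPLowerStmt := by
  intro c α B R a hc hα hR ha hS β h m hβ
  have hα' := attrOK_add hK hα hR ha
  have hS0 : Stab c α B := by
    refine ⟨hS.1, fun ι _ x => ?_⟩
    refine le_trans (A_mono (fun r => ?_) x) (hS.2 ι x)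
    have := mul_nonneg ha (hK.nonneg R r)
    linarith
  have P0 := hLZ c α B β hc hα hS0 hβ
  have P1 := hLZ c _ B β hc hα' hS hβ
  have Q1 := hPr c _ B hc hα' hS
  rw [sub_le_iff_le_add]
  apply ciSup_le
  rintro ⟨k, n⟩
  simp only
  -- the box side
  set L0 : ℝ := (k : ℝ) + 1 with hL0
  have hL0pos : 0 < L0 := by positivity
  set v : ℝ := (k : ℝ) + 3 with hv
  have hvpos : 0 < v := by positivity
  have hv3 : 3 ≤ v := by rw [hv]; linarith [Nat.cast_nonneg (α := ℝ) k]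
  have hfin : ∀ᶠ j : ℕ in atTop,
      (h * n + LZ c α β L0 n) / v ^ 3 +
        β * a * (n : ℝ) ^ 2 / (2 * (v * (v + (2 * R - 2) / j)) ^ 3) ≤
        Pr c (fun r => α r + a * wk R r) β h := by
    filter_upwards [eventually_ge_atTop 1, eventually_gt_atTop ⌈2 / v⌉₊] with j hj1 hj2
    have hjR : (1 : ℝ) ≤ j := by exact_mod_cast hj1
    have hj0 : (0 : ℝ) < j := by linarith
    -- big box
    have hnat : 3 ≤ j * (k + 3) := by nlinarith
    set q : ℕ := j * (k + 3) - 3 with hq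
    have hqR : (q : ℝ) = j * v - 3 := by
      rw [hq, Nat.cast_sub hnat]; push_cast; ring
    have e1 : (q : ℝ) + 1 = j * (L0 + 2) - 2 := by rw [hqR, hL0, hv]; ring
    have e3 : (q : ℝ) + 3 = j * v := by rw [hqR]; ring
    have hqpos : (0 : ℝ) < (q : ℝ) + 1 := by positivity
    have sa := hSA c α B β hc hα hS0 hβ L0 j hL0pos hj1 (fun _ => n)
    rw [← e1] at sa
    simp only [Finset.sum_const, Finset.card_univ, Fintype.card_fun, Fintype.card_fin,
      nsmul_eq_mul, smul_eq_mul] at sa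
    push_cast at sa
    have cmp : LZ c α β ((q : ℝ) + 1) (j ^ 3 * n) ≤
        LZ c (fun r => α r + a * wk R r) β ((q : ℝ) + 1) (j ^ 3 * n)
          + -(β * a * ((j : ℝ) ^ 3 * n) ^ 2 / (2 * ((q : ℝ) + 1 + 2 * R) ^ 3)) := by
      refine LZ_le_of_ham_cube P0 P1 hqpos (fun x hx => ?_)
      have h1 := hE1 R ((q : ℝ) + 1) hR hqpos.le (Fin (j ^ 3 * n)) x hx
      rw [Fintype.card_fin] at h1
      push_cast at h1
      unfold Ham
      rw [A_add_mul]
      have h2 := mul_le_mul_of_nonneg_left h1 (mul_nonneg hβ.le ha)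
      have e4 : β * a * (((j : ℝ) ^ 3 * n) ^ 2 / (2 * ((q : ℝ) + 1 + 2 * R) ^ 3))
        = β * a * ((j : ℝ) ^ 3 * n) ^ 2 / (2 * ((q : ℝ) + 1 + 2 * R) ^ 3) := by ring
      rw [e4] at h2
      linarith
    have hb := le_ciSup (Q1.bdd β h hβ) (q, j ^ 3 * n)
    refine le_trans ?_ hb
    simp only
    rw [e3]
    have hLR : (q : ℝ) + 1 + 2 * R = j * (v + (2 * R - 2) / j) := by
      rw [hqR]; field_simp; ring
    rw [hLR] at cmp
    have e5 : (h * n + LZ c α β L0 n) / v ^ 3 +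
        β * a * (n : ℝ) ^ 2 / (2 * (v * (v + (2 * R - 2) / j)) ^ 3) =
        (h * ((j : ℝ) ^ 3 * n) + (j : ℝ) ^ 3 * LZ c α β L0 n +
          β * a * ((j : ℝ) ^ 3 * n) ^ 2 / (2 * (j * (v + (2 * R - 2) / j)) ^ 3)) /
          (j * v) ^ 3 := by
      have hw : (v + (2 * R - 2) / j) ≠ 0 := by
        have : 0 < (q : ℝ) + 1 + 2 * R := by linarith
        rw [hLR] at this
        intro h0
        rw [h0, mul_zero] at this
        exact lt_irrefl _ this
      generalize v + (2 * R - 2) / j = w at *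
      field_simp
    rw [e5]
    apply div_le_div_of_nonneg_right _ (by positivity)
    push_cast
    linarith
  have tl : Tendsto (fun j : ℕ => (h * n + LZ c α β L0 n) / v ^ 3 +
        β * a * (n : ℝ) ^ 2 / (2 * (v * (v + (2 * R - 2) / (j : ℝ))) ^ 3)) atTop
      (𝓝 ((h * n + LZ c α β L0 n) / v ^ 3 +
        β * a * (n : ℝ) ^ 2 / (2 * (v * (v + 0)) ^ 3))) := by
    have t0 : Tendsto (fun j : ℕ => (2 * R - 2) / (j : ℝ)) atTop (𝓝 0) :=
      tendsto_const_div_atTop_nhds_zero_nat _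
    refine tendsto_const_nhds.add (Tendsto.div tendsto_const_nhds ?_ ?_)
    · exact (((t0.const_add v).const_mul v).pow 3).const_mul 2
    · rw [add_zero]; positivity
  have hlim := le_of_tendsto tl hfin
  refine le_trans ?_ (add_le_add_left hlim _)
  rw [add_zero]
  have e6 : β * a * (n : ℝ) ^ 2 / (2 * (v * v) ^ 3) = β * a * (n / v ^ 3) ^ 2 / 2 := by
    field_simp
  rw [e6]
  have e7 : ((h + β * a * m) * n + LZ c α β L0 n) / v ^ 3
      = (h * n + LZ c α β L0 n) / v ^ 3 + β * a * (m * (n / v ^ 3)) := by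
    field_simp
    ring
  rw [e7]
  have : 0 ≤ β * a * (n / v ^ 3 - m) ^ 2 / 2 := by positivity
  nlinarith

end Crest.Agent.R149
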