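import Mathlib
import Crest.Agent.R149.Blocks
import Crest.Agent.R149.Stmts

-- ▼ part R149/Split
section

/-!
Splitting of partition sums for families (`SplitLowerStmt`, `SplitUpperStmt`).
-/

set_option autoImplicit false

open MeasureTheory Crest.ProbabilityR.Continuum
open scoped ENNReal

namespace Crest.Agent.R149

theorem exists_equiv_of_mset_eq {ι κ : Type*} [Fintype ι] [Fintype κ] (x : ι → Pt) (y : κ → Pt)
    (h : mset x = mset y) : ∃ e : ι ≃ κ, ∀ i, y (e i) = x i := by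
  classical
  have hc : ∀ {τ : Type _} [Fintype τ] (z : τ → Pt) (p : Pt),
      Fintype.card {i // z i = p} = (mset z).count p := by
    intro τ _ z p
    unfold mset
    rw [Multiset.count_map, Fintype.card_subtype]
    simp only [eq_comm (a := p)]
    rfl
  have hc' : ∀ {τ : Type _} [Fintype τ] (z : τ → Pt) (p : Pt),
      Fintype.card {i // z i = p} = (mset z).count p := by
    intro τ _ z p
    unfold mset
    rw [Multiset.count_map, Fintype.card_subtype]
    simp only [eq_comm (a := p)]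
    rfl
  have he : ∀ p : Pt, Nonempty ({i // x i = p} ≃ {j // y j = p}) := by
    intro p
    refine Fintype.card_eq.1 ?_
    rw [hc x p, hc' y p, h]
  have e := fun p => Classical.choice (he p)
  refine ⟨Equiv.ofFiberEquiv e, fun i => Equiv.ofFiberEquiv_map e i⟩

/-- the multiset function of a family -/
noncomputable def Fam.lift (F : Fam) (s : Multiset Pt) : ℝ :=
  F (Fin s.toList.length) (fun i => s.toList.get i)

theorem FamOK.lift_mset {F : Fam} (hF : FamOK F) {ι : Type} [Fintype ι] (x : ι → Pt) :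
    F.lift (mset x) = F ι x := by
  unfold Fam.lift
  have h1 : mset x = mset (fun i : Fin (mset x).toList.length => (mset x).toList.get i) := by
    conv_lhs => rw [← Multiset.coe_toList (mset x)]
    generalize (mset x).toList = l
    unfold mset
    simp
  obtain ⟨e, he⟩ := exists_equiv_of_mset_eq _ _ h1
  have h2 := hF.perm _ _ e (fun i : Fin (mset x).toList.length => (mset x).toList.get i)
  rw [← h2]
  congr 1
  funext i
  exact he i

theorem FamOK.measurable_lift {F : Fam} (hF : FamOK F) : MMeas F.lift := by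
  intro n
  simp only [hF.lift_mset]
  exact hF.meas _

theorem FamOK.mmeas {F : Fam} (hF : FamOK F) :
    MMeas (fun s => ENNReal.ofReal (Real.exp (F.lift s))) := by
  intro n
  exact (hF.measurable_lift n).exp.ennreal_ofReal

theorem ZF_eq {F : Fam} (hF : FamOK F) (S : Set Pt) (n : ℕ) :
    ZF F S n = Zm (volume.restrict S) n (fun s => ENNReal.ofReal (Real.exp (F.lift s))) := by
  unfold ZF Zm
  rw [← Measure.restrict_pi_pi]
  simp only [hF.lift_mset]
  rfl

theorem exists_mset_eq (s : Multiset Pt) : ∃ (n : ℕ) (y : Fin n → Pt), mset y = s := by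
  refine ⟨s.toList.length, fun i => s.toList.get i, ?_⟩
  conv_rhs => rw [← Multiset.coe_toList s]
  generalize s.toList = l
  unfold mset
  simp

theorem left_part {a b : ℕ} (y : Fin a → Pt) (z : Fin b → Pt) :
    mset (fun i : {i : Fin a ⊕ Fin b // i.isLeft = true} => Sum.elim y z i) = mset y := by
  let e : Fin a ≃ {i : Fin a ⊕ Fin b // i.isLeft = true} :=
    { toFun := fun i => ⟨Sum.inl i, rfl⟩
      invFun := fun i => match i with
        | ⟨Sum.inl i, _⟩ => i
      left_inv := fun i => rfl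
      right_inv := by
        rintro ⟨i | i, h⟩
        · rfl
        · simp at h }
  rw [← mset_comp_equiv e]
  rfl

theorem right_part {a b : ℕ} (y : Fin a → Pt) (z : Fin b → Pt) :
    mset (fun i : {i : Fin a ⊕ Fin b // ¬ i.isLeft = true} => Sum.elim y z i) = mset z := by
  let e : Fin b ≃ {i : Fin a ⊕ Fin b // ¬ i.isLeft = true} :=
    { toFun := fun i => ⟨Sum.inr i, by simp⟩
      invFun := fun i => match i with
        | ⟨Sum.inr i, _⟩ => i
      left_inv := fun i => rfl
      right_inv := by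
        rintro ⟨i | i, h⟩
        · simp at h
        · rfl }
  rw [← mset_comp_equiv e]
  rfl

theorem lift_superadd {F : Fam} (hF : FamOK F) {S T : Set Pt}
    (h : ∀ (ι : Type) [Fintype ι] (q : ι → Prop) [DecidablePred q] (x : ι → Pt),
      (∀ i, q i → x i ∈ S) → (∀ i, ¬ q i → x i ∈ T) →
      F {i // q i} (fun i => x i) + F {i // ¬ q i} (fun i => x i) ≤ F ι x)
    {s t : Multiset Pt} (hs : ∀ p ∈ s, p ∈ S) (ht : ∀ p ∈ t, p ∈ T) :
    F.lift s + F.lift t ≤ F.lift (s + t) := by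
  obtain ⟨a, y, rfl⟩ := exists_mset_eq s
  obtain ⟨b, z, rfl⟩ := exists_mset_eq t
  have h1 := h (Fin a ⊕ Fin b) (fun i => i.isLeft = true) (Sum.elim y z) ?_ ?_
  · rw [← hF.lift_mset, ← hF.lift_mset, ← hF.lift_mset, left_part, right_part, mset_sum] at h1
    exact h1
  · rintro (i | i) hi
    · exact hs _ ((mem_mset _ _).2 ⟨i, rfl⟩)
    · simp at hi
  · rintro (i | i) hi
    · simp at hi
    · exact ht _ ((mem_mset _ _).2 ⟨i, rfl⟩)

theorem lift_subadd {F : Fam} (hF : FamOK F) {S T : Set Pt}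
    (h : ∀ (ι : Type) [Fintype ι] (q : ι → Prop) [DecidablePred q] (x : ι → Pt),
      (∀ i, q i → x i ∈ S) → (∀ i, ¬ q i → x i ∈ T) →
      F ι x ≤ F {i // q i} (fun i => x i) + F {i // ¬ q i} (fun i => x i))
    {s t : Multiset Pt} (hs : ∀ p ∈ s, p ∈ S) (ht : ∀ p ∈ t, p ∈ T) :
    F.lift (s + t) ≤ F.lift s + F.lift t := by
  obtain ⟨a, y, rfl⟩ := exists_mset_eq s
  obtain ⟨b, z, rfl⟩ := exists_mset_eq t
  have h1 := h (Fin a ⊕ Fin b) (fun i => i.isLeft = true) (Sum.elim y z) ?_ ?_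
  · rw [← hF.lift_mset, ← hF.lift_mset, ← hF.lift_mset, left_part, right_part, mset_sum] at h1
    exact h1
  · rintro (i | i) hi
    · exact hs _ ((mem_mset _ _).2 ⟨i, rfl⟩)
    · simp at hi
  · rintro (i | i) hi
    · simp at hi
    · exact ht _ ((mem_mset _ _).2 ⟨i, rfl⟩)

theorem splitLower : SplitLowerStmt := by
  intro F hF S T hS hT hd h n m
  rw [ZF_eq hF, ZF_eq hF, ZF_eq hF]
  refine Zm_union_ge hS hT hd n m hF.mmeas hF.mmeas hF.mmeas ?_
  intro s t hs ht _ _
  rw [← ENNReal.ofReal_mul (Real.exp_nonneg _), ← Real.exp_add]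
  exact ENNReal.ofReal_le_ofReal (Real.exp_le_exp.2 (lift_superadd hF h hs ht))

theorem splitUpper : SplitUpperStmt := by
  intro F hF S T hS hT hd h N
  simp only [ZF_eq hF]
  rw [Measure.restrict_union hd hT, Zm_add _ _ _ _ hF.mmeas]
  refine Finset.sum_le_sum (fun k _ => ?_)
  rw [← Zm_mul_const _ _ _ hF.mmeas]
  refine Zm_mono hS k (fun s _ hs => ?_)
  rw [← Zm_const_mul' _ _ _ hF.mmeas]
  refine Zm_mono hT _ (fun t _ ht => ?_)
  rw [← ENNReal.ofReal_mul (Real.exp_nonneg _), ← Real.exp_add]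
  exact ENNReal.ofReal_le_ofReal (Real.exp_le_exp.2 (lift_subadd hF h hs ht))

end Crest.Agent.R149
end

-- ▼ part R149/SuperAdd
section

/-!
Superadditivity of `LZ` over cubes with corridors of width 2 (`SuperAddStmt`).
-/

set_option autoImplicit false

open MeasureTheory Crest.ProbabilityR.Continuum
open scoped ENNReal

namespace Crest.Agent.R149

/-! ### basic algebra of the double sums -/

theorem SS_perm (g : ℝ → ℝ) {ι κ : Type} [Fintype ι] [Fintype κ] (e : ι ≃ κ) (x : κ → Pt) :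
    SS g (fun i => x (e i)) = SS g x := by
  unfold SS
  rw [← e.sum_comp]
  refine Finset.sum_congr rfl (fun i _ => ?_)
  rw [← e.sum_comp]

theorem measurable_SS {g : ℝ → ℝ} (hg : Measurable g) (ι : Type) [Fintype ι] :
    Measurable (fun x : ι → Pt => SS g x) := by
  unfold SS
  refine Finset.measurable_sum _ (fun i _ => Finset.measurable_sum _ (fun j _ => ?_))
  exact hg.comp ((measurable_pi_apply i).dist (measurable_pi_apply j))

theorem measurable_Ham {c α : ℝ → ℝ} (hc : Measurable c) (hα : Measurable α) (ι : Type) [Fintype ι] :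
    Measurable (fun x : ι → Pt => Ham c α x) := by
  unfold Ham U A
  exact (((measurable_SS hc ι).sub_const _).div_const 2).sub ((measurable_SS hα ι).div_const 2)

theorem Ham_perm (c α : ℝ → ℝ) {ι κ : Type} [Fintype ι] [Fintype κ] (e : ι ≃ κ) (x : κ → Pt) :
    Ham c α (fun i => x (e i)) = Ham c α x := by
  unfold Ham U A
  rw [SS_perm, SS_perm, Fintype.card_congr e]

theorem famOK_HF {c α : ℝ → ℝ} (hc : Measurable c) (hα : Measurable α) (β : ℝ) :
    FamOK (HF c α β) where
  meas := fun ι _ => (measurable_Ham hc hα ι).const_mul (-β)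
  perm := fun ι κ _ _ e x => by
    unfold HF
    rw [Ham_perm]

theorem SS_split (g : ℝ → ℝ) {ι : Type} [Fintype ι] (q : ι → Prop) [DecidablePred q] (x : ι → Pt) :
    SS g x = SS g (fun i : {i // q i} => x i) + SS g (fun i : {i // ¬ q i} => x i) +
      2 * ∑ i : {i // q i}, ∑ j : {i // ¬ q i}, g (dist (x i) (x j)) := by
  unfold SS
  have h1 : ∀ i, ∑ j, g (dist (x i) (x j)) = ∑ j : {i // q i}, g (dist (x i) (x j)) +
      ∑ j : {i // ¬ q i}, g (dist (x i) (x j)) := by
    intro i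
    rw [Fintype.sum_subtype_add_sum_subtype q (fun j => g (dist (x i) (x j)))]
  simp_rw [h1]
  rw [← Fintype.sum_subtype_add_sum_subtype q]
  rw [Finset.sum_add_distrib, Finset.sum_add_distrib]
  have h2 : ∑ i : {i // ¬ q i}, ∑ j : {i // q i}, g (dist (x i) (x j)) =
      ∑ i : {i // q i}, ∑ j : {i // ¬ q i}, g (dist (x i) (x j)) := by
    rw [Finset.sum_comm]
    refine Finset.sum_congr rfl (fun i _ => Finset.sum_congr rfl (fun j _ => ?_))
    rw [dist_comm]
  rw [h2]; ring

theorem card_split {ι : Type} [Fintype ι] (q : ι → Prop) [DecidablePred q] :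
    (Fintype.card ι : ℝ) = Fintype.card {i // q i} + Fintype.card {i // ¬ q i} := by
  rw [Fintype.card_subtype_compl]
  have := Fintype.card_subtype_le q
  push_cast [this]; ring

theorem HF_superadd {c α : ℝ → ℝ} {β : ℝ} (hβ : 0 ≤ β) (hα : ∀ r, 0 ≤ α r)
    (hc : ∀ r, 2 ≤ r → c r = 0) {S T : Set Pt} (hST : ∀ x ∈ S, ∀ y ∈ T, 2 ≤ dist x y)
    (ι : Type) [Fintype ι] (q : ι → Prop) [DecidablePred q] (x : ι → Pt)
    (h1 : ∀ i, q i → x i ∈ S) (h2 : ∀ i, ¬ q i → x i ∈ T) :
      HF c α β {i // q i} (fun i => x i) + HF c α β {i // ¬ q i} (fun i => x i) ≤ HF c α β ι x := by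
  unfold HF Ham U A
  rw [SS_split c q x, SS_split α q x, card_split q]
  have e1 : ∑ i : {i // q i}, ∑ j : {i // ¬ q i}, c (dist (x i) (x j)) = 0 := by
    refine Finset.sum_eq_zero (fun i _ => Finset.sum_eq_zero (fun j _ => ?_))
    exact hc _ (hST _ (h1 i i.2) _ (h2 j j.2))
  have e2 : 0 ≤ ∑ i : {i // q i}, ∑ j : {i // ¬ q i}, α (dist (x i) (x j)) :=
    Finset.sum_nonneg (fun i _ => Finset.sum_nonneg (fun j _ => hα _))
  rw [e1]
  nlinarith [mul_nonneg hβ e2]

theorem U_nonneg {c : ℝ → ℝ} (hc : ∀ r, 0 ≤ c r) {ι : Type} [Fintype ι] (x : ι → Pt) :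
    0 ≤ U c x := by
  unfold U SS
  have h : (Fintype.card ι : ℝ) * c 0 ≤ ∑ i, ∑ j, c (dist (x i) (x j)) := by
    have h1 : ∀ i, c 0 ≤ ∑ j, c (dist (x i) (x j)) := by
      intro i
      have := Finset.single_le_sum (f := fun j => c (dist (x i) (x j)))
        (fun j _ => hc _) (Finset.mem_univ i)
      simpa using this
    calc (Fintype.card ι : ℝ) * c 0 = ∑ i : ι, c 0 := by simp
      _ ≤ _ := Finset.sum_le_sum (fun i _ => h1 i)
  linarith

theorem Ham_ge {c α : ℝ → ℝ} {B : ℝ} (hc : ∀ r, 0 ≤ c r) (hs : Stab c α B) {ι : Type} [Fintype ι]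
    (x : ι → Pt) : -(B * Fintype.card ι) ≤ Ham c α x := by
  unfold Ham
  have h1 := hs.2 ι x
  have h2 := U_nonneg hc x
  linarith

theorem HF_le {c α : ℝ → ℝ} {B β : ℝ} (hc : ∀ r, 0 ≤ c r) (hs : Stab c α B) (hβ : 0 ≤ β)
    {ι : Type} [Fintype ι] (x : ι → Pt) : HF c α β ι x ≤ β * B * Fintype.card ι := by
  unfold HF
  have := Ham_ge hc hs x
  nlinarith

/-! ### cubes -/

theorem cube_eq_preimage (L : ℝ) : cube L = (WithLp.ofLp : Pt → (Fin 3 → ℝ)) ⁻¹'
    (Set.univ.pi (fun _ => Set.Icc 0 L)) := by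
  ext x
  simp only [cube, Set.mem_preimage, Set.mem_pi, Set.mem_univ, forall_true_left, Set.mem_Icc]
  rfl

theorem measurableSet_cube' (L : ℝ) : MeasurableSet (cube L) := by
  rw [cube_eq_preimage]
  exact (PiLp.volume_preserving_ofLp (Fin 3)).measurable
    (MeasurableSet.univ_pi (fun _ => measurableSet_Icc))

theorem volume_cube (L : ℝ) : volume (cube L) = ENNReal.ofReal L ^ 3 := by
  rw [cube_eq_preimage, (PiLp.volume_preserving_ofLp (Fin 3)).measure_preimage
    (MeasurableSet.univ_pi (fun _ => measurableSet_Icc)).nullMeasurableSet, volume_pi,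
    Measure.pi_pi]
  simp

theorem ZF_ne_top {c α : ℝ → ℝ} {B β : ℝ} (hc : ∀ r, 0 ≤ c r) (hs : Stab c α B) (hβ : 0 ≤ β)
    {S : Set Pt} (hS : volume S ≠ ⊤) (n : ℕ) : ZF (HF c α β) S n ≠ ⊤ := by
  unfold ZF
  refine ENNReal.mul_ne_top (by simp [Nat.factorial_ne_zero]) ?_
  have h1 : ∫⁻ x in Set.pi Set.univ (fun _ : Fin n => S),
      ENNReal.ofReal (Real.exp (HF c α β (Fin n) x)) ≤
      ∫⁻ _ in Set.pi Set.univ (fun _ : Fin n => S), ENNReal.ofReal (Real.exp (β * B * n)) := by
    refine lintegral_mono (fun x => ENNReal.ofReal_le_ofReal (Real.exp_le_exp.2 ?_))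
    have := HF_le hc hs hβ x
    simpa using this
  refine ne_top_of_le_ne_top ?_ h1
  rw [lintegral_const]
  refine ENNReal.mul_ne_top ENNReal.ofReal_ne_top ?_
  rw [Measure.restrict_apply_univ, volume_pi, Measure.pi_pi]
  exact (ENNReal.prod_lt_top (fun _ _ => hS.lt_top)).ne

theorem ZF_pos {F : Fam} (hF : FamOK F) {S : Set Pt} (hS : volume S ≠ 0) (n : ℕ) :
    0 < ZF F S n := by
  unfold ZF
  refine ENNReal.mul_pos (by simp) ?_
  intro h0
  rw [lintegral_eq_zero_iff ((hF.meas (Fin n)).exp.ennreal_ofReal)] at h0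
  have h1 : (volume.restrict (Set.pi Set.univ (fun _ : Fin n => S))) = 0 := by
    rw [← ae_eq_bot]
    by_contra hne
    have : (ae (volume.restrict (Set.pi Set.univ (fun _ : Fin n => S)))).NeBot := ⟨hne⟩
    obtain ⟨x, hx⟩ := h0.exists
    simp only [Pi.zero_apply, ENNReal.ofReal_eq_zero] at hx
    exact absurd hx (not_le.2 (Real.exp_pos _))
  have h2 : volume (Set.pi Set.univ (fun _ : Fin n => S)) = 0 := by
    have := Measure.restrict_apply_univ (μ := volume) (Set.pi Set.univ (fun _ : Fin n => S))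
    rw [h1] at this
    simpa using this.symm
  rw [volume_pi, Measure.pi_pi] at h2
  rw [Finset.prod_eq_zero_iff] at h2
  obtain ⟨_, _, h3⟩ := h2
  exact hS h3

theorem ZF_mono (F : Fam) {S T : Set Pt} (h : S ⊆ T) (n : ℕ) : ZF F S n ≤ ZF F T n := by
  unfold ZF
  exact mul_le_mul' le_rfl (lintegral_mono_set (Set.pi_mono (fun _ _ => h)))

theorem ZF_translate {F : Fam}
    (hF : ∀ (n : ℕ) (x : Fin n → Pt) (t : Pt), F (Fin n) (fun i => x i + t) = F (Fin n) x)
    (S : Set Pt) (t : Pt) (n : ℕ) : ZF F {x | x + t ∈ S} n = ZF F S n := by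
  unfold ZF
  congr 1
  have h1 := measurePreserving_add_right (volume : Measure (Fin n → Pt)) (fun _ => t)
  have h2 : MeasurableEmbedding (fun x : Fin n → Pt => x + (fun _ => t)) :=
    measurableEmbedding_addRight _
  rw [← h1.setLIntegral_comp_preimage_emb h2 (fun x => ENNReal.ofReal (Real.exp (F (Fin n) x)))
    (Set.pi Set.univ (fun _ => S))]
  have h3 : (fun x : Fin n → Pt => x + (fun _ => t)) ⁻¹' (Set.pi Set.univ (fun _ : Fin n => S)) =
      Set.pi Set.univ (fun _ : Fin n => {x : Pt | x + t ∈ S}) := by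
    ext x
    simp only [Set.mem_preimage, Set.mem_pi, Set.mem_univ, forall_true_left, Pi.add_apply]
    rfl
  rw [h3]
  refine lintegral_congr (fun x => ?_)
  rw [← hF n x t]
  rfl

theorem HF_translate (c α : ℝ → ℝ) (β : ℝ) (n : ℕ) (x : Fin n → Pt) (t : Pt) :
    HF c α β (Fin n) (fun i => x i + t) = HF c α β (Fin n) x := by
  unfold HF Ham U A SS
  simp

/-- translated cube number `v` (period `L + 2`) -/
def tcube (L : ℝ) {j : ℕ} (v : Fin 3 → Fin j) : Set Pt :=
  {x | x + (WithLp.toLp 2 (fun k => -((v k : ℕ) : ℝ) * (L + 2)) : Pt) ∈ cube L}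

theorem mem_tcube (L : ℝ) {j : ℕ} (v : Fin 3 → Fin j) (x : Pt) :
    x ∈ tcube L v ↔ ∀ k, ((v k : ℕ) : ℝ) * (L + 2) ≤ x k ∧ x k ≤ ((v k : ℕ) : ℝ) * (L + 2) + L := by
  unfold tcube cube
  simp only [Set.mem_ofPred_eq, PiLp.add_apply]
  refine forall_congr' (fun k => ?_)
  constructor
  · rintro ⟨h1, h2⟩; constructor <;> linarith
  · rintro ⟨h1, h2⟩; constructor <;> linarith

theorem measurableSet_tcube (L : ℝ) {j : ℕ} (v : Fin 3 → Fin j) : MeasurableSet (tcube L v) := by
  unfold tcube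
  exact measurableSet_cube' L |>.preimage (measurable_add_const _)

theorem dist_coord_le (x y : Pt) (k : Fin 3) : |x k - y k| ≤ dist x y := by
  rw [dist_eq_norm]
  have := PiLp.norm_apply_le (x - y) k
  simpa using this

theorem tcube_dist {L : ℝ} (hL : 0 ≤ L) {j : ℕ} {v w : Fin 3 → Fin j} (hvw : v ≠ w) (x : Pt) (hx : x ∈ tcube L v)
    (y : Pt) (hy : y ∈ tcube L w) : 2 ≤ dist x y := by
  rw [mem_tcube] at hx hy
  obtain ⟨k, hk⟩ := Function.ne_iff.1 hvw
  have hk' : (v k : ℕ) ≠ (w k : ℕ) := fun h => hk (Fin.ext h)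
  refine le_trans ?_ (dist_coord_le x y k)
  obtain ⟨a1, a2⟩ := hx k
  obtain ⟨b1, b2⟩ := hy k
  rcases lt_or_gt_of_ne hk' with h | h
  · have h1 : ((v k : ℕ) : ℝ) + 1 ≤ ((w k : ℕ) : ℝ) := by exact_mod_cast h
    rw [abs_sub_comm]
    refine le_trans ?_ (le_abs_self _)
    nlinarith
  · have h1 : ((w k : ℕ) : ℝ) + 1 ≤ ((v k : ℕ) : ℝ) := by exact_mod_cast h
    refine le_trans ?_ (le_abs_self _)
    nlinarith

theorem tcube_subset {L : ℝ} (hL : 0 ≤ L) {j : ℕ} (v : Fin 3 → Fin j) :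
    tcube L v ⊆ cube (j * (L + 2) - 2) := by
  intro x hx
  rw [mem_tcube] at hx
  intro k
  obtain ⟨a1, a2⟩ := hx k
  have h0 : (0 : ℝ) ≤ ((v k : ℕ) : ℝ) := Nat.cast_nonneg _
  have h1 : ((v k : ℕ) : ℝ) + 1 ≤ (j : ℝ) := by exact_mod_cast (v k).2
  constructor
  · refine le_trans ?_ a1
    positivity
  · refine le_trans a2 ?_
    nlinarith

theorem HF_zero (c α : ℝ → ℝ) (β : ℝ) (x : Fin 0 → Pt) : HF c α β (Fin 0) x = 0 := by
  simp [HF, Ham, U, A, SS]

theorem ZF_zero {c α : ℝ → ℝ} (β : ℝ) (S : Set Pt) : ZF (HF c α β) S 0 = 1 := by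
  unfold ZF
  simp only [HF_zero]
  simp [volume_pi]

/-- multi-set superadditivity for sets at mutual distance at least `2` -/
theorem prod_ZF_le {c α : ℝ → ℝ} {β : ℝ} (hcm : Measurable c) (hαm : Measurable α) (hβ : 0 ≤ β)
    (hα : ∀ r, 0 ≤ α r) (hc : ∀ r, 2 ≤ r → c r = 0) {ι : Type*} (Q : ι → Set Pt)
    (hQ : ∀ v, MeasurableSet (Q v)) (hd : ∀ v w, v ≠ w → ∀ x ∈ Q v, ∀ y ∈ Q w, 2 ≤ dist x y)
    (n : ι → ℕ) (T : Finset ι) :
    ∏ v ∈ T, ZF (HF c α β) (Q v) (n v) ≤ ZF (HF c α β) (⋃ v ∈ T, Q v) (∑ v ∈ T, n v) := by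
  classical
  induction T using Finset.induction_on with
  | empty => simp [ZF_zero]
  | insert v T hv ih =>
    rw [Finset.prod_insert hv, Finset.sum_insert hv, Finset.set_biUnion_insert]
    have hfar : ∀ x ∈ Q v, ∀ y ∈ ⋃ w ∈ T, Q w, 2 ≤ dist x y := by
      intro x hx y hy
      simp only [Set.mem_iUnion] at hy
      obtain ⟨w, hw, hy⟩ := hy
      exact hd v w (fun h => hv (h ▸ hw)) x hx y hy
    have hdis : Disjoint (Q v) (⋃ w ∈ T, Q w) := by
      rw [Set.disjoint_left]
      intro x hx hx'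
      have := hfar x hx x hx'
      rw [dist_self] at this
      linarith
    refine le_trans (mul_le_mul' le_rfl ih) ?_
    refine splitLower (HF c α β) (famOK_HF hcm hαm β) _ _ (hQ v)
      (Finset.measurableSet_biUnion T (fun w _ => hQ w)) hdis ?_ _ _
    intro κ _ q _ x h1 h2
    exact HF_superadd hβ hα hc hfar κ q x h1 h2

theorem superAdd : SuperAddStmt := by
  intro c α B β hc hα hs hβ L j hL hj n
  have hcube : volume (cube L) ≠ 0 := by
    rw [volume_cube]; simp [hL]
  have hcube' : ∀ L', volume (cube L') ≠ ⊤ := by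
    intro L'; rw [volume_cube]; simp
  have hOK := famOK_HF hc.meas hα.meas β
  have e1 : ∀ v : Fin 3 → Fin j, ZF (HF c α β) (tcube L v) (n v) = ZF (HF c α β) (cube L) (n v) :=
    fun v => ZF_translate (HF_translate c α β) _ _ _
  have key := prod_ZF_le hc.meas hα.meas hβ.le hα.nonneg hc.far (tcube L (j := j))
    (measurableSet_tcube L) (fun v w hvw x hx y hy => tcube_dist hL.le hvw x hx y hy) n Finset.univ
  have hsub : (⋃ v ∈ (Finset.univ : Finset (Fin 3 → Fin j)), tcube L v) ⊆ cube (j * (L + 2) - 2) := by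
    intro x hx
    simp only [Set.mem_iUnion] at hx
    obtain ⟨v, _, hx⟩ := hx
    exact tcube_subset hL.le v hx
  have key2 := le_trans key (ZF_mono _ hsub _)
  simp only [e1] at key2
  unfold LZ
  rw [← Real.log_prod]
  · refine Real.log_le_log ?_ ?_
    · refine Finset.prod_pos (fun v _ => ?_)
      exact ENNReal.toReal_pos (ZF_pos hOK hcube _).ne' (ZF_ne_top hc.nonneg hs hβ.le (hcube' L) _)
    · rw [← ENNReal.toReal_prod]
      exact ENNReal.toReal_mono (ZF_ne_top hc.nonneg hs hβ.le (hcube' _) _) key2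
  · intro v _
    exact (ENNReal.toReal_pos (ZF_pos hOK hcube _).ne'
      (ZF_ne_top hc.nonneg hs hβ.le (hcube' L) _)).ne'

end Crest.Agent.R149
end

-- ▼ part R149/CellFactor
section

/-!
Cell factorisation of partition sums for subadditive families (used in `LPUpperStmt`).
-/

set_option autoImplicit false

open MeasureTheory Crest.ProbabilityR.Continuum
open scoped ENNReal

namespace Crest.Agent.R149

theorem ZF_empty_le {F : Fam} (h0 : ∀ x : Fin 0 → Pt, F (Fin 0) x ≤ 0) (N : ℕ) (t : ℝ) :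
    ENNReal.ofReal (Real.exp (t * N)) * ZF F (∅ : Set Pt) N ≤ 1 := by
  unfold ZF
  rcases Nat.eq_zero_or_pos N with h | h
  · subst h
    simp only [Nat.cast_zero, mul_zero, Real.exp_zero, ENNReal.ofReal_one, one_mul,
      Nat.factorial_zero, Nat.cast_one, inv_one]
    have h1 : ∫⁻ x in Set.pi Set.univ (fun _ : Fin 0 => (∅ : Set Pt)),
        ENNReal.ofReal (Real.exp (F (Fin 0) x)) ≤
        ∫⁻ _ in Set.pi Set.univ (fun _ : Fin 0 => (∅ : Set Pt)), 1 := by
      refine lintegral_mono (fun x => ?_)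
      rw [← ENNReal.ofReal_one]
      exact ENNReal.ofReal_le_ofReal (Real.exp_le_one_iff.2 (h0 x))
    refine le_trans h1 ?_
    simp [volume_pi]
  · have h2 : Set.pi Set.univ (fun _ : Fin N => (∅ : Set Pt)) = ∅ := by
      rw [Set.univ_pi_eq_empty_iff]
      exact ⟨⟨0, h⟩, rfl⟩
    rw [h2]
    simp

/-- **Cell factorisation**: grand canonical upper bound for a family that is subadditive across
every partition of the particles compatible with the cells. -/
theorem cell_factor {κ : Type*} {F : Fam} (hF : FamOK F) (A : κ → Set Pt)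
    (hA : ∀ c, MeasurableSet (A c)) (hd : Pairwise (Function.onFun Disjoint A))
    (h0 : ∀ x : Fin 0 → Pt, F (Fin 0) x ≤ 0) (T : Finset κ)
    (h : ∀ (ι : Type) [Fintype ι] (q : ι → Prop) [DecidablePred q] (x : ι → Pt),
      (∀ i, x i ∈ ⋃ c ∈ T, A c) →
      (∀ c ∈ T, ∀ i j, x i ∈ A c → x j ∈ A c → (q i ↔ q j)) →
      F ι x ≤ F {i // q i} (fun i => x i) + F {i // ¬ q i} (fun i => x i))
    (t : ℝ) (N : ℕ) :
    ENNReal.ofReal (Real.exp (t * N)) * ZF F (⋃ c ∈ T, A c) N ≤
      ∏ c ∈ T, ∑' n : ℕ, ENNReal.ofReal (Real.exp (t * n)) * ZF F (A c) n := by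
  classical
  induction T using Finset.induction_on generalizing N with
  | empty =>
    simp only [Finset.notMem_empty, Set.iUnion_of_empty, Set.iUnion_empty, Finset.prod_empty]
    exact ZF_empty_le h0 N t
  | insert c T hc ih =>
    rw [Finset.prod_insert hc, Finset.set_biUnion_insert]
    have hdis : Disjoint (A c) (⋃ c' ∈ T, A c') := by
      rw [Set.disjoint_iUnion₂_right]
      intro c' hc'
      exact hd (fun h => hc (h ▸ hc'))
    have ihT := ih (by
      intro ι _ q _ x hx hq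
      refine h ι q x (fun i => ?_) ?_
      · rw [Finset.set_biUnion_insert]; exact Or.inr (hx i)
      · intro c' hc' i j hi hj
        rcases Finset.mem_insert.1 hc' with rfl | hc'
        · exact absurd (hx i) (Set.disjoint_left.1 hdis hi)
        · exact hq c' hc' i j hi hj)
    have hsplit := splitUpper F hF (A c) (⋃ c' ∈ T, A c') (hA c)
      (Finset.measurableSet_biUnion T (fun c' _ => hA c')) hdis (by
        intro ι _ q _ x h1 h2
        refine h ι q x (fun i => ?_) ?_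
        · rw [Finset.set_biUnion_insert]
          by_cases hi : q i
          · exact Or.inl (h1 i hi)
          · exact Or.inr (h2 i hi)
        · intro c' hc' i j hi hj
          rcases Finset.mem_insert.1 hc' with rfl | hc'
          · have hqi : q i := by
              by_contra hn
              exact Set.disjoint_left.1 hdis hi (h2 i hn)
            have hqj : q j := by
              by_contra hn
              exact Set.disjoint_left.1 hdis hj (h2 j hn)
            simp [hqi, hqj]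
          · have hmem : ∀ k, x k ∈ A c' → x k ∈ ⋃ c'' ∈ T, A c'' := by
              intro k hk
              simp only [Set.mem_iUnion]
              exact ⟨c', hc', hk⟩
            have hqi : ¬ q i := fun hn => Set.disjoint_left.1 hdis (h1 i hn) (hmem i hi)
            have hqj : ¬ q j := fun hn => Set.disjoint_left.1 hdis (h1 j hn) (hmem j hj)
            simp [hqi, hqj]) N
    calc ENNReal.ofReal (Real.exp (t * N)) * ZF F (A c ∪ ⋃ c' ∈ T, A c') N
        ≤ ENNReal.ofReal (Real.exp (t * N)) * ∑ k ∈ Finset.range (N + 1),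
            ZF F (A c) k * ZF F (⋃ c' ∈ T, A c') (N - k) := mul_le_mul' le_rfl hsplit
      _ = ∑ k ∈ Finset.range (N + 1), (ENNReal.ofReal (Real.exp (t * k)) * ZF F (A c) k) *
            (ENNReal.ofReal (Real.exp (t * ((N - k : ℕ) : ℝ))) *
              ZF F (⋃ c' ∈ T, A c') (N - k)) := by
          rw [Finset.mul_sum]
          refine Finset.sum_congr rfl (fun k hk => ?_)
          have hk' : k ≤ N := by simpa [Nat.lt_succ_iff] using hk
          have e1 : ENNReal.ofReal (Real.exp (t * N)) = ENNReal.ofReal (Real.exp (t * k)) *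
              ENNReal.ofReal (Real.exp (t * ((N - k : ℕ) : ℝ))) := by
            rw [← ENNReal.ofReal_mul (Real.exp_nonneg _), ← Real.exp_add]
            congr 2
            rw [Nat.cast_sub hk']; ring
          rw [e1]; ring
      _ ≤ ∑ k ∈ Finset.range (N + 1), (ENNReal.ofReal (Real.exp (t * k)) * ZF F (A c) k) *
            ∏ c ∈ T, ∑' n : ℕ, ENNReal.ofReal (Real.exp (t * n)) * ZF F (A c) n :=
          Finset.sum_le_sum (fun k _ => mul_le_mul' le_rfl (ihT (N - k)))
      _ = (∑ k ∈ Finset.range (N + 1), ENNReal.ofReal (Real.exp (t * k)) * ZF F (A c) k) *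
            ∏ c ∈ T, ∑' n : ℕ, ENNReal.ofReal (Real.exp (t * n)) * ZF F (A c) n := by
          rw [Finset.sum_mul]
      _ ≤ _ := mul_le_mul' (ENNReal.sum_le_tsum _) le_rfl

theorem ZF_congr {F G : Fam} {S : Set Pt} (hS : MeasurableSet S) (n : ℕ)
    (h : ∀ x : Fin n → Pt, (∀ i, x i ∈ S) → F (Fin n) x = G (Fin n) x) :
    ZF F S n = ZF G S n := by
  unfold ZF
  congr 1
  refine setLIntegral_congr_fun (MeasurableSet.univ_pi (fun _ => hS)) (fun x hx => ?_)
  rw [h x (fun i => hx i (Set.mem_univ i))]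


/-- half-open cube `[0,s)^3` -/
def hcube (s : ℝ) : Set Pt := {y | ∀ k : Fin 3, 0 ≤ y k ∧ y k < s}

theorem hcube_subset (s : ℝ) : hcube s ⊆ cube s := fun _ hy k => ⟨(hy k).1, (hy k).2.le⟩

theorem measurableSet_hcube (s : ℝ) : MeasurableSet (hcube s) := by
  unfold hcube
  rw [Set.ofPred_forall]
  refine MeasurableSet.iInter (fun k => ?_)
  have h : Measurable (fun x : Pt => x k) := by fun_prop
  exact (measurableSet_le measurable_const h).inter (measurableSet_lt h measurable_const)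

theorem cellset_eq {s : ℝ} (hs : 0 < s) (z : Fin 3 → ℝ) (v : Fin 3 → ℤ) :
    {y : Pt | cell s z y = v} =
      {y : Pt | y + (WithLp.toLp 2 (fun k => z k - s * (v k : ℝ)) : Pt) ∈ hcube s} := by
  ext y
  simp only [Set.mem_ofPred_eq, hcube, PiLp.add_apply]
  rw [funext_iff]
  refine forall_congr' (fun k => ?_)
  unfold cell
  rw [Int.floor_eq_iff, le_div_iff₀ hs, div_lt_iff₀ hs]
  constructor
  · rintro ⟨h1, h2⟩; constructor <;> linarith
  · rintro ⟨h1, h2⟩; constructor <;> linarith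

theorem measurableSet_cellset {s : ℝ} (hs : 0 < s) (z : Fin 3 → ℝ) (v : Fin 3 → ℤ) :
    MeasurableSet {y : Pt | cell s z y = v} := by
  rw [cellset_eq hs]
  exact (measurableSet_hcube s).preimage (measurable_add_const _)

/-- partition sum of a cell = partition sum of the half-open cube -/
theorem ZF_cellset {F : Fam}
    (hF : ∀ (n : ℕ) (x : Fin n → Pt) (t : Pt), F (Fin n) (fun i => x i + t) = F (Fin n) x)
    {s : ℝ} (hs : 0 < s) (z : Fin 3 → ℝ) (v : Fin 3 → ℤ) (n : ℕ) :
    ZF F {y : Pt | cell s z y = v} n = ZF F (hcube s) n := by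
  rw [cellset_eq hs]
  exact ZF_translate hF _ _ _

/-- within-cell family on a cell = block family on the half-open cube -/
theorem ZF_cellset_of_eq {F G : Fam}
    (hG : ∀ (n : ℕ) (x : Fin n → Pt) (t : Pt), G (Fin n) (fun i => x i + t) = G (Fin n) x)
    {s : ℝ} (hs : 0 < s) (z : Fin 3 → ℝ) (v : Fin 3 → ℤ) (n : ℕ)
    (h : ∀ x : Fin n → Pt, (∀ i, cell s z (x i) = v) → F (Fin n) x = G (Fin n) x) :
    ZF F {y : Pt | cell s z y = v} n = ZF G (hcube s) n := by
  rw [← ZF_cellset hG hs z v n]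
  exact ZF_congr (measurableSet_cellset hs z v) n h

theorem pairwise_disjoint_cellset (s : ℝ) (z : Fin 3 → ℝ) :
    Pairwise (Function.onFun Disjoint (fun v : Fin 3 → ℤ => {y : Pt | cell s z y = v})) := by
  intro v w hvw
  rw [Function.onFun, Set.disjoint_left]
  intro y hy hy'
  exact hvw (hy.symm.trans hy')

end Crest.Agent.R149
end

-- ▼ part R149/LPUpperA

/-!
# LPUpper, part A: configuration-wise inequality and cell additivity
-/

set_option autoImplicit false

open MeasureTheory Crest.ProbabilityR.Continuum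
open scoped ENNReal

namespace Crest.Agent.R149.LPU

open Classical in
/-- double sum over pairs in the same cell of a kernel -/
noncomputable def SK (k : Pt → Pt → ℝ) (s : ℝ) (z : Fin 3 → ℝ) {ι : Type} [Fintype ι]
    (x : ι → Pt) : ℝ :=
  ∑ i, ∑ j, if cell s z (x i) = cell s z (x j) then k (x i) (x j) else 0

theorem SC_eq_SK (g : ℝ → ℝ) (s : ℝ) (z : Fin 3 → ℝ) {ι : Type} [Fintype ι] (x : ι → Pt) :
    SC g s z x = SK (fun a b => g (dist a b)) s z x := rfl

theorem N2_eq_SK (s : ℝ) (z : Fin 3 → ℝ) {ι : Type} [Fintype ι] (x : ι → Pt) :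
    N2 s z x = SK (fun _ _ => 1) s z x := rfl

theorem SK_perm (k : Pt → Pt → ℝ) (s : ℝ) (z : Fin 3 → ℝ) {ι κ : Type} [Fintype ι] [Fintype κ]
    (e : ι ≃ κ) (x : κ → Pt) : SK k s z (fun i => x (e i)) = SK k s z x := by
  unfold SK
  rw [← e.sum_comp]
  refine Finset.sum_congr rfl (fun i _ => ?_)
  rw [← e.sum_comp]

theorem measurable_cell (s : ℝ) (z : Fin 3 → ℝ) : Measurable (cell s z) := by
  unfold cell
  refine measurable_pi_lambda _ (fun k => ?_)
  refine Int.measurable_floor.comp ?_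
  refine Measurable.div_const (Measurable.add_const ?_ _) _
  exact (measurable_pi_apply k).comp (WithLp.measurable_ofLp 2 (Fin 3 → ℝ))

theorem measurable_SK {k : Pt → Pt → ℝ} (hk : Measurable (fun p : Pt × Pt => k p.1 p.2)) (s : ℝ)
    (z : Fin 3 → ℝ) (ι : Type) [Fintype ι] : Measurable (fun x : ι → Pt => SK k s z x) := by
  unfold SK
  refine Finset.measurable_sum _ (fun i _ => Finset.measurable_sum _ (fun j _ => ?_))
  refine Measurable.ite ?_ ?_ measurable_const
  · have h1 : Measurable (fun x : ι → Pt => cell s z (x i)) :=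
      (measurable_cell s z).comp (measurable_pi_apply i)
    have h2 : Measurable (fun x : ι → Pt => cell s z (x j)) :=
      (measurable_cell s z).comp (measurable_pi_apply j)
    exact measurableSet_eq_fun h1 h2
  · have h3 : Measurable (fun x : ι → Pt => (x i, x j)) :=
      (measurable_pi_apply i).prodMk (measurable_pi_apply j)
    exact hk.comp h3

/-- additivity when the predicate separates the cells -/
theorem SK_split (k : Pt → Pt → ℝ) (s : ℝ) (z : Fin 3 → ℝ) {ι : Type} [Fintype ι]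
    (q : ι → Prop) [DecidablePred q] (x : ι → Pt)
    (hq : ∀ i j, q i → ¬ q j → cell s z (x i) ≠ cell s z (x j)) :
    SK k s z x = SK k s z (fun i : {i // q i} => x i) + SK k s z (fun i : {i // ¬ q i} => x i) := by
  unfold SK
  rw [← Fintype.sum_subtype_add_sum_subtype q]
  congr 1
  · refine Finset.sum_congr rfl (fun i _ => ?_)
    rw [← Fintype.sum_subtype_add_sum_subtype q]
    have : ∑ j : {j // ¬ q j}, (if cell s z (x i) = cell s z (x j) then k (x i) (x j) else 0) = 0 := by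
      refine Finset.sum_eq_zero (fun j _ => ?_)
      rw [if_neg (hq i j i.2 j.2)]
    rw [this, add_zero]
  · refine Finset.sum_congr rfl (fun i _ => ?_)
    rw [← Fintype.sum_subtype_add_sum_subtype q]
    have : ∑ j : {j // q j}, (if cell s z (x i) = cell s z (x j) then k (x i) (x j) else 0) = 0 := by
      refine Finset.sum_eq_zero (fun j _ => ?_)
      rw [if_neg (fun h => hq j i j.2 i.2 h.symm)]
    rw [this, zero_add]

theorem SK_le_of_nonneg {g : ℝ → ℝ} (hg : ∀ r, 0 ≤ g r) (s : ℝ) (z : Fin 3 → ℝ) {ι : Type}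
    [Fintype ι] (x : ι → Pt) : SC g s z x ≤ SS g x := by
  unfold SC SS
  refine Finset.sum_le_sum (fun i _ => Finset.sum_le_sum (fun j _ => ?_))
  split_ifs
  · exact le_rfl
  · exact hg _

theorem SC_of_same (g : ℝ → ℝ) (s : ℝ) (z : Fin 3 → ℝ) {ι : Type} [Fintype ι] (x : ι → Pt)
    (h : ∀ i j, cell s z (x i) = cell s z (x j)) : SC g s z x = SS g x := by
  unfold SC SS
  refine Finset.sum_congr rfl (fun i _ => Finset.sum_congr rfl (fun j _ => ?_))
  rw [if_pos (h i j)]

theorem N2_of_same (s : ℝ) (z : Fin 3 → ℝ) {ι : Type} [Fintype ι] (x : ι → Pt)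
    (h : ∀ i j, cell s z (x i) = cell s z (x j)) : N2 s z x = (Fintype.card ι : ℝ) ^ 2 := by
  unfold N2
  have : ∀ i : ι, ∑ j, (if cell s z (x i) = cell s z (x j) then (1 : ℝ) else 0) = Fintype.card ι := by
    intro i
    rw [Finset.sum_congr rfl (fun j _ => if_pos (h i j))]
    simp
  rw [Finset.sum_congr rfl (fun i _ => this i)]
  simp; ring

/-- the cell family: `-β U` restricted to cells, `β (1+κ) A α` restricted to cells, and a mean-field
term `γ N2`. -/
noncomputable def FZ (c α : ℝ → ℝ) (β κ γ s : ℝ) (z : Fin 3 → ℝ) : Fam := fun ι _ x =>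
  -β * ((SC c s z x - Fintype.card ι * c 0) / 2) + β * (1 + κ) * (SC α s z x / 2) + γ * N2 s z x

/-- the block family -/
noncomputable def FB (c α : ℝ → ℝ) (β κ γ : ℝ) : Fam := fun ι _ x =>
  -β * U c x + β * (1 + κ) * A α x + γ * (Fintype.card ι : ℝ) ^ 2

theorem FZ_of_same (c α : ℝ → ℝ) (β κ γ s : ℝ) (z : Fin 3 → ℝ) {ι : Type} [Fintype ι] (x : ι → Pt)
    (h : ∀ i j, cell s z (x i) = cell s z (x j)) : FZ c α β κ γ s z ι x = FB c α β κ γ ι x := by
  unfold FZ FB U A
  rw [SC_of_same c s z x h, SC_of_same α s z x h, N2_of_same s z x h]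

theorem famOK_FZ {c α : ℝ → ℝ} (hc : Measurable c) (hα : Measurable α) (β κ γ s : ℝ)
    (z : Fin 3 → ℝ) : FamOK (FZ c α β κ γ s z) where
  meas := fun ι _ => by
    unfold FZ
    simp only [SC_eq_SK, N2_eq_SK]
    have h1 := measurable_SK (k := fun a b => c (dist a b)) (hc.comp measurable_dist) s z ι
    have h2 := measurable_SK (k := fun a b => α (dist a b)) (hα.comp measurable_dist) s z ι
    have h3 := measurable_SK (k := fun _ _ => (1 : ℝ)) measurable_const s z ι
    exact ((((h1.sub_const _).div_const _).const_mul _).add ((h2.div_const _).const_mul _)).add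
      (h3.const_mul _)
  perm := fun ι κ' _ _ e x => by
    unfold FZ
    simp only [SC_eq_SK, N2_eq_SK]
    rw [SK_perm, SK_perm, SK_perm, Fintype.card_congr e]

theorem card_split (ι : Type) [Fintype ι] (q : ι → Prop) [DecidablePred q] :
    (Fintype.card ι : ℝ) = Fintype.card {i // q i} + Fintype.card {i // ¬ q i} := by
  rw [Fintype.card_subtype_compl]
  have := Fintype.card_subtype_le q
  push_cast [this]; ring

theorem FZ_split (c α : ℝ → ℝ) (β κ γ s : ℝ) (z : Fin 3 → ℝ) {ι : Type} [Fintype ι]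
    (q : ι → Prop) [DecidablePred q] (x : ι → Pt)
    (hq : ∀ i j, q i → ¬ q j → cell s z (x i) ≠ cell s z (x j)) :
    FZ c α β κ γ s z ι x = FZ c α β κ γ s z {i // q i} (fun i => x i) +
      FZ c α β κ γ s z {i // ¬ q i} (fun i => x i) := by
  unfold FZ
  simp only [SC_eq_SK, N2_eq_SK]
  rw [SK_split _ s z q x hq, SK_split _ s z q x hq, SK_split _ s z q x hq, card_split ι q]
  ring

theorem A_add_mul (α g : ℝ → ℝ) (a : ℝ) {ι : Type} [Fintype ι] (x : ι → Pt) :
    A (fun r => α r + a * g r) x = A α x + a * A g x := by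
  unfold A SS
  simp only [Finset.sum_add_distrib, ← Finset.mul_sum]
  ring

/-- existence of a good shift -/
theorem exists_shift (hE2 : E2Stmt) (hDec : DecoupleStmt) {c α : ℝ → ℝ} {R' R a β : ℝ} {ℓ : ℕ}
    (hc : ∀ r, 0 ≤ c r) (hα : ∀ r, 0 ≤ α r) (hfar : ∀ t, 2 * R' ≤ t → α t = 0) (hR' : 0 ≤ R')
    (hR : 0 < R) (ha : 0 ≤ a) (hℓ : 1 ≤ ℓ) (hℓ' : 4 * (4 * R' + 3) ≤ ℓ) (hβ : 0 ≤ β)
    {ι : Type} [Fintype ι] (x : ι → Pt) :
    ∃ z : Fin 3 → Fin ℓ, HF c (fun r => α r + a * wk R r) β ι x ≤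
      FZ c α β ((4 / 3) * ((4 * R' + 3) / ℓ)) (β * a * ((1 + 2 * ℓ / R) ^ 6 / (2 * (ℓ : ℝ) ^ 3))) ℓ
        (fun k => ((z k : ℕ) : ℝ)) ι x := by
  have hℓ0 : (0 : ℝ) < ℓ := by exact_mod_cast hℓ
  set κ : ℝ := (4 / 3) * ((4 * R' + 3) / ℓ) with hκ
  set γ : ℝ := β * a * ((1 + 2 * ℓ / R) ^ 6 / (2 * (ℓ : ℝ) ^ 3)) with hγ
  have hq4 : (4 * R' + 3) / ℓ ≤ 1 / 4 := by
    rw [div_le_iff₀ hℓ0]; linarith
  have hq0 : 0 ≤ (4 * R' + 3) / (ℓ : ℝ) := by positivity
  have hD := hDec α (2 * R') ℓ hα (by linarith) hfar hℓ ι x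
  -- average
  have hne : (Finset.univ : Finset (Fin 3 → Fin ℓ)).Nonempty := by
    have : Nonempty (Fin ℓ) := ⟨⟨0, hℓ⟩⟩
    exact Finset.univ_nonempty
  have hcard : ((Finset.univ : Finset (Fin 3 → Fin ℓ)).card : ℝ) = (ℓ : ℝ) ^ 3 := by
    simp
  obtain ⟨z, -, hz⟩ := Finset.exists_max_image Finset.univ
    (fun z : Fin 3 → Fin ℓ => SC α ℓ (fun k => ((z k : ℕ) : ℝ)) x / 2) hne
  refine ⟨z, ?_⟩
  have hmax : (∑ z : Fin 3 → Fin ℓ, SC α ℓ (fun k => ((z k : ℕ) : ℝ)) x / 2) / (ℓ : ℝ) ^ 3 ≤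
      SC α ℓ (fun k => ((z k : ℕ) : ℝ)) x / 2 := by
    rw [div_le_iff₀ (by positivity)]
    calc _ ≤ ∑ _z : Fin 3 → Fin ℓ, SC α ℓ (fun k => ((z k : ℕ) : ℝ)) x / 2 :=
          Finset.sum_le_sum (fun w hw => hz w hw)
      _ = _ := by rw [Finset.sum_const, nsmul_eq_mul, hcard]; ring
  have hA : A α x ≤ (1 + κ) * (SC α ℓ (fun k => ((z k : ℕ) : ℝ)) x / 2) := by
    have h1 : (1 - (4 * R' + 3) / ℓ) * A α x ≤ SC α ℓ (fun k => ((z k : ℕ) : ℝ)) x / 2 := by
      refine le_trans (le_of_eq ?_) (hD.trans hmax)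
      congr 2
      ring
    have hS0 : 0 ≤ SC α ℓ (fun k => ((z k : ℕ) : ℝ)) x / 2 := by
      unfold SC
      refine div_nonneg (Finset.sum_nonneg fun i _ => Finset.sum_nonneg fun j _ => ?_) (by norm_num)
      split_ifs
      · exact hα _
      · exact le_rfl
    have hA0 : 0 ≤ A α x := by
      unfold A SS
      exact div_nonneg (Finset.sum_nonneg fun i _ => Finset.sum_nonneg fun j _ => hα _)
        (by norm_num)
    have h2 : (1 + κ) * ((1 - (4 * R' + 3) / ℓ) * A α x) ≤
        (1 + κ) * (SC α ℓ (fun k => ((z k : ℕ) : ℝ)) x / 2) :=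
      mul_le_mul_of_nonneg_left h1 (by positivity)
    refine le_trans ?_ h2
    have h3 : 1 ≤ (1 + κ) * (1 - (4 * R' + 3) / ℓ) := by
      rw [hκ]; nlinarith
    calc A α x = 1 * A α x := (one_mul _).symm
      _ ≤ ((1 + κ) * (1 - (4 * R' + 3) / ℓ)) * A α x := mul_le_mul_of_nonneg_right h3 hA0
      _ = _ := by ring
  have hE := hE2 R ℓ (fun k => ((z k : ℕ) : ℝ)) hR hℓ0 ι x
  have hU : (SC c ℓ (fun k => ((z k : ℕ) : ℝ)) x - Fintype.card ι * c 0) / 2 ≤ U c x := by
    unfold U
    have := SK_le_of_nonneg hc ℓ (fun k => ((z k : ℕ) : ℝ)) x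
    linarith
  unfold HF Ham FZ
  rw [A_add_mul]
  have e1 : β * ((SC c ℓ (fun k => ((z k : ℕ) : ℝ)) x - Fintype.card ι * c 0) / 2) ≤ β * U c x :=
    mul_le_mul_of_nonneg_left hU hβ
  have e2 : β * A α x ≤ β * ((1 + κ) * (SC α ℓ (fun k => ((z k : ℕ) : ℝ)) x / 2)) :=
    mul_le_mul_of_nonneg_left hA hβ
  have e3 : β * a * A (wk R) x ≤ β * a * ((1 + 2 * ℓ / R) ^ 6 / (2 * (ℓ : ℝ) ^ 3) *
      N2 ℓ (fun k => ((z k : ℕ) : ℝ)) x) :=
    mul_le_mul_of_nonneg_left hE (mul_nonneg hβ ha)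
  rw [hγ]
  nlinarith [e1, e2, e3]

end Crest.Agent.R149.LPU
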