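import Mathlib
import Crest.Agent.R149.LPUpperA_Mg
import Crest.Agent.R149.BaseLower_Mg
import Crest.Agent.R149.Kernel
import Crest.Agent.R149.LZProps
import Crest.Agent.R149.PrProps

-- ▼ part R149/LPUpperB
section

/-!
# LPUpper, part B: product bound over the cells
-/

set_option autoImplicit false

open MeasureTheory Crest.ProbabilityR.Continuum
open scoped ENNReal

namespace Crest.Agent.R149.LPU

/-- the one-cell grand canonical sum -/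
noncomputable def XiB (c α : ℝ → ℝ) (β κ γ h : ℝ) (ℓ : ℕ) : ℝ≥0∞ :=
  ∑' n : ℕ, ENNReal.ofReal (Real.exp (h * n)) * ZF (FB c α β κ γ) (hcube ℓ) n

theorem FB_translate (c α : ℝ → ℝ) (β κ γ : ℝ) (n : ℕ) (x : Fin n → Pt) (t : Pt) :
    FB c α β κ γ (Fin n) (fun i => x i + t) = FB c α β κ γ (Fin n) x := by
  unfold FB U A SS
  simp

theorem sum_shift_le {c α : ℝ → ℝ} {R' R a β : ℝ} {ℓ : ℕ} (hE2 : E2Stmt) (hDec : DecoupleStmt)
    (hcm : Measurable c) (hαm : Measurable α)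
    (hc : ∀ r, 0 ≤ c r) (hα : ∀ r, 0 ≤ α r) (hfar : ∀ t, 2 * R' ≤ t → α t = 0) (hR' : 0 ≤ R')
    (hR : 0 < R) (ha : 0 ≤ a) (hℓ : 1 ≤ ℓ) (hℓ' : 4 * (4 * R' + 3) ≤ ℓ) (hβ : 0 ≤ β)
    (S : Set Pt) (N : ℕ) :
    ZF (HF c (fun r => α r + a * wk R r) β) S N ≤
      ∑ z : Fin 3 → Fin ℓ, ZF (FZ c α β ((4 / 3) * ((4 * R' + 3) / ℓ))
        (β * a * ((1 + 2 * ℓ / R) ^ 6 / (2 * (ℓ : ℝ) ^ 3))) ℓ (fun k => ((z k : ℕ) : ℝ))) S N := by
  unfold ZF
  rw [← Finset.mul_sum]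
  refine mul_le_mul' le_rfl ?_
  rw [← lintegral_finsetSum _ (fun z _ =>
    ((famOK_FZ hcm hαm β ((4 / 3) * ((4 * R' + 3) / ℓ))
      (β * a * ((1 + 2 * ℓ / R) ^ 6 / (2 * (ℓ : ℝ) ^ 3))) ℓ
        (fun k => ((z k : ℕ) : ℝ))).meas (Fin N)).exp.ennreal_ofReal)]
  refine lintegral_mono (fun x => ?_)
  obtain ⟨z, hz⟩ := exists_shift hE2 hDec hc hα hfar hR' hR ha hℓ hℓ' hβ x
  refine le_trans (ENNReal.ofReal_le_ofReal (Real.exp_le_exp.2 hz)) ?_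
  exact Finset.single_le_sum (f := fun z : Fin 3 → Fin ℓ => ENNReal.ofReal (Real.exp
    (FZ c α β ((4 / 3) * ((4 * R' + 3) / ℓ))
      (β * a * ((1 + 2 * ℓ / R) ^ 6 / (2 * (ℓ : ℝ) ^ 3))) ℓ
        (fun k => ((z k : ℕ) : ℝ)) (Fin N) x))) (fun _ _ => zero_le) (Finset.mem_univ z)

theorem FZ_bound {c α : ℝ → ℝ} {β κ γ h : ℝ} {ℓ : ℕ} (hcm : Measurable c) (hαm : Measurable α)
    (hℓ : 1 ≤ ℓ) (z : Fin 3 → Fin ℓ) {L : ℝ} (_hL : 0 < L) (N : ℕ) :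
    ENNReal.ofReal (Real.exp (h * N)) *
      ZF (FZ c α β κ γ ℓ (fun k => ((z k : ℕ) : ℝ))) (cube L) N ≤
      XiB c α β κ γ h ℓ ^ ((⌊L / ℓ⌋₊ + 2) ^ 3) := by
  have hℓ0 : (0 : ℝ) < ℓ := by exact_mod_cast hℓ
  set zz : Fin 3 → ℝ := fun k => ((z k : ℕ) : ℝ) with hzz
  set T : Finset (Fin 3 → ℤ) :=
    Fintype.piFinset (fun _ : Fin 3 => Finset.Icc (0 : ℤ) ((⌊L / ℓ⌋₊ : ℤ) + 1)) with hT
  have hTcard : T.card = (⌊L / ℓ⌋₊ + 2) ^ 3 := by
    rw [hT, Fintype.card_piFinset]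
    simp only [Int.card_Icc, Finset.prod_const, Finset.card_univ, Fintype.card_fin]
    congr 1
  have hcover : cube L ⊆ ⋃ v ∈ T, {y : Pt | cell ℓ zz y = v} := by
    intro y hy
    simp only [Set.mem_iUnion, exists_prop]
    refine ⟨cell ℓ zz y, ?_, rfl⟩
    rw [hT, Fintype.mem_piFinset]
    intro k
    obtain ⟨h1, h2⟩ := hy k
    have hz0 : (0 : ℝ) ≤ zz k := Nat.cast_nonneg _
    have hz1 : zz k < ℓ := by
      show ((z k : ℕ) : ℝ) < ℓ
      exact_mod_cast (z k).2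
    rw [Finset.mem_Icc]
    constructor
    · show 0 ≤ ⌊(y k + zz k) / ℓ⌋
      exact Int.floor_nonneg.2 (by positivity)
    · show ⌊(y k + zz k) / ℓ⌋ ≤ _
      rw [← Int.lt_add_one_iff, Int.floor_lt]
      push_cast
      rw [div_lt_iff₀ hℓ0]
      have h3 := Nat.lt_floor_add_one (L / (ℓ : ℝ))
      rw [div_lt_iff₀ hℓ0] at h3
      nlinarith
  have hkey := cell_factor (famOK_FZ hcm hαm β κ γ ℓ zz)
    (fun v : Fin 3 → ℤ => {y : Pt | cell ℓ zz y = v})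
    (fun v => measurableSet_cellset hℓ0 zz v) (pairwise_disjoint_cellset ℓ zz)
    (by
      intro x
      simp [FZ, SC, N2]) T
    (by
      intro ι _ q _ x hx hq
      refine le_of_eq (FZ_split c α β κ γ ℓ zz q x ?_)
      intro i j hi hj hij
      have hxi := hx i
      simp only [Set.mem_iUnion, exists_prop] at hxi
      obtain ⟨v, hv, hiv⟩ := hxi
      have hjv : x j ∈ {y : Pt | cell ℓ zz y = v} := by
        show cell ℓ zz (x j) = v
        rw [← hij]; exact hiv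
      exact hj ((hq v hv i j hiv hjv).1 hi)) h N
  calc ENNReal.ofReal (Real.exp (h * N)) * ZF (FZ c α β κ γ ℓ zz) (cube L) N
      ≤ ENNReal.ofReal (Real.exp (h * N)) *
          ZF (FZ c α β κ γ ℓ zz) (⋃ v ∈ T, {y : Pt | cell ℓ zz y = v}) N :=
        mul_le_mul' le_rfl (ZF_mono _ hcover N)
    _ ≤ _ := hkey
    _ = ∏ _v ∈ T, XiB c α β κ γ h ℓ := by
        refine Finset.prod_congr rfl (fun v _ => ?_)
        unfold XiB
        refine tsum_congr (fun n => ?_)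
        congr 1
        exact ZF_cellset_of_eq (FB_translate c α β κ γ) hℓ0 zz v n
          (fun x hx => FZ_of_same c α β κ γ ℓ zz x (fun i j => (hx i).trans (hx j).symm))
    _ = _ := by rw [Finset.prod_const, hTcard]

/-- the volume bound for the full Hamiltonian -/
theorem volume_bound {c α : ℝ → ℝ} {R' R a β : ℝ} {ℓ : ℕ} (hE2 : E2Stmt) (hDec : DecoupleStmt)
    (hcm : Measurable c) (hαm : Measurable α)
    (hc : ∀ r, 0 ≤ c r) (hα : ∀ r, 0 ≤ α r) (hfar : ∀ t, 2 * R' ≤ t → α t = 0) (hR' : 0 ≤ R')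
    (hR : 0 < R) (ha : 0 ≤ a) (hℓ : 1 ≤ ℓ) (hℓ' : 4 * (4 * R' + 3) ≤ ℓ) (hβ : 0 ≤ β) (h : ℝ)
    {L : ℝ} (hL : 0 < L) (N : ℕ) :
    ENNReal.ofReal (Real.exp (h * N)) * ZF (HF c (fun r => α r + a * wk R r) β) (cube L) N ≤
      (ℓ : ℝ≥0∞) ^ 3 * XiB c α β ((4 / 3) * ((4 * R' + 3) / ℓ))
        (β * a * ((1 + 2 * ℓ / R) ^ 6 / (2 * (ℓ : ℝ) ^ 3))) h ℓ ^ ((⌊L / ℓ⌋₊ + 2) ^ 3) := by
  calc _ ≤ ENNReal.ofReal (Real.exp (h * N)) * ∑ z : Fin 3 → Fin ℓ,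
        ZF (FZ c α β ((4 / 3) * ((4 * R' + 3) / ℓ))
        (β * a * ((1 + 2 * ℓ / R) ^ 6 / (2 * (ℓ : ℝ) ^ 3))) ℓ (fun k => ((z k : ℕ) : ℝ)))
          (cube L) N :=
        mul_le_mul' le_rfl
          (sum_shift_le hE2 hDec hcm hαm hc hα hfar hR' hR ha hℓ hℓ' hβ (cube L) N)
    _ ≤ ∑ _z : Fin 3 → Fin ℓ, XiB c α β ((4 / 3) * ((4 * R' + 3) / ℓ))
        (β * a * ((1 + 2 * ℓ / R) ^ 6 / (2 * (ℓ : ℝ) ^ 3))) h ℓ ^ ((⌊L / ℓ⌋₊ + 2) ^ 3) := by
        rw [Finset.mul_sum]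
        exact Finset.sum_le_sum (fun z _ => FZ_bound hcm hαm hℓ z hL N)
    _ = _ := by
        rw [Finset.sum_const, nsmul_eq_mul]
        congr 1
        simp

end Crest.Agent.R149.LPU
end

-- ▼ part R149/LPUpperC
section

/-!
# LPUpper, part C: the terms with `n ≤ 16 K ℓ^3` particles in a cell
-/

set_option autoImplicit false

open MeasureTheory Crest.ProbabilityR.Continuum
open scoped ENNReal

namespace Crest.Agent.R149.LPU

theorem wk_nonneg (R r : ℝ) : 0 ≤ wk R r := by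
  unfold wk
  positivity

theorem attrBound_of_add {α : ℝ → ℝ} {R a a1 : ℝ} (ha : 0 ≤ a)
    (h : AttrBound (fun r => α r + a * wk R r) a1) : AttrBound α a1 := by
  refine ⟨h.1, fun ι _ x => le_trans ?_ (h.2 ι x)⟩
  rw [A_add_mul]
  have : 0 ≤ A (wk R) x := by
    unfold A SS
    exact div_nonneg (Finset.sum_nonneg fun i _ => Finset.sum_nonneg fun j _ => wk_nonneg _ _)
      (by norm_num)
  nlinarith [mul_nonneg ha this]

theorem stab_of {c α : ℝ → ℝ} {K : ℕ} {M a1 : ℝ} (hSS : SuperStabStmt)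
    (hc : ∀ r, 0 ≤ c r) (hK : 1 ≤ K) (ha1 : 0 < a1) (hM : 16 * K * a1 ≤ M) (hCK : CoreK c K M)
    (hb : AttrBound α a1) : Stab c α (K * a1) := by
  have hK0 : (0 : ℝ) < K := by exact_mod_cast hK
  have hM0 : 0 < M := lt_of_lt_of_le (by positivity) hM
  refine ⟨by positivity, ?_⟩
  intro ι _ x
  have h := hSS c K M hc hK hM0.le hCK ι x
  have h2 := hb.2 ι x
  have hU : 0 ≤ U c x := U_nonneg hc x
  have h3 : N2 (1 / 2) 0 x / (2 * K) - Fintype.card ι / 2 ≤ U c x / M := by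
    rw [le_div_iff₀ hM0]; linarith
  have h4 : N2 (1 / 2) 0 x ≤ (U c x / M + Fintype.card ι / 2) * (2 * K) := by
    rw [← div_le_iff₀ (by positivity)]; linarith
  have h5 : a1 * (2 * K) * (U c x / M) ≤ (1 / 4) * U c x := by
    rw [mul_div_assoc', div_le_iff₀ hM0]
    nlinarith [mul_nonneg hU hK0.le, mul_nonneg (mul_nonneg hU hK0.le) ha1.le,
      mul_le_mul_of_nonneg_left hM hU]
  calc A α x ≤ a1 * N2 (1 / 2) 0 x := h2
    _ ≤ a1 * ((U c x / M + Fintype.card ι / 2) * (2 * K)) := mul_le_mul_of_nonneg_left h4 ha1.le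
    _ = a1 * (2 * K) * (U c x / M) + K * a1 * Fintype.card ι := by ring
    _ ≤ (1 / 4) * U c x + K * a1 * Fintype.card ι := by linarith

theorem FB_le_stab {c α : ℝ → ℝ} {β κ γ B : ℝ} (hc : ∀ r, 0 ≤ c r) (hs : Stab c α B) (hβ : 0 ≤ β)
    (hκ : 0 ≤ κ) {ι : Type} [Fintype ι] (x : ι → Pt) :
    FB c α β κ γ ι x ≤ HF c α (β * (1 - κ)) ι x +
      (2 * β * κ * B * Fintype.card ι + γ * (Fintype.card ι : ℝ) ^ 2) := by
  unfold FB HF Ham
  have h1 := hs.2 ι x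
  have h2 : 0 ≤ U c x := U_nonneg hc x
  have h3 : 0 ≤ β * κ := mul_nonneg hβ hκ
  nlinarith [mul_le_mul_of_nonneg_left h1 h3, mul_nonneg h3 h2]

theorem ZF_FB_le {c α : ℝ → ℝ} {β κ γ B : ℝ} (hc : ∀ r, 0 ≤ c r) (hs : Stab c α B) (hβ : 0 ≤ β)
    (hκ : 0 ≤ κ) (ℓ : ℝ) (n : ℕ) :
    ZF (FB c α β κ γ) (hcube ℓ) n ≤
      ENNReal.ofReal (Real.exp (2 * β * κ * B * n + γ * (n : ℝ) ^ 2)) *
        ZF (HF c α (β * (1 - κ))) (cube ℓ) n := by
  refine le_trans ?_ (mul_le_mul' le_rfl (ZF_mono _ (hcube_subset ℓ) n))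
  unfold ZF
  rw [mul_left_comm]
  refine mul_le_mul' le_rfl ?_
  rw [← lintegral_const_mul' _ _ ENNReal.ofReal_ne_top]
  refine lintegral_mono (fun x => ?_)
  rw [← ENNReal.ofReal_mul (Real.exp_nonneg _), ← Real.exp_add]
  refine ENNReal.ofReal_le_ofReal (Real.exp_le_exp.2 ?_)
  have := FB_le_stab (γ := γ) hc hs hβ hκ x
  simp only [Fintype.card_fin] at this
  linarith

theorem ZF_eq_exp_LZ {c α : ℝ → ℝ} {B β : ℝ} (hp : LZProps c α B β) {L : ℝ} (hL : 0 < L) (n : ℕ) :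
    ZF (HF c α β) (cube L) n = ENNReal.ofReal (Real.exp (LZ c α β L n)) := by
  unfold LZ
  rw [Real.exp_log (ENNReal.toReal_pos (hp.pos L n hL).ne' (hp.fin L n hL)),
    ENNReal.ofReal_toReal (hp.fin L n hL)]

theorem LZ_le_Pr {c α : ℝ → ℝ} {B β : ℝ} (hp : PrProps c α B) (hβ : 0 < β) {ℓ : ℕ} (hℓ : 1 ≤ ℓ)
    (n : ℕ) (h : ℝ) : h * n + LZ c α β ℓ n ≤ ((ℓ : ℝ) + 2) ^ 3 * Pr c α β h := by
  have h1 := le_ciSup (hp.bdd β h hβ) (ℓ - 1, n)
  simp only [] at h1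
  have h2 : (((ℓ - 1 : ℕ) : ℝ)) = (ℓ : ℝ) - 1 := by
    rw [Nat.cast_sub hℓ]; simp
  rw [h2, div_le_iff₀ (by
    have : (1 : ℝ) ≤ ℓ := by exact_mod_cast hℓ
    positivity)] at h1
  have h3 : (ℓ : ℝ) - 1 + 1 = ℓ := by ring
  have h4 : (ℓ : ℝ) - 1 + 3 = ℓ + 2 := by ring
  rw [h3, h4] at h1
  unfold Pr
  linarith

/-- the convexity comparison, in the form proved in `LPConv` -/
def PrCompare : Prop :=
  ∀ (P : ℝ → ℝ → ℝ), ConvexOn ℝ {x : ℝ × ℝ | 0 < x.1} (fun x => P x.1 x.2) →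
    (∀ β h, 0 < β → 0 ≤ P β h) → ∀ B : ℝ, 0 ≤ B → (∀ β h, 0 < β → P β h ≤ Real.exp (h + β * B)) →
    ∀ β κ t h0 Δ H0 D : ℝ, 0 < β → β ≤ 3 / 2 → 0 ≤ κ → 2 * κ ≤ t → 0 < t → t ≤ 1 → h0 ≤ H0 →
      Δ ≤ D * t → 0 ≤ D → P (β * (1 - κ)) (h0 + Δ) ≤ P β h0 + t * Real.exp (H0 + D + 3 / 2 * B)

theorem pow_six_bound {x : ℝ} (h0 : 0 ≤ x) (h1 : x ≤ 1) : (1 + 2 * x) ^ 6 - 1 ≤ 728 * x := by
  have h2 : x ^ 2 ≤ x := by nlinarith
  have h3 : x ^ 3 ≤ x := by nlinarith [pow_nonneg h0 2]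
  have h4 : x ^ 4 ≤ x := by nlinarith [pow_nonneg h0 3]
  have h5 : x ^ 5 ≤ x := by nlinarith [pow_nonneg h0 4]
  have h6 : x ^ 6 ≤ x := by nlinarith [pow_nonneg h0 5]
  nlinarith

theorem small_term (hCmp : PrCompare) {c α : ℝ → ℝ} {β κ γ B : ℝ} (hc : ∀ r, 0 ≤ c r)
    (hs : Stab c α B) (hLZ : ∀ β', 0 < β' → LZProps c α B β') (hPr : PrProps c α B)
    {K : ℕ} {a1 H R' R a h y : ℝ} {ℓ : ℕ} (hR' : 0 ≤ R') (ha1 : 0 < a1)
    (hR : 0 < R) (ha : 0 ≤ a) (haa : a ≤ a1) (hℓ : 1 ≤ ℓ) (hℓ' : 4 * (4 * R' + 3) ≤ ℓ)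
    (hℓR : (ℓ : ℝ) ≤ R) (hβ : 1 / 2 ≤ β) (hβ2 : β ≤ 3 / 2) (hh : h ≤ H)
    (hκ : κ = (4 / 3) * ((4 * R' + 3) / ℓ))
    (hγ : γ = β * a * ((1 + 2 * ℓ / R) ^ 6 / (2 * (ℓ : ℝ) ^ 3)))
    (hy : ∀ m : ℝ, 0 ≤ m → m ≤ 16 * K → Pr c α β (h + β * a * m) - β * a * m ^ 2 / 2 ≤ y)
    (n : ℕ) (hn : (n : ℝ) ≤ 16 * K * (ℓ : ℝ) ^ 3) :
    ENNReal.ofReal (Real.exp (h * n)) * ZF (FB c α β κ γ) (hcube ℓ) n ≤
      ENNReal.ofReal (Real.exp ((ℓ : ℝ) ^ 3 * (y + 37 * Real.exp ((H + 24 * a1 * K) +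
        (3 / 2 * B + 17472 * K * a1) + 3 / 2 * B) * ((R' + 1) / ℓ + ℓ / R)))) := by
  have hB : 0 ≤ B := hs.1
  have hℓ0 : (0 : ℝ) < ℓ := by exact_mod_cast hℓ
  have hℓ1 : (1 : ℝ) ≤ ℓ := by exact_mod_cast hℓ
  have hK0 : (0 : ℝ) ≤ K := Nat.cast_nonneg _
  have hβ0 : 0 < β := by linarith
  set e : ℝ := (R' + 1) / ℓ + ℓ / R with he
  have he1 : (R' + 1) / ℓ ≤ e := by
    rw [he]; have : 0 ≤ (ℓ : ℝ) / R := by positivity
    linarith
  have he2 : (ℓ : ℝ) / R ≤ e := by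
    rw [he]; have : 0 ≤ (R' + 1) / (ℓ : ℝ) := by positivity
    linarith
  have he0 : 0 < e := by rw [he]; positivity
  have hκ0 : 0 ≤ κ := by rw [hκ]; positivity
  have hκ3 : κ ≤ 1 / 3 := by
    rw [hκ]
    have : (4 * R' + 3) / (ℓ : ℝ) ≤ 1 / 4 := by rw [div_le_iff₀ hℓ0]; linarith
    linarith
  have hκe : 2 * κ ≤ 11 * e := by
    rw [hκ]
    have h1 : (4 * R' + 3) / (ℓ : ℝ) ≤ 4 * ((R' + 1) / ℓ) := by
      rw [mul_div_assoc']
      exact div_le_div_of_nonneg_right (by linarith) hℓ0.le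
    linarith
  have hx0 : 0 ≤ (ℓ : ℝ) / R := by positivity
  have hx1 : (ℓ : ℝ) / R ≤ 1 := by rw [div_le_one hR]; exact hℓR
  set m : ℝ := n / (ℓ : ℝ) ^ 3 with hm
  have hm0 : 0 ≤ m := by rw [hm]; positivity
  have hm1 : m ≤ 16 * K := by
    rw [hm, div_le_iff₀ (by positivity)]; exact hn
  have hnm : (n : ℝ) = m * (ℓ : ℝ) ^ 3 := by
    rw [hm]; field_simp
  set a' : ℝ := a * (1 + 2 * (ℓ / R)) ^ 6 with ha'
  have ha'1 : a' - a ≤ 728 * a1 * (ℓ / R) := by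
    have h1 := pow_six_bound hx0 hx1
    have h2 : a * ((1 + 2 * (ℓ / R)) ^ 6 - 1) ≤ a1 * (728 * (ℓ / R)) :=
      mul_le_mul haa h1 (by
        have : 1 ≤ (1 + 2 * ((ℓ : ℝ) / R)) ^ 6 := one_le_pow₀ (by linarith)
        linarith) ha1.le
    rw [ha']; linarith
  have haa' : a ≤ a' := by
    rw [ha']
    have : 1 ≤ (1 + 2 * ((ℓ : ℝ) / R)) ^ 6 := one_le_pow₀ (by linarith)
    nlinarith
  have hγ' : γ * (n : ℝ) ^ 2 = β * a' * m ^ 2 / 2 * (ℓ : ℝ) ^ 3 := by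
    rw [hγ, hnm, ha']
    have : (2 : ℝ) * ℓ / R = 2 * (ℓ / R) := by ring
    rw [this]
    field_simp
  set h0 : ℝ := h + β * a * m with hh0
  set Δ : ℝ := 2 * β * κ * B + β * (a' - a) * m with hΔ
  set t : ℝ := min 1 (11 * e) with ht
  have ht0 : 0 < t := lt_min one_pos (by positivity)
  have ht1 : t ≤ 1 := min_le_left _ _
  have hte : t ≤ 11 * e := min_le_right _ _
  have hκt : 2 * κ ≤ t := le_min (by linarith) hκe
  have hxt : (ℓ : ℝ) / R ≤ t := le_min hx1 (by linarith)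
  set D : ℝ := 3 / 2 * B + 17472 * K * a1 with hD
  have hD0 : 0 ≤ D := by rw [hD]; positivity
  have hΔD : Δ ≤ D * t := by
    have h1 : 2 * β * κ * B ≤ 3 / 2 * B * t := by
      have h1' : β * (2 * κ) ≤ 3 / 2 * t := mul_le_mul hβ2 hκt (by positivity) (by norm_num)
      calc 2 * β * κ * B = β * (2 * κ) * B := by ring
        _ ≤ 3 / 2 * t * B := mul_le_mul_of_nonneg_right h1' hB
        _ = _ := by ring
    have h2 : β * (a' - a) * m ≤ 17472 * K * a1 * t := by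
      calc β * (a' - a) * m ≤ (3 / 2) * (728 * a1 * (ℓ / R)) * (16 * K) := by
            apply mul_le_mul _ hm1 hm0 (by positivity)
            exact mul_le_mul hβ2 ha'1 (by linarith) (by norm_num)
        _ = 17472 * K * a1 * (ℓ / R) := by ring
        _ ≤ _ := by
            apply mul_le_mul_of_nonneg_left hxt (by positivity)
    have h3 : D * t = 3 / 2 * B * t + 17472 * K * a1 * t := by rw [hD]; ring
    rw [h3]
    exact add_le_add h1 h2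
  set H0 : ℝ := H + 24 * a1 * K with hH0
  have hh0H : h0 ≤ H0 := by
    have h1 : β * a * m ≤ (3 / 2) * a1 * (16 * K) := by
      apply mul_le_mul _ hm1 hm0 (by positivity)
      exact mul_le_mul hβ2 haa ha (by norm_num)
    rw [hh0, hH0]; linarith
  have hβ' : 0 < β * (1 - κ) := mul_pos hβ0 (by linarith)
  set E : ℝ := Real.exp (H0 + D + 3 / 2 * B) with hE
  have hE0 : 0 < E := Real.exp_pos _
  have hcmp : Pr c α (β * (1 - κ)) (h0 + Δ) ≤ Pr c α β h0 + t * E :=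
    hCmp (Pr c α) hPr.conv hPr.nonneg B hB hPr.le_exp β κ t h0 Δ H0 D hβ0 hβ2 hκ0 hκt ht0 ht1
      hh0H hΔD hD0
  have hPE : Pr c α (β * (1 - κ)) (h0 + Δ) ≤ E := by
    refine le_trans (hPr.le_exp _ _ hβ') (Real.exp_le_exp.2 ?_)
    have h1 : β * (1 - κ) * B ≤ 3 / 2 * B := by
      apply mul_le_mul_of_nonneg_right _ hB
      have : β * (1 - κ) ≤ β * 1 := mul_le_mul_of_nonneg_left (by linarith only [hκ0]) hβ0.le
      linarith only [this, hβ2]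
    have h2 : Δ ≤ D := hΔD.trans (mul_le_of_le_one_right hD0 ht1)
    linarith only [h1, h2, hh0H]
  have hPn : 0 ≤ Pr c α (β * (1 - κ)) (h0 + Δ) := hPr.nonneg _ _ hβ'
  have hLZle := LZ_le_Pr hPr hβ' hℓ n (h0 + Δ)
  clear_value e m a' t D H0 E
  -- main estimate of the exponent
  have hmain : h * n + (2 * β * κ * B * n + γ * (n : ℝ) ^ 2) + LZ c α (β * (1 - κ)) ℓ n ≤
      (ℓ : ℝ) ^ 3 * (y + 37 * E * e) := by
    have e1 : h * n + (2 * β * κ * B * n + γ * (n : ℝ) ^ 2) - (h0 + Δ) * n =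
        -(β * a' * m ^ 2 / 2 * (ℓ : ℝ) ^ 3) := by
      rw [hγ', hh0, hΔ, hnm]; ring
    clear_value h0 Δ
    have e2 : h * n + (2 * β * κ * B * n + γ * (n : ℝ) ^ 2) + LZ c α (β * (1 - κ)) ℓ n ≤
        ((ℓ : ℝ) + 2) ^ 3 * Pr c α (β * (1 - κ)) (h0 + Δ) - β * a' * m ^ 2 / 2 * (ℓ : ℝ) ^ 3 := by
      linarith only [e1, hLZle]
    have e3 : ((ℓ : ℝ) + 2) ^ 3 ≤ (ℓ : ℝ) ^ 3 + 26 * (ℓ : ℝ) ^ 3 * (1 / ℓ) := by
      have h1 : 26 * (ℓ : ℝ) ^ 3 * (1 / ℓ) = 26 * (ℓ : ℝ) ^ 2 := by field_simp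
      rw [h1]
      nlinarith only [sq_nonneg ((ℓ : ℝ) - 1), hℓ1]
    have e4 : 1 / (ℓ : ℝ) ≤ e := by
      refine le_trans ?_ he1
      exact div_le_div_of_nonneg_right (by linarith only [hR']) hℓ0.le
    have hℓ3 : 0 < (ℓ : ℝ) ^ 3 := by positivity
    have e5 : ((ℓ : ℝ) + 2) ^ 3 * Pr c α (β * (1 - κ)) (h0 + Δ) ≤
        (ℓ : ℝ) ^ 3 * (Pr c α (β * (1 - κ)) (h0 + Δ) + 26 * E * e) := by
      calc ((ℓ : ℝ) + 2) ^ 3 * Pr c α (β * (1 - κ)) (h0 + Δ)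
          ≤ ((ℓ : ℝ) ^ 3 + 26 * (ℓ : ℝ) ^ 3 * (1 / ℓ)) * Pr c α (β * (1 - κ)) (h0 + Δ) :=
            mul_le_mul_of_nonneg_right e3 hPn
        _ = (ℓ : ℝ) ^ 3 * (Pr c α (β * (1 - κ)) (h0 + Δ) +
            26 * ((1 / ℓ) * Pr c α (β * (1 - κ)) (h0 + Δ))) := by ring
        _ ≤ _ := by
            apply mul_le_mul_of_nonneg_left _ hℓ3.le
            have : (1 / (ℓ : ℝ)) * Pr c α (β * (1 - κ)) (h0 + Δ) ≤ e * E :=
              mul_le_mul e4 hPE hPn he0.le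
            linarith only [this]
    have e6 : Pr c α β h0 - β * a * m ^ 2 / 2 ≤ y := by rw [hh0]; exact hy m hm0 hm1
    have e7 : β * a * m ^ 2 / 2 ≤ β * a' * m ^ 2 / 2 := by
      have : β * a * m ^ 2 ≤ β * a' * m ^ 2 :=
        mul_le_mul_of_nonneg_right (mul_le_mul_of_nonneg_left haa' hβ0.le) (sq_nonneg _)
      linarith only [this]
    have e8 : t * E ≤ 11 * e * E := mul_le_mul_of_nonneg_right hte hE0.le
    calc _ ≤ ((ℓ : ℝ) + 2) ^ 3 * Pr c α (β * (1 - κ)) (h0 + Δ) -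
          β * a' * m ^ 2 / 2 * (ℓ : ℝ) ^ 3 := e2
      _ ≤ (ℓ : ℝ) ^ 3 * (Pr c α (β * (1 - κ)) (h0 + Δ) + 26 * E * e) -
          β * a' * m ^ 2 / 2 * (ℓ : ℝ) ^ 3 := by linarith only [e5]
      _ = (ℓ : ℝ) ^ 3 * (Pr c α (β * (1 - κ)) (h0 + Δ) + 26 * E * e - β * a' * m ^ 2 / 2) := by
          ring
      _ ≤ _ := by
          apply mul_le_mul_of_nonneg_left _ hℓ3.le
          linarith only [hcmp, e6, e7, e8]
  calc ENNReal.ofReal (Real.exp (h * n)) * ZF (FB c α β κ γ) (hcube ℓ) n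
      ≤ ENNReal.ofReal (Real.exp (h * n)) *
        (ENNReal.ofReal (Real.exp (2 * β * κ * B * n + γ * (n : ℝ) ^ 2)) *
          ZF (HF c α (β * (1 - κ))) (cube ℓ) n) :=
        mul_le_mul' le_rfl (ZF_FB_le hc hs hβ0.le hκ0 ℓ n)
    _ = ENNReal.ofReal (Real.exp (h * n + (2 * β * κ * B * n + γ * (n : ℝ) ^ 2) +
          LZ c α (β * (1 - κ)) ℓ n)) := by
        rw [ZF_eq_exp_LZ (hLZ _ hβ') hℓ0 n, ← ENNReal.ofReal_mul (Real.exp_nonneg _),
          ← ENNReal.ofReal_mul (Real.exp_nonneg _), ← Real.exp_add, ← Real.exp_add]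
        congr 2
        ring
    _ ≤ _ := ENNReal.ofReal_le_ofReal (Real.exp_le_exp.2 hmain)

end Crest.Agent.R149.LPU
end

-- ▼ part R149/LPUpperD
section

/-!
# LPUpper, part D: final assembly
-/

set_option autoImplicit false

open MeasureTheory Crest.ProbabilityR.Continuum
open scoped ENNReal

namespace Crest.Agent.R149.LPU

/-- tail terms (proved in `LPTail`) -/
def TailTerm : Prop :=
  ∀ (K : ℕ) (a1 H : ℝ), 1 ≤ K → 0 < a1 →
    ∃ M0 : ℝ, 0 ≤ M0 ∧ ∀ (c α : ℝ → ℝ) (M : ℝ), CoreOK c → CoreK c K M → M0 ≤ M → AttrOK α →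
      AttrBound α a1 → ∀ (β κ γ : ℝ) (ℓ n : ℕ), 1 / 2 ≤ β → β ≤ 3 / 2 → 0 ≤ κ → κ ≤ 1 / 3 →
        0 ≤ γ → γ ≤ 365 * β * a1 / (ℓ : ℝ) ^ 3 → 1 ≤ ℓ → 16 * (K : ℝ) * (ℓ : ℝ) ^ 3 < n →
          ∀ h ≤ H, ENNReal.ofReal (Real.exp (h * n)) * ZF (FB c α β κ γ) (hcube ℓ) n ≤
            ENNReal.ofReal ((Real.exp 1 / 16) ^ n)

/-- volume limit (proved in `LPVol`) -/
def VolBound : Prop :=
  ∀ (c α : ℝ → ℝ) (B β : ℝ), CoreOK c → AttrOK α → Stab c α B → 0 < β →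
    ∀ (h X D : ℝ) (ℓ : ℕ), 1 ≤ ℓ → 0 ≤ X →
      (∀ L : ℝ, 0 < L → ∀ N : ℕ, h * N + LZ c α β L N ≤ D + ((⌊L / ℓ⌋₊ : ℝ) + 2) ^ 3 * X) →
        Pr c α β h ≤ X / (ℓ : ℝ) ^ 3

/-- proved in `LPConv` -/
def LogCount : Prop :=
  ∀ K : ℕ, ∃ C : ℝ, 0 ≤ C ∧ ∀ ℓ : ℕ, 1 ≤ ℓ →
    Real.log (16 * K * (ℓ : ℝ) ^ 3 + 4) / (ℓ : ℝ) ^ 3 ≤ C / ℓ

theorem XiB_le {c α : ℝ → ℝ} {β κ γ h X : ℝ} {K ℓ : ℕ} (hX : 0 ≤ X)
    (h1 : ∀ n : ℕ, (n : ℝ) ≤ 16 * K * (ℓ : ℝ) ^ 3 →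
      ENNReal.ofReal (Real.exp (h * n)) * ZF (FB c α β κ γ) (hcube ℓ) n ≤
        ENNReal.ofReal (Real.exp X))
    (h2 : ∀ n : ℕ, 16 * (K : ℝ) * (ℓ : ℝ) ^ 3 < n →
      ENNReal.ofReal (Real.exp (h * n)) * ZF (FB c α β κ γ) (hcube ℓ) n ≤
        ENNReal.ofReal ((Real.exp 1 / 16) ^ n)) :
    XiB c α β κ γ h ℓ ≤ ENNReal.ofReal (Real.exp (Real.log (16 * K * (ℓ : ℝ) ^ 3 + 4) + X)) := by
  have hpos : 0 < 16 * (K : ℝ) * (ℓ : ℝ) ^ 3 + 4 := by positivity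
  set n0 : ℕ := 16 * K * ℓ ^ 3 with hn0
  have hn0' : (n0 : ℝ) = 16 * K * (ℓ : ℝ) ^ 3 := by rw [hn0]; push_cast; ring
  have hterm : ∀ n : ℕ, ENNReal.ofReal (Real.exp (h * n)) * ZF (FB c α β κ γ) (hcube ℓ) n ≤
      (if n ∈ Finset.range (n0 + 1) then ENNReal.ofReal (Real.exp X) else 0) +
        ENNReal.ofReal ((Real.exp 1 / 16) ^ n) := by
    intro n
    by_cases hn : n ∈ Finset.range (n0 + 1)
    · rw [if_pos hn]
      refine le_trans (h1 n ?_) le_self_add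
      rw [← hn0']
      have : n ≤ n0 := by simpa [Nat.lt_succ_iff] using hn
      exact_mod_cast this
    · rw [if_neg hn, zero_add]
      refine h2 n ?_
      rw [← hn0']
      have : n0 < n := by simpa using hn
      exact_mod_cast this
  have hgeo : ∑' n : ℕ, ENNReal.ofReal ((Real.exp 1 / 16) ^ n) ≤ ENNReal.ofReal 3 := by
    have hr0 : 0 ≤ Real.exp 1 / 16 := by positivity
    have hr1 : Real.exp 1 / 16 ≤ 1 / 4 := by
      have := Real.exp_one_lt_d9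
      linarith
    rw [← ENNReal.ofReal_tsum_of_nonneg (fun n => by positivity)
      (summable_geometric_of_lt_one hr0 (by linarith))]
    refine ENNReal.ofReal_le_ofReal ?_
    rw [tsum_geometric_of_lt_one hr0 (by linarith)]
    have : (1 - Real.exp 1 / 16) ≥ 3 / 4 := by linarith
    calc (1 - Real.exp 1 / 16)⁻¹ ≤ (3 / 4 : ℝ)⁻¹ := inv_anti₀ (by norm_num) this
      _ ≤ 3 := by norm_num
  calc XiB c α β κ γ h ℓ
      ≤ ∑' n : ℕ, ((if n ∈ Finset.range (n0 + 1) then ENNReal.ofReal (Real.exp X) else 0) +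
        ENNReal.ofReal ((Real.exp 1 / 16) ^ n)) := ENNReal.tsum_le_tsum hterm
    _ = (∑' n : ℕ, (if n ∈ Finset.range (n0 + 1) then ENNReal.ofReal (Real.exp X) else 0)) +
        ∑' n : ℕ, ENNReal.ofReal ((Real.exp 1 / 16) ^ n) := ENNReal.tsum_add
    _ ≤ (n0 + 1 : ℝ≥0∞) * ENNReal.ofReal (Real.exp X) + ENNReal.ofReal 3 := by
        refine add_le_add (le_of_eq ?_) hgeo
        rw [tsum_eq_sum (s := Finset.range (n0 + 1)) (fun n hn => if_neg hn)]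
        rw [Finset.sum_congr rfl (fun n hn => if_pos hn), Finset.sum_const, Finset.card_range,
          nsmul_eq_mul]
        push_cast; rfl
    _ = ENNReal.ofReal ((n0 + 1) * Real.exp X + 3) := by
        rw [ENNReal.ofReal_add (by positivity) (by norm_num), ENNReal.ofReal_mul (by positivity)]
        congr 2
        rw [ENNReal.ofReal_add (by positivity) (by norm_num), ENNReal.ofReal_natCast,
          ENNReal.ofReal_one]
    _ ≤ _ := by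
        refine ENNReal.ofReal_le_ofReal ?_
        rw [Real.exp_add, Real.exp_log hpos, ← hn0']
        have : 1 ≤ Real.exp X := Real.one_le_exp hX
        nlinarith

theorem attrOK_add (hKer : KernelProps) {α : ℝ → ℝ} {R a : ℝ} (hα : AttrOK α) (hR : 0 < R)
    (ha : 0 ≤ a) : AttrOK (fun r => α r + a * wk R r) where
  meas := hα.meas.add ((hKer.cont R hR).measurable.const_mul a)
  nonneg := fun r => add_nonneg (hα.nonneg r) (mul_nonneg ha (hKer.nonneg R r))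
  bdd := by
    obtain ⟨C, hC⟩ := hα.bdd
    exact ⟨C + a * (1 / vB R), fun r => add_le_add (hC r)
      (mul_le_mul_of_nonneg_left (hKer.le R r hR) ha)⟩

/-- from the volume bound in `ℝ≥0∞` to logarithms -/
theorem log_volume {c α' : ℝ → ℝ} {B β h X : ℝ} {L : ℝ} {N ℓ m : ℕ} {ξ : ℝ≥0∞}
    (hp : LZProps c α' B β) (hL : 0 < L) (hℓ : 1 ≤ ℓ)
    (hξ : ξ ≤ ENNReal.ofReal (Real.exp X))
    (hv : ENNReal.ofReal (Real.exp (h * N)) * ZF (HF c α' β) (cube L) N ≤ (ℓ : ℝ≥0∞) ^ 3 * ξ ^ m) :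
    h * N + LZ c α' β L N ≤ Real.log ((ℓ : ℝ) ^ 3) + m * X := by
  have hℓ0 : (0 : ℝ) < ℓ := by exact_mod_cast hℓ
  have h1 : ENNReal.ofReal (Real.exp (h * N + LZ c α' β L N)) ≤
      ENNReal.ofReal ((ℓ : ℝ) ^ 3 * Real.exp (m * X)) := by
    rw [Real.exp_add, ENNReal.ofReal_mul (Real.exp_nonneg _), ← ZF_eq_exp_LZ hp hL N]
    refine hv.trans ?_
    rw [ENNReal.ofReal_mul (by positivity), Real.exp_nat_mul, ENNReal.ofReal_pow (Real.exp_nonneg _),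
      ENNReal.ofReal_pow hℓ0.le, ENNReal.ofReal_natCast]
    exact mul_le_mul' le_rfl (pow_le_pow_left' hξ m)
  have h2 := (ENNReal.ofReal_le_ofReal_iff (by positivity)).1 h1
  have h3 := Real.log_le_log (Real.exp_pos _) h2
  rwa [Real.log_exp, Real.log_mul (by positivity) (by positivity), Real.log_exp] at h3

theorem lpUpper_of (hKer : KernelProps) (hE2 : E2Stmt) (hDec : DecoupleStmt) (hSS : SuperStabStmt)
    (hLZ : LZPropsStmt) (hPr : PrPropsStmt) (hCmp : PrCompare) (hTail : TailTerm)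
    (hVol : VolBound) (hLog : LogCount) : LPUpperStmt := by
  intro K a1 H hK ha1
  obtain ⟨M0, hM00, hM0⟩ := hTail K a1 H hK ha1
  obtain ⟨C6, hC60, hC6⟩ := hLog K
  set B : ℝ := K * a1 with hB
  set E : ℝ := Real.exp ((H + 24 * a1 * K) + (3 / 2 * B + 17472 * K * a1) + 3 / 2 * B) with hE
  have hE0 : 0 < E := Real.exp_pos _
  refine ⟨C6 + 37 * E, M0 + 16 * K * a1, by positivity, by positivity, ?_⟩
  intro c α M R' R a ℓ hc hCK hM hα hfar hR' hR1 ha haa hAB hℓ hℓ' hℓR β h hβ hβ2 hh y hy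
  have hK0 : (0 : ℝ) < K := by exact_mod_cast hK
  have hKa : 0 < 16 * (K : ℝ) * a1 := by positivity
  have hℓ0 : (0 : ℝ) < ℓ := by exact_mod_cast hℓ
  have hR0 : 0 < R := by linarith
  have hβ0 : 0 < β := by linarith
  have hABα : AttrBound α a1 := attrBound_of_add ha hAB
  have hs : Stab c α B := stab_of hSS hc.nonneg hK ha1 (by linarith) hCK hABα
  have hs' : Stab c (fun r => α r + a * wk R r) B :=
    stab_of hSS hc.nonneg hK ha1 (by linarith) hCK hAB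
  have hα' : AttrOK (fun r => α r + a * wk R r) := attrOK_add hKer hα hR0 ha
  have hPrα : PrProps c α B := hPr c α B hc hα hs
  -- `y ≥ 0`
  have hy0 : 0 ≤ y := by
    have h1 := hy 0 le_rfl (by positivity)
    have h2 := hPrα.nonneg β h hβ0
    simp only [mul_zero, add_zero] at h1
    norm_num at h1
    linarith
  set κ : ℝ := (4 / 3) * ((4 * R' + 3) / ℓ) with hκ
  set γ : ℝ := β * a * ((1 + 2 * ℓ / R) ^ 6 / (2 * (ℓ : ℝ) ^ 3)) with hγ
  set e : ℝ := (R' + 1) / ℓ + ℓ / R with he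
  have he0 : 0 < e := by rw [he]; positivity
  set X1 : ℝ := (ℓ : ℝ) ^ 3 * (y + 37 * E * e) with hX1
  have hX10 : 0 ≤ X1 := by rw [hX1]; positivity
  have hκ0 : 0 ≤ κ := by rw [hκ]; positivity
  have hκ3 : κ ≤ 1 / 3 := by
    rw [hκ]
    have : (4 * R' + 3) / (ℓ : ℝ) ≤ 1 / 4 := by rw [div_le_iff₀ hℓ0]; linarith
    linarith
  have hγ0 : 0 ≤ γ := by rw [hγ]; positivity
  have hγ1 : γ ≤ 365 * β * a1 / (ℓ : ℝ) ^ 3 := by
    have h1 : (1 + 2 * (ℓ : ℝ) / R) ^ 6 ≤ 3 ^ 6 := by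
      refine pow_le_pow_left₀ (by positivity) ?_ 6
      have : 2 * (ℓ : ℝ) / R ≤ 2 := by rw [div_le_iff₀ hR0]; linarith
      linarith
    have h2 : β * a * (1 + 2 * (ℓ : ℝ) / R) ^ 6 ≤ β * a1 * 3 ^ 6 :=
      mul_le_mul (mul_le_mul_of_nonneg_left haa hβ0.le) h1 (by positivity) (by positivity)
    have h3 : γ = β * a * (1 + 2 * (ℓ : ℝ) / R) ^ 6 / 2 / (ℓ : ℝ) ^ 3 := by
      rw [hγ]; field_simp
    rw [h3]
    refine div_le_div_of_nonneg_right ?_ (by positivity)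
    have h4 : 0 ≤ β * a1 := by positivity
    linarith only [h2, h4]
  have hXi : XiB c α β κ γ h ℓ ≤
      ENNReal.ofReal (Real.exp (Real.log (16 * K * (ℓ : ℝ) ^ 3 + 4) + X1)) := by
    refine XiB_le hX10 (fun n hn => ?_) (fun n hn => ?_)
    · exact small_term hCmp hc.nonneg hs (fun β' hβ' => hLZ c α B β' hc hα hs hβ') hPrα hR' ha1 hR0
        ha haa hℓ hℓ' hℓR hβ hβ2 hh hκ hγ hy n hn
    · exact hM0 c α M hc hCK (by linarith) hα hABα β κ γ ℓ n hβ hβ2 hκ0 hκ3 hγ0 hγ1 hℓ hn h hh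
  set X : ℝ := Real.log (16 * K * (ℓ : ℝ) ^ 3 + 4) + X1 with hX
  have hX0 : 0 ≤ X := by
    rw [hX]
    have : 0 ≤ Real.log (16 * K * (ℓ : ℝ) ^ 3 + 4) := by
      refine Real.log_nonneg ?_
      have : 0 ≤ 16 * (K : ℝ) * (ℓ : ℝ) ^ 3 := by positivity
      linarith
    linarith
  have hvb : ∀ L : ℝ, 0 < L → ∀ N : ℕ, h * N + LZ c (fun r => α r + a * wk R r) β L N ≤
      Real.log ((ℓ : ℝ) ^ 3) + ((⌊L / ℓ⌋₊ : ℝ) + 2) ^ 3 * X := by
    intro L hL N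
    have h1 := volume_bound hE2 hDec hc.meas hα.meas hc.nonneg hα.nonneg hfar hR' hR0 ha hℓ hℓ'
      hβ0.le h hL N
    have h2 := log_volume (hLZ c _ B β hc hα' hs' hβ0) hL hℓ hXi h1
    refine h2.trans (le_of_eq ?_)
    push_cast
    ring
  have hfin := hVol c _ B β hc hα' hs' hβ0 h X (Real.log ((ℓ : ℝ) ^ 3)) ℓ hℓ hX0 hvb
  refine hfin.trans ?_
  have h3 : X / (ℓ : ℝ) ^ 3 = Real.log (16 * K * (ℓ : ℝ) ^ 3 + 4) / (ℓ : ℝ) ^ 3 + (y + 37 * E * e) := by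
    rw [hX, hX1]; field_simp
  rw [h3]
  have h4 := hC6 ℓ hℓ
  have h5 : C6 / (ℓ : ℝ) ≤ C6 * e := by
    rw [he, div_eq_mul_one_div]
    refine mul_le_mul_of_nonneg_left ?_ hC60
    have h6 : 1 / (ℓ : ℝ) ≤ (R' + 1) / ℓ := div_le_div_of_nonneg_right (by linarith) hℓ0.le
    have h7 : 0 ≤ (ℓ : ℝ) / R := by positivity
    linarith
  linarith only [h4, h5]

end Crest.Agent.R149.LPU
end

-- ▼ part R149/LPConv
section

/-!
# LPUpper, part E: convexity comparison, counting, volume limit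
-/

set_option autoImplicit false

open MeasureTheory Crest.ProbabilityR.Continuum Filter Topology
open scoped ENNReal

namespace Crest.Agent.R149.LPU

theorem prCompare : PrCompare := by
  intro P hconv hnn B hB hexp β κ t h0 Δ H0 D hβ hβ2 hκ hκt ht0 ht hh hΔ hD
  have hs : 0 < 1 - κ / t := by
    have : κ / t ≤ 1 / 2 := by rw [div_le_iff₀ ht0]; linarith
    linarith
  have hx : (β, h0) ∈ {x : ℝ × ℝ | 0 < x.1} := hβ
  have hy : (β * (1 - κ / t), h0 + Δ / t) ∈ {x : ℝ × ℝ | 0 < x.1} := mul_pos hβ hs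
  have hc := hconv.2 hx hy (by linarith : 0 ≤ 1 - t) ht0.le (by ring : (1 - t) + t = 1)
  simp only [Prod.smul_mk, Prod.mk_add_mk, smul_eq_mul] at hc
  have e1 : (1 - t) * β + t * (β * (1 - κ / t)) = β * (1 - κ) := by
    field_simp; ring
  have e2 : (1 - t) * h0 + t * (h0 + Δ / t) = h0 + Δ := by
    field_simp; ring
  rw [e1, e2] at hc
  have h1 : P (β * (1 - κ / t)) (h0 + Δ / t) ≤ Real.exp (H0 + D + 3 / 2 * B) := by
    refine (hexp _ _ (mul_pos hβ hs)).trans (Real.exp_le_exp.2 ?_)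
    have h2 : Δ / t ≤ D := by rw [div_le_iff₀ ht0]; exact hΔ
    have h3 : β * (1 - κ / t) * B ≤ 3 / 2 * B := by
      refine mul_le_mul_of_nonneg_right ?_ hB
      have : 0 ≤ κ / t := by positivity
      nlinarith
    linarith
  have h2 : (1 - t) * P β h0 ≤ P β h0 := by
    have := hnn β h0 hβ
    nlinarith
  have h3 := mul_le_mul_of_nonneg_left h1 ht0.le
  linarith

theorem logCount : LogCount := by
  intro K
  refine ⟨Real.log (16 * K + 4) + 3, ?_, ?_⟩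
  · have : 0 ≤ Real.log (16 * (K : ℝ) + 4) := Real.log_nonneg (by
      have : (0 : ℝ) ≤ K := Nat.cast_nonneg _
      linarith)
    linarith
  · intro ℓ hℓ
    have hℓ1 : (1 : ℝ) ≤ ℓ := by exact_mod_cast hℓ
    have hℓ0 : (0 : ℝ) < ℓ := by linarith
    have hK0 : (0 : ℝ) ≤ K := Nat.cast_nonneg _
    have hlog0 : 0 ≤ Real.log (16 * (K : ℝ) + 4) := Real.log_nonneg (by linarith)
    have h1 : Real.log (16 * K * (ℓ : ℝ) ^ 3 + 4) ≤ Real.log (16 * K + 4) + 3 * ℓ := by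
      have h2 : 16 * K * (ℓ : ℝ) ^ 3 + 4 ≤ (16 * K + 4) * (ℓ : ℝ) ^ 3 := by
        have : 1 ≤ (ℓ : ℝ) ^ 3 := one_le_pow₀ hℓ1
        nlinarith
      refine (Real.log_le_log (by positivity) h2).trans ?_
      rw [Real.log_mul (by positivity) (by positivity), Real.log_pow]
      have h3 : Real.log (ℓ : ℝ) ≤ ℓ := (Real.log_le_sub_one_of_pos hℓ0).trans (by linarith)
      push_cast
      linarith
    rw [div_le_div_iff₀ (by positivity) hℓ0]
    have h4 : Real.log (16 * K * (ℓ : ℝ) ^ 3 + 4) * ℓ ≤ (Real.log (16 * K + 4) + 3 * ℓ) * ℓ :=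
      mul_le_mul_of_nonneg_right h1 hℓ0.le
    refine h4.trans ?_
    have h5 : (ℓ : ℝ) ≤ (ℓ : ℝ) ^ 3 := le_self_pow₀ hℓ1 (by norm_num)
    have h6 : (ℓ : ℝ) * ℓ ≤ (ℓ : ℝ) ^ 3 := by nlinarith [sq_nonneg ((ℓ : ℝ) - 1)]
    nlinarith [mul_le_mul_of_nonneg_left h5 hlog0]

theorem volBound (hSA : SuperAddStmt) : VolBound := by
  intro c α B β hc hα hs hβ h X D ℓ hℓ hX Hb
  have hℓ0 : (0 : ℝ) < ℓ := by exact_mod_cast hℓ
  unfold Pr
  refine ciSup_le (fun q => ?_)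
  obtain ⟨l, n⟩ := q
  simp only []
  set L : ℝ := (l : ℝ) + 1 with hL
  have hL0 : 0 < L := by rw [hL]; positivity
  have hL3 : (l : ℝ) + 3 = L + 2 := by rw [hL]; ring
  rw [hL3]
  -- for each `j ≥ 1`
  have hj : ∀ j : ℕ, 1 ≤ j → (h * n + LZ c α β L n) / (L + 2) ^ 3 ≤
      (D + ((j * (L + 2) - 2) / ℓ + 2) ^ 3 * X) / (j * (L + 2)) ^ 3 := by
    intro j hj1
    have hj0 : (0 : ℝ) < j := by exact_mod_cast hj1
    have hj1' : (1 : ℝ) ≤ j := by exact_mod_cast hj1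
    have h1 := hSA c α B β hc hα hs hβ L j hL0 hj1 (fun _ => n)
    simp only [Finset.sum_const, Finset.card_univ, Fintype.card_pi, Finset.prod_const,
      Fintype.card_fin, smul_eq_mul, nsmul_eq_mul] at h1
    have hLj : 0 < j * (L + 2) - 2 := by nlinarith
    have h2 := Hb (j * (L + 2) - 2) hLj (j ^ 3 * n)
    have h3 : ((⌊(j * (L + 2) - 2) / ℓ⌋₊ : ℝ) + 2) ^ 3 * X ≤
        ((j * (L + 2) - 2) / ℓ + 2) ^ 3 * X := by
      refine mul_le_mul_of_nonneg_right ?_ hX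
      refine pow_le_pow_left₀ (by positivity) ?_ 3
      have := Nat.floor_le (a := (j * (L + 2) - 2) / ℓ) (by positivity)
      linarith
    rw [div_le_div_iff₀ (by positivity) (by positivity)]
    push_cast at h1 h2
    have h4 : (j : ℝ) ^ 3 * (h * n + LZ c α β L n) ≤ D + ((j * (L + 2) - 2) / ℓ + 2) ^ 3 * X := by
      linarith
    have h5 : 0 ≤ (L + 2) ^ 3 := by positivity
    calc (h * n + LZ c α β L n) * (j * (L + 2)) ^ 3
        = ((j : ℝ) ^ 3 * (h * n + LZ c α β L n)) * (L + 2) ^ 3 := by ring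
      _ ≤ _ := mul_le_mul_of_nonneg_right h4 h5
  -- limit `j → ∞`
  have hlim : Tendsto (fun j : ℕ => (D + ((j * (L + 2) - 2) / ℓ + 2) ^ 3 * X) /
      (j * (L + 2)) ^ 3) atTop (𝓝 (X / (ℓ : ℝ) ^ 3)) := by
    have hinv : Tendsto (fun j : ℕ => ((j : ℝ))⁻¹) atTop (𝓝 0) :=
      tendsto_inv_atTop_zero.comp tendsto_natCast_atTop_atTop
    have hLp : 0 < L + 2 := by linarith
    have h1 : Tendsto (fun j : ℕ => (D * ((j : ℝ)⁻¹) ^ 3 +
        (((L + 2) - 2 * (j : ℝ)⁻¹) / ℓ + 2 * (j : ℝ)⁻¹) ^ 3 * X) / (L + 2) ^ 3) atTop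
        (𝓝 ((D * (0 : ℝ) ^ 3 + (((L + 2) - 2 * 0) / ℓ + 2 * 0) ^ 3 * X) / (L + 2) ^ 3)) := by
      refine Tendsto.div_const (Tendsto.add ?_ (Tendsto.mul_const _ (Tendsto.pow ?_ 3))) _
      · exact Tendsto.const_mul _ (hinv.pow 3)
      · exact ((tendsto_const_nhds.sub (hinv.const_mul 2)).div_const _).add (hinv.const_mul 2)
    have h2 : (D * (0 : ℝ) ^ 3 + (((L + 2) - 2 * 0) / ℓ + 2 * 0) ^ 3 * X) / (L + 2) ^ 3 =
        X / (ℓ : ℝ) ^ 3 := by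
      field_simp
      ring
    rw [h2] at h1
    refine h1.congr' ?_
    filter_upwards [eventually_ge_atTop 1] with j hj1
    have hj0 : (0 : ℝ) < j := by exact_mod_cast hj1
    field_simp
  refine ge_of_tendsto hlim ?_
  filter_upwards [eventually_ge_atTop 1] with j hj1
  exact hj j hj1

end Crest.Agent.R149.LPU
end

-- ▼ part R149/LPTail
section

/-!
# LPUpper, tail: blocks with more than `16 K ℓ³` particles
-/

set_option autoImplicit false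

open MeasureTheory Crest.ProbabilityR.Continuum
open scoped ENNReal

namespace Crest.Agent.R149.LPU

theorem cell_half_range {ℓ : ℕ} {y : Pt} (hy : y ∈ hcube (ℓ : ℝ)) (k : Fin 3) :
    0 ≤ cell (1 / 2) 0 y k ∧ cell (1 / 2) 0 y k < (2 * ℓ : ℤ) := by
  obtain ⟨h1, h2⟩ := hy k
  unfold cell
  simp only [Pi.zero_apply, add_zero]
  constructor
  · exact Int.floor_nonneg.2 (by positivity)
  · rw [Int.floor_lt]
    push_cast
    rw [div_lt_iff₀ (by norm_num)]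
    linarith

theorem sq_card_le_aux {n : ℕ} (f : Fin n → (Fin 3 → ℤ)) (B : ℝ)
    (hcard : ((Finset.univ.image f).card : ℝ) ≤ B) :
    (n : ℝ) ^ 2 ≤ B * ∑ c ∈ Finset.univ.image f,
      (((Finset.univ : Finset (Fin n)).filter (fun i => f i = c)).card : ℝ) ^ 2 := by
  have hsum : (n : ℝ) = ∑ c ∈ Finset.univ.image f,
      (((Finset.univ : Finset (Fin n)).filter (fun i => f i = c)).card : ℝ) := by
    have h := Finset.card_eq_sum_card_image f (Finset.univ : Finset (Fin n))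
    rw [Finset.card_univ, Fintype.card_fin] at h
    exact_mod_cast h
  have hcs := sq_sum_le_card_mul_sum_sq (s := Finset.univ.image f)
    (f := fun c => (((Finset.univ : Finset (Fin n)).filter (fun i => f i = c)).card : ℝ))
  rw [← hsum] at hcs
  refine hcs.trans (mul_le_mul_of_nonneg_right hcard ?_)
  exact Finset.sum_nonneg (fun i _ => sq_nonneg _)

theorem card_box (ℓ : ℕ) :
    (Fintype.piFinset (fun _ : Fin 3 => Finset.Ico (0 : ℤ) (2 * ℓ))).card = (2 * ℓ) ^ 3 := by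
  rw [Fintype.card_piFinset]
  have h : (Finset.Ico (0 : ℤ) (2 * ℓ)).card = 2 * ℓ := by
    rw [Int.card_Ico]; omega
  simp only [h, Finset.prod_const, Finset.card_univ, Fintype.card_fin]

theorem N2_ge {ℓ : ℕ} (hℓ : 1 ≤ ℓ) {n : ℕ} (x : Fin n → Pt) (hx : ∀ i, x i ∈ hcube (ℓ : ℝ)) :
    (n : ℝ) ^ 2 / (8 * (ℓ : ℝ) ^ 3) ≤ N2 (1 / 2) 0 x := by
  classical
  have h1 := Attraction.sum_sq_card_fiber (Finset.univ : Finset (Fin n))
    (fun i => cell (1 / 2) 0 (x i))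
  have hsub : Finset.univ.image (fun i : Fin n => cell (1 / 2) 0 (x i)) ⊆
      Fintype.piFinset (fun _ : Fin 3 => Finset.Ico (0 : ℤ) (2 * ℓ)) := by
    intro v hv
    obtain ⟨i, _, rfl⟩ := Finset.mem_image.1 hv
    rw [Fintype.mem_piFinset]
    intro k
    rw [Finset.mem_Ico]
    exact cell_half_range (hx i) k
  have hcard : ((Finset.univ.image (fun i : Fin n => cell (1 / 2) 0 (x i))).card : ℝ) ≤
      8 * (ℓ : ℝ) ^ 3 := by
    have h3 := Finset.card_le_card hsub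
    rw [card_box] at h3
    have h5 : ((Finset.univ.image (fun i : Fin n => cell (1 / 2) 0 (x i))).card : ℝ) ≤
      ((2 * ℓ) ^ 3 : ℕ) := by exact_mod_cast h3
    refine h5.trans (le_of_eq ?_)
    push_cast; ring
  have h2 := sq_card_le_aux (fun i : Fin n => cell (1 / 2) 0 (x i)) _ hcard
  have hl : (0 : ℝ) < ℓ := by exact_mod_cast hℓ
  rw [div_le_iff₀ (by positivity), mul_comm]
  refine h2.trans (le_of_eq ?_)
  exact congrArg _ h1

/-- pure arithmetic behind `FB_le` -/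
theorem arith_aux {U A N n K M L3 b k g a1 H : ℝ} (hK : 1 ≤ K) (ha1 : 0 < a1) (hL : 1 ≤ L3)
    (hn : 16 * K * L3 < n) (hH : 0 ≤ H) (hM : 8 * H + 100000 * K * a1 ≤ M)
    (hb1 : 1 / 2 ≤ b) (hb2 : b ≤ 3 / 2) (hk : 0 ≤ k) (hk1 : k ≤ 1 / 3) (_hg : 0 ≤ g)
    (hg1 : g ≤ 365 * b * a1 / L3)
    (s1 : M * (N / (2 * K) - n / 2) ≤ U) (s2 : n ^ 2 / (8 * L3) ≤ N) (sA : A ≤ a1 * N) :
    -b * U + b * (1 + k) * A + g * n ^ 2 ≤ -(H * n) := by
  have hK0 : 0 < K := by linarith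
  have hL0 : 0 < L3 := by linarith
  have hKa : 0 < K * a1 := mul_pos hK0 ha1
  have hM0 : 0 < M := by nlinarith only [hKa, hM, hH]
  have hb0 : 0 < b := by linarith
  have hn0 : 0 < n := lt_trans (by positivity) hn
  -- q = n^2/(16 K L3)
  obtain ⟨q, hq⟩ : ∃ q : ℝ, q = n ^ 2 / (16 * K * L3) := ⟨_, rfl⟩
  have hq0 : 0 ≤ q := by rw [hq]; positivity
  have e1 : n ≤ q := by
    rw [hq, le_div_iff₀ (by positivity)]
    have := mul_le_mul_of_nonneg_left hn.le hn0.le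
    nlinarith only [this]
  have e2 : n ^ 2 / (8 * L3) = 2 * K * q := by
    rw [hq]; field_simp; ring
  rw [e2] at s2
  have e3 : q ≤ N / (2 * K) := by
    rw [le_div_iff₀ (by positivity)]; linarith
  have e4 : M * (q / 2) ≤ U := by
    refine le_trans (mul_le_mul_of_nonneg_left ?_ hM0.le) s1
    linarith
  have e5 : M * (n / 2) ≤ U := by
    refine le_trans (mul_le_mul_of_nonneg_left ?_ hM0.le) e4
    linarith
  have hU0 : 0 ≤ U := le_trans (by positivity) e5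
  have e6 : N ≤ 2 * K * (U / M) + K * n := by
    have h1 : N / (2 * K) - n / 2 ≤ U / M := by
      rw [le_div_iff₀ hM0]; linarith
    have h2 : N / (2 * K) ≤ U / M + n / 2 := by linarith
    rw [div_le_iff₀ (by positivity)] at h2
    linarith
  have hM8 : 8 * (K * a1) ≤ M := by nlinarith only [hKa, hM, hH]
  have hUM : U / M * (8 * (K * a1)) ≤ U := by
    rw [div_mul_eq_mul_div, div_le_iff₀ hM0]
    exact mul_le_mul_of_nonneg_left hM8 hU0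
  have e7 : A ≤ U / 4 + K * a1 * n := by
    have h1 : a1 * N ≤ a1 * (2 * K * (U / M) + K * n) := mul_le_mul_of_nonneg_left e6 ha1.le
    have h2 : a1 * (2 * K * (U / M) + K * n) = (U / M * (8 * (K * a1))) / 4 + K * a1 * n := by ring
    linarith
  have e8 : g * n ^ 2 ≤ b * (U / 6) := by
    have h1 : g * n ^ 2 ≤ 365 * b * a1 / L3 * n ^ 2 :=
      mul_le_mul_of_nonneg_right hg1 (by positivity)
    have h2 : 365 * b * a1 / L3 * n ^ 2 = b * (11680 * (K * a1) * (q / 2)) := by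
      rw [hq]; field_simp; ring
    have h4 : 70080 * (K * a1) ≤ M := by nlinarith only [hKa, hM, hH]
    have h5 : 70080 * (K * a1) * (q / 2) ≤ M * (q / 2) :=
      mul_le_mul_of_nonneg_right h4 (by positivity)
    have h3 : 11680 * (K * a1) * (q / 2) ≤ U / 6 := by linarith
    have h6 : b * (11680 * (K * a1) * (q / 2)) ≤ b * (U / 6) :=
      mul_le_mul_of_nonneg_left h3 hb0.le
    linarith
  have hA0 : 0 ≤ U / 4 + K * a1 * n := by positivity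
  have e9 : b * (1 + k) * A ≤ b * (4 / 3) * (U / 4 + K * a1 * n) := by
    have h1 : b * (1 + k) * A ≤ b * (1 + k) * (U / 4 + K * a1 * n) :=
      mul_le_mul_of_nonneg_left e7 (mul_nonneg hb0.le (by linarith))
    have h2 : b * (1 + k) * (U / 4 + K * a1 * n) ≤ b * (4 / 3) * (U / 4 + K * a1 * n) :=
      mul_le_mul_of_nonneg_right (mul_le_mul_of_nonneg_left (by linarith) hb0.le) hA0
    linarith
  have e10 : -b * U + b * (1 + k) * A + g * n ^ 2 ≤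
      -(b * U / 2) + b * (4 / 3) * (K * a1 * n) := by
    have h1 : b * (4 / 3) * (U / 4 + K * a1 * n) = b * U / 3 + b * (4 / 3) * (K * a1 * n) := by
      ring
    have h2 : b * (U / 6) = b * U / 6 := by ring
    have h3 : -b * U = -(b * U) := by ring
    linarith
  have hKan : 0 ≤ K * a1 * n := by positivity
  have e11 : b * (4 / 3) * (K * a1 * n) ≤ 2 * (K * a1 * n) := by
    refine mul_le_mul_of_nonneg_right ?_ hKan
    linarith
  have e12 : M * (n / 2) / 4 ≤ b * U / 2 := by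
    have h1 : 1 / 2 * (M * (n / 2)) ≤ b * U :=
      mul_le_mul hb1 e5 (by positivity) hb0.le
    linarith
  have e13 : (H + 2 * (K * a1)) * n ≤ M * (n / 2) / 4 := by
    have h1 : (H + 2 * (K * a1)) * 8 ≤ M := by nlinarith only [hKa, hM, hH]
    have h2 : (H + 2 * (K * a1)) * 8 * n ≤ M * n := mul_le_mul_of_nonneg_right h1 hn0.le
    linarith
  have e14 : (H + 2 * (K * a1)) * n = H * n + 2 * (K * a1 * n) := by ring
  linarith

/-- pointwise bound on a block with many particles -/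
theorem FB_le (hSS : SuperStabStmt) {K : ℕ} {a1 H : ℝ} (hK : 1 ≤ K) (ha1 : 0 < a1)
    {c α : ℝ → ℝ} {M : ℝ} (hc : CoreOK c) (hcK : CoreK c K M)
    (hM : 8 * |H| + 100000 * K * a1 ≤ M) (hα : AttrBound α a1) {β κ γ : ℝ} {ℓ n : ℕ}
    (hβ1 : 1 / 2 ≤ β) (hβ2 : β ≤ 3 / 2) (hκ : 0 ≤ κ) (hκ1 : κ ≤ 1 / 3) (hγ : 0 ≤ γ)
    (hγ1 : γ ≤ 365 * β * a1 / (ℓ : ℝ) ^ 3) (hℓ : 1 ≤ ℓ) (hn : 16 * (K : ℝ) * (ℓ : ℝ) ^ 3 < n)
    (x : Fin n → Pt) (hx : ∀ i, x i ∈ hcube (ℓ : ℝ)) :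
    FB c α β κ γ (Fin n) x ≤ -(|H| * n) := by
  have hKr : (1 : ℝ) ≤ K := by exact_mod_cast hK
  have hl : (1 : ℝ) ≤ ℓ := by exact_mod_cast hℓ
  have hl3 : (1 : ℝ) ≤ (ℓ : ℝ) ^ 3 := one_le_pow₀ hl
  have hM0 : 0 ≤ M := by
    have h1 := abs_nonneg H
    have h2 : 0 < (K : ℝ) * a1 := by positivity
    linarith
  have s1 := hSS c K M hc.nonneg hK hM0 hcK (Fin n) x
  rw [Fintype.card_fin] at s1
  have s2 := N2_ge hℓ x hx
  have sA := hα.2 (Fin n) x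
  have h := arith_aux hKr ha1 hl3 hn (abs_nonneg H) hM hβ1 hβ2 hκ hκ1 hγ hγ1 s1 s2 sA
  have hFB : FB c α β κ γ (Fin n) x =
      -β * U c x + β * (1 + κ) * A α x + γ * (n : ℝ) ^ 2 := by
    unfold FB
    rw [Fintype.card_fin]
  rw [hFB]
  exact h

theorem volume_hcube_le (ℓ : ℕ) : volume (hcube (ℓ : ℝ)) ≤ ENNReal.ofReal ((ℓ : ℝ) ^ 3) := by
  refine le_trans (measure_mono (hcube_subset _)) ?_
  rw [volume_cube, ENNReal.ofReal_pow (Nat.cast_nonneg _)]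

theorem tail_term (hSS : SuperStabStmt) (K : ℕ) (a1 H : ℝ) (hK : 1 ≤ K) (ha1 : 0 < a1) :
    ∃ M0 : ℝ, 0 ≤ M0 ∧ ∀ (c α : ℝ → ℝ) (M : ℝ), CoreOK c → CoreK c K M → M0 ≤ M → AttrOK α →
      AttrBound α a1 → ∀ (β κ γ : ℝ) (ℓ n : ℕ), 1 / 2 ≤ β → β ≤ 3 / 2 → 0 ≤ κ → κ ≤ 1 / 3 → 0 ≤ γ →
      γ ≤ 365 * β * a1 / (ℓ : ℝ) ^ 3 → 1 ≤ ℓ → 16 * (K : ℝ) * (ℓ : ℝ) ^ 3 < n → ∀ h ≤ H,
      ENNReal.ofReal (Real.exp (h * n)) * ZF (FB c α β κ γ) (hcube ℓ) n ≤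
        ENNReal.ofReal ((Real.exp 1 / 16) ^ n) := by
  refine ⟨8 * |H| + 100000 * K * a1, by positivity, ?_⟩
  intro c α M hc hcK hM hαok hα β κ γ ℓ n hβ1 hβ2 hκ hκ1 hγ hγ1 hℓ hn h hh
  have hKr : (1 : ℝ) ≤ K := by exact_mod_cast hK
  have hl : (1 : ℝ) ≤ ℓ := by exact_mod_cast hℓ
  have hl3 : (1 : ℝ) ≤ (ℓ : ℝ) ^ 3 := one_le_pow₀ hl
  have hpt : ∀ x : Fin n → Pt, (∀ i, x i ∈ hcube (ℓ : ℝ)) →
      FB c α β κ γ (Fin n) x ≤ -(h * n) := by
    intro x hx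
    refine le_trans (FB_le hSS hK ha1 hc hcK hM hα hβ1 hβ2 hκ hκ1 hγ hγ1 hℓ hn x hx) ?_
    have h1 : h ≤ |H| := hh.trans (le_abs_self H)
    have h2 : h * n ≤ |H| * n := mul_le_mul_of_nonneg_right h1 (Nat.cast_nonneg n)
    linarith
  have hint : ∫⁻ x in Set.pi Set.univ (fun _ : Fin n => hcube (ℓ : ℝ)),
      ENNReal.ofReal (Real.exp (FB c α β κ γ (Fin n) x)) ≤
      ENNReal.ofReal (Real.exp (-(h * n))) * ENNReal.ofReal (((ℓ : ℝ) ^ 3) ^ n) := by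
    calc ∫⁻ x in Set.pi Set.univ (fun _ : Fin n => hcube (ℓ : ℝ)),
          ENNReal.ofReal (Real.exp (FB c α β κ γ (Fin n) x))
        ≤ ∫⁻ _ in Set.pi Set.univ (fun _ : Fin n => hcube (ℓ : ℝ)),
            ENNReal.ofReal (Real.exp (-(h * n))) := by
          refine setLIntegral_mono' (MeasurableSet.univ_pi (fun _ => measurableSet_hcube _))
            (fun x hx => ?_)
          exact ENNReal.ofReal_le_ofReal (Real.exp_le_exp.2
            (hpt x (fun i => hx i (Set.mem_univ i))))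
      _ = ENNReal.ofReal (Real.exp (-(h * n))) * volume (hcube (ℓ : ℝ)) ^ n := by
          rw [lintegral_const, Measure.restrict_apply_univ, volume_pi, Measure.pi_pi]
          simp
      _ ≤ ENNReal.ofReal (Real.exp (-(h * n))) * ENNReal.ofReal (((ℓ : ℝ) ^ 3) ^ n) := by
          refine mul_le_mul' le_rfl ?_
          rw [ENNReal.ofReal_pow (by positivity)]
          exact pow_le_pow_left' (volume_hcube_le ℓ) n
  unfold ZF
  calc ENNReal.ofReal (Real.exp (h * n)) * ((n.factorial : ℝ≥0∞)⁻¹ *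
        ∫⁻ x in Set.pi Set.univ (fun _ : Fin n => hcube (ℓ : ℝ)),
          ENNReal.ofReal (Real.exp (FB c α β κ γ (Fin n) x)))
      ≤ ENNReal.ofReal (Real.exp (h * n)) * ((n.factorial : ℝ≥0∞)⁻¹ *
        (ENNReal.ofReal (Real.exp (-(h * n))) * ENNReal.ofReal (((ℓ : ℝ) ^ 3) ^ n))) :=
        mul_le_mul' le_rfl (mul_le_mul' le_rfl hint)
    _ = (ENNReal.ofReal (Real.exp (h * n)) * ENNReal.ofReal (Real.exp (-(h * n)))) *
        ((n.factorial : ℝ≥0∞)⁻¹ * ENNReal.ofReal (((ℓ : ℝ) ^ 3) ^ n)) := by ring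
    _ = (n.factorial : ℝ≥0∞)⁻¹ * ENNReal.ofReal (((ℓ : ℝ) ^ 3) ^ n) := by
        rw [← ENNReal.ofReal_mul (Real.exp_nonneg _), ← Real.exp_add, add_neg_cancel, Real.exp_zero,
          ENNReal.ofReal_one, one_mul]
    _ = ENNReal.ofReal (((ℓ : ℝ) ^ 3) ^ n / n.factorial) := by
        rw [ENNReal.ofReal_div_of_pos (by positivity), ENNReal.div_eq_inv_mul,
          ENNReal.ofReal_natCast]
    _ ≤ ENNReal.ofReal ((Real.exp 1 / 16) ^ n) := by
        refine ENNReal.ofReal_le_ofReal ?_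
        have h1 := Real.pow_div_factorial_le_exp (16 * (ℓ : ℝ) ^ 3) (by positivity) n
        have h2 : (16 : ℝ) * (ℓ : ℝ) ^ 3 ≤ n := by nlinarith
        have h3 : Real.exp (16 * (ℓ : ℝ) ^ 3) ≤ Real.exp 1 ^ n := by
          rw [← Real.exp_nat_mul, mul_one]
          exact Real.exp_le_exp.2 h2
        have h4 : ((ℓ : ℝ) ^ 3) ^ n / n.factorial =
            (16 * (ℓ : ℝ) ^ 3) ^ n / n.factorial / 16 ^ n := by
          rw [mul_pow]
          field_simp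
        rw [h4, div_pow]
        exact div_le_div_of_nonneg_right (h1.trans h3) (by positivity)

end Crest.Agent.R149.LPU
end

-- ▼ part R149/LPUpper

/-!
# Row 149: the upper bound for the pressure after adding one scale (`LPUpperStmt`)
-/

set_option autoImplicit false

namespace Crest.Agent.R149.LPU

theorem lpUpper' (hKer : KernelProps) (hE2 : E2Stmt) (hDec : DecoupleStmt) (hSS : SuperStabStmt)
    (hLZ : LZPropsStmt) (hPr : PrPropsStmt) (hSA : SuperAddStmt) : LPUpperStmt :=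
  lpUpper_of hKer hE2 hDec hSS hLZ hPr prCompare
    (fun K a1 H hK ha1 => tail_term hSS K a1 H hK ha1) (volBound hSA) logCount

theorem lpUpper : LPUpperStmt :=
  lpUpper' kernelProps (Attraction.e2 kernelProps) Attraction.decouple SuperStab.superStab
    lzProps (prProps lzProps) superAdd

end Crest.Agent.R149.LPU
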