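import Crest.Agent.R149.Stmts
import Crest.Agent.R149.Packing
import Crest.Agent.R149.Kernel
import Crest.Agent.R149.LPLower_Mg
import Crest.Agent.R149.AbsSplit
import Crest.Agent.R149.PrProps
import Crest.Agent.R149.LPUpper
import Crest.Agent.R149.BaseLower_Mg
import Crest.Agent.R149.LPUpperA_Mg

-- ▼ part R149/BaseUpper
section

/-!
Base upper bound for R149: for a nonnegative radial potential `ψ`, the canonical partition
function of `N` particles in the cube of side `L` is at most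
`(P + 1) * exp (L^3 + P) * v ^ (N - P)`, where `P` bounds the cardinality of every
`1`-separated subset of the cube and `v = ∫_{|y|<1} exp (-β ψ |y|) dy ≤ 1`.

The last section proves `BaseUpperStmt` (module I of `Stmts.lean`).
-/

set_option autoImplicit false

namespace Crest.Agent.R149.BaseUpper

open MeasureTheory Crest.ProbabilityR.Continuum Filter Topology
open scoped ENNReal

/-! ### Fubini for lower integrals of products -/

theorem lintegral_fin_prod {n : ℕ} (f : Fin n → Pt → ℝ≥0∞) (hf : ∀ i, Measurable (f i)) :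
    ∫⁻ x : Fin n → Pt, ∏ i, f i (x i) = ∏ i, ∫⁻ y, f i y := by
  induction n with
  | zero => simp [volume_pi]
  | succ n ih =>
    have hmp := (volume_preserving_piFinSuccAbove (fun _ : Fin (n + 1) => Pt) 0).symm
    rw [← hmp.lintegral_comp_emb (MeasurableEquiv.measurableEmbedding _)]
    simp_rw [MeasurableEquiv.piFinSuccAbove_symm_apply, Fin.insertNthEquiv,
      Fin.prod_univ_succ, Fin.insertNth_zero]
    simp only [Equiv.coe_fn_mk, Fin.cons_zero, Fin.cons_succ, cast_eq]
    rw [Measure.volume_eq_prod]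
    have hg : Measurable (fun y : Fin n → Pt => ∏ i, f i.succ (y i)) :=
      Finset.measurable_prod _ (fun i _ => (hf _).comp (measurable_pi_apply _))
    have h2 := lintegral_prod_mul (μ := (volume : Measure Pt))
      (ν := (volume : Measure (Fin n → Pt))) (hf 0).aemeasurable hg.aemeasurable
    rw [ih _ (fun i => hf _)] at h2
    exact h2

theorem lintegral_pi_prod {ι : Type*} [Fintype ι] (f : ι → Pt → ℝ≥0∞)
    (hf : ∀ i, Measurable (f i)) :
    ∫⁻ x : ι → Pt, ∏ i, f i (x i) = ∏ i, ∫⁻ y, f i y := by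
  classical
  let e := (Fintype.equivFin ι).symm
  have hmp := volume_measurePreserving_piCongrLeft (fun _ : ι => Pt) e
  rw [← hmp.lintegral_comp_emb (MeasurableEquiv.measurableEmbedding _)]
  simp_rw [← e.prod_comp, MeasurableEquiv.coe_piCongrLeft, Equiv.piCongrLeft_apply_apply]
  exact lintegral_fin_prod _ (fun i => hf _)

/-! ### The cube -/

theorem measurableSet_cube (L : ℝ) : MeasurableSet (cube L) := by
  have : cube L = ⋂ k : Fin 3, {x : Pt | 0 ≤ x k ∧ x k ≤ L} := by
    ext x; simp [cube]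
  rw [this]
  refine MeasurableSet.iInter (fun k => ?_)
  have hk : Measurable (fun x : Pt => x k) := by fun_prop
  exact (measurableSet_le measurable_const hk).inter (measurableSet_le hk measurable_const)

theorem volume_cube (L : ℝ) (hL : 0 ≤ L) : volume (cube L) = ENNReal.ofReal (L ^ 3) := by
  have h := (EuclideanSpace.volume_preserving_symm_measurableEquiv_toLp (Fin 3)).measure_preimage
    (s := Set.pi Set.univ (fun _ : Fin 3 => Set.Icc (0 : ℝ) L))
    (MeasurableSet.univ_pi (fun _ => measurableSet_Icc)).nullMeasurableSet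
  have h2 : (⇑(MeasurableEquiv.toLp 2 (Fin 3 → ℝ)).symm ⁻¹'
      Set.pi Set.univ (fun _ : Fin 3 => Set.Icc (0 : ℝ) L)) = cube L := by
    ext x
    simp only [Set.mem_preimage, Set.mem_pi, Set.mem_univ, forall_true_left, Set.mem_Icc, cube,
      Set.mem_ofPred_eq]
    rfl
  rw [h2] at h
  rw [h, volume_pi_pi]
  simp [Real.volume_Icc, ENNReal.ofReal_pow hL]

/-! ### Combinatorics -/

/-- The truncated weight. -/
noncomputable def wt (ψ : ℝ → ℝ) (β : ℝ) (y : Pt) : ℝ≥0∞ :=
  (Metric.ball (0 : Pt) 1).indicator (fun y => ENNReal.ofReal (Real.exp (-β * ψ ‖y‖))) y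

theorem measurable_wt {ψ : ℝ → ℝ} (hψ : Measurable ψ) (β : ℝ) : Measurable (wt ψ β) := by
  refine Measurable.indicator ?_ measurableSet_ball
  exact ENNReal.measurable_ofReal.comp (Real.measurable_exp.comp
    ((hψ.comp measurable_norm).const_mul _))

/-- A maximal independent index set for a symmetric relation. -/
theorem exists_maximal_free {ι : Type*} [Fintype ι] (r : ι → ι → Prop)
    (hr : ∀ i j, r i j → r j i) :
    ∃ T : Finset ι, (∀ i ∈ T, ∀ j ∈ T, i ≠ j → ¬ r i j) ∧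
      ∃ τ : {i // i ∉ T} → {i // i ∈ T}, ∀ i : {i // i ∉ T}, r i (τ i) := by
  classical
  let F : Finset (Finset ι) :=
    Finset.univ.filter (fun S => ∀ i ∈ S, ∀ j ∈ S, i ≠ j → ¬ r i j)
  have hne : F.Nonempty := ⟨∅, by simp [F]⟩
  obtain ⟨S, hS, hmax⟩ := F.exists_max_image Finset.card hne
  have hsep : ∀ i ∈ S, ∀ j ∈ S, i ≠ j → ¬ r i j := by
    simpa [F] using hS
  refine ⟨S, hsep, ?_⟩
  have key : ∀ i : {i // i ∉ S}, ∃ j : {j // j ∈ S}, r i j := by
    rintro ⟨i, hi⟩
    by_contra hcon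
    push Not at hcon
    have hins : insert i S ∈ F := by
      simp only [F, Finset.mem_filter, Finset.mem_univ, true_and]
      intro a ha b hb hab
      rw [Finset.mem_insert] at ha hb
      rcases ha with rfl | ha
      · rcases hb with rfl | hb
        · exact absurd rfl hab
        · exact hcon ⟨b, hb⟩
      · rcases hb with rfl | hb
        · intro h; exact hcon ⟨a, ha⟩ (hr _ _ h)
        · exact hsep a ha b hb hab
    have := hmax _ hins
    rw [Finset.card_insert_of_notMem hi] at this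
    omega
  choose σ hσ using key
  exact ⟨σ, hσ⟩

/-- A maximal `1`-separated index set. -/
theorem exists_maximal_separated {N : ℕ} (x : Fin N → Pt) :
    ∃ S : Finset (Fin N), (∀ i ∈ S, ∀ j ∈ S, i ≠ j → 1 ≤ dist (x i) (x j)) ∧
      ∃ σ : {i // i ∉ S} → {i // i ∈ S}, ∀ i : {i // i ∉ S}, dist (x i) (x (σ i)) < 1 := by
  obtain ⟨T, hT, σ, hσ⟩ := exists_maximal_free (fun i j : Fin N => dist (x i) (x j) < 1)
    (fun i j h => by rwa [dist_comm])
  exact ⟨T, fun i hi j hj hij => not_lt.mp (hT i hi j hj hij), σ, hσ⟩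

/-- Dropping all the interactions but those of `i ∉ S` with `σ i`. -/
theorem sum_le_energy {ψ : ℝ → ℝ} (hpos : ∀ r, 0 ≤ r → 0 ≤ ψ r)
    {N : ℕ} (x : Fin N → Pt) (S : Finset (Fin N)) (σ : {i // i ∉ S} → {i // i ∈ S}) :
    ∑ i : {i // i ∉ S}, ψ (dist (x i) (x (σ i))) ≤ energy ψ x := by
  classical
  have hne : ∀ i : {i // i ∉ S}, (i : Fin N) ≠ (σ i : Fin N) := by
    intro i h
    exact i.2 (h ▸ (σ i).2)
  -- the pair attached to `i`
  let e : {i // i ∉ S} → {p : Fin N × Fin N // p.1 < p.2} := fun i =>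
    if h : (i : Fin N) < (σ i : Fin N) then ⟨((i : Fin N), (σ i : Fin N)), h⟩
    else ⟨((σ i : Fin N), (i : Fin N)), lt_of_le_of_ne (not_lt.mp h) (hne i).symm⟩
  have he1 : ∀ i, dist (x (e i).1.1) (x (e i).1.2) = dist (x i) (x (σ i)) := by
    intro i
    by_cases h : (i : Fin N) < (σ i : Fin N)
    · simp only [e, dif_pos h]
    · simp only [e, dif_neg h]; rw [dist_comm]
  have he2 : Function.Injective e := by
    intro i j hij
    have h1 : (e i).1.1 = (e j).1.1 := by rw [hij]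
    have h2 : (e i).1.2 = (e j).1.2 := by rw [hij]
    by_cases hi : (i : Fin N) < (σ i : Fin N) <;> by_cases hj : (j : Fin N) < (σ j : Fin N)
    · simp only [e, dif_pos hi, dif_pos hj] at h1
      exact Subtype.ext h1
    · simp only [e, dif_pos hi, dif_neg hj] at h1
      exact absurd (h1 ▸ (σ j).2) i.2
    · simp only [e, dif_neg hi, dif_pos hj] at h1
      exact absurd (h1 ▸ (σ i).2) j.2
    · simp only [e, dif_neg hi, dif_neg hj] at h2
      exact Subtype.ext h2
  unfold energy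
  calc ∑ i : {i // i ∉ S}, ψ (dist (x i) (x (σ i)))
      = ∑ i : {i // i ∉ S}, ψ (dist (x (e i).1.1) (x (e i).1.2)) := by
        simp_rw [he1]
    _ = ∑ p ∈ Finset.univ.image e, ψ (dist (x p.1.1) (x p.1.2)) := by
        rw [Finset.sum_image (fun a _ b _ h => he2 h)]
    _ ≤ _ := Finset.sum_le_sum_of_subset_of_nonneg (Finset.subset_univ _)
        (fun p _ _ => hpos _ dist_nonneg)

theorem exp_neg_energy_le {ψ : ℝ → ℝ} (hpos : ∀ r, 0 ≤ r → 0 ≤ ψ r) {β : ℝ} (hβ : 0 ≤ β)
    {N : ℕ} (x : Fin N → Pt) (S : Finset (Fin N)) (σ : {i // i ∉ S} → {i // i ∈ S})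
    (hσ : ∀ i : {i // i ∉ S}, dist (x i) (x (σ i)) < 1) :
    ENNReal.ofReal (Real.exp (-β * energy ψ x)) ≤
      ∏ i : {i // i ∉ S}, wt ψ β (x i - x (σ i)) := by
  classical
  have hE := sum_le_energy hpos x S σ
  have hw : ∀ i : {i // i ∉ S}, wt ψ β (x i - x (σ i)) =
      ENNReal.ofReal (Real.exp (-β * ψ (dist (x i) (x (σ i))))) := by
    intro i
    unfold wt
    rw [Set.indicator_of_mem, dist_eq_norm]
    rw [Metric.mem_ball, dist_zero_right, ← dist_eq_norm]
    exact hσ i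
  simp_rw [hw]
  rw [← ENNReal.ofReal_prod_of_nonneg (fun i _ => (Real.exp_pos _).le), ← Real.exp_sum,
    ← Finset.mul_sum]
  apply ENNReal.ofReal_le_ofReal
  apply Real.exp_le_exp.mpr
  nlinarith

/-- Pointwise domination of the Boltzmann weight. -/
theorem boltzmann_le {ψ : ℝ → ℝ} (hpos : ∀ r, 0 ≤ r → 0 ≤ ψ r) {β : ℝ} (hβ : 0 ≤ β)
    {L : ℝ} {P : ℕ}
    (hP : ∀ X : Finset Pt, (∀ x ∈ X, x ∈ cube L) →
      (∀ x ∈ X, ∀ y ∈ X, x ≠ y → 1 ≤ dist x y) → X.card ≤ P)
    {N : ℕ} (x : Fin N → Pt) (hx : ∀ i, x i ∈ cube L) :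
    ENNReal.ofReal (Real.exp (-β * energy ψ x)) ≤
      ∑ S ∈ (Finset.univ : Finset (Finset (Fin N))).filter (fun S => S.card ≤ P),
        ∑ σ : {i // i ∉ S} → {i // i ∈ S}, ∏ i : {i // i ∉ S}, wt ψ β (x i - x (σ i)) := by
  classical
  obtain ⟨S, hsep, σ, hσ⟩ := exists_maximal_separated x
  have hinj : Set.InjOn x (S : Set (Fin N)) := by
    intro i hi j hj hij
    by_contra hne
    have := hsep i hi j hj hne
    rw [hij, dist_self] at this
    linarith
  have hcard : S.card ≤ P := by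
    rw [← Finset.card_image_of_injOn hinj]
    apply hP
    · intro y hy
      rw [Finset.mem_image] at hy
      obtain ⟨i, _, rfl⟩ := hy
      exact hx i
    · intro y hy z hz hyz
      rw [Finset.mem_image] at hy hz
      obtain ⟨i, hi, rfl⟩ := hy
      obtain ⟨j, hj, rfl⟩ := hz
      exact hsep i hi j hj (fun h => hyz (h ▸ rfl))
  calc ENNReal.ofReal (Real.exp (-β * energy ψ x))
      ≤ ∏ i : {i // i ∉ S}, wt ψ β (x i - x (σ i)) := exp_neg_energy_le hpos hβ x S σ hσ
    _ ≤ ∑ σ : {i // i ∉ S} → {i // i ∈ S}, ∏ i : {i // i ∉ S}, wt ψ β (x i - x (σ i)) :=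
        Finset.single_le_sum (f := fun σ : {i // i ∉ S} → {i // i ∈ S} =>
          ∏ i : {i // i ∉ S}, wt ψ β (x i - x (σ i))) (fun _ _ => bot_le) (Finset.mem_univ σ)
    _ ≤ _ := Finset.single_le_sum (f := fun S : Finset (Fin N) =>
          ∑ σ : {i // i ∉ S} → {i // i ∈ S}, ∏ i : {i // i ∉ S}, wt ψ β (x i - x (σ i)))
          (fun _ _ => bot_le) (by simp [hcard])

/-- Integral of one term. -/
theorem lintegral_term_le {ψ : ℝ → ℝ} (hψ : Measurable ψ) (β : ℝ) {L : ℝ} (hL : 0 ≤ L)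
    {N : ℕ} (S : Finset (Fin N)) (σ : {i // i ∉ S} → {i // i ∈ S}) :
    ∫⁻ x in Set.pi Set.univ (fun _ : Fin N => cube L),
        ∏ i : {i // i ∉ S}, wt ψ β (x i - x (σ i)) ≤
      ENNReal.ofReal (L ^ 3) ^ S.card * (∫⁻ y, wt ψ β y) ^ (N - S.card) := by
  classical
  let G : (({i // i ∈ S} → Pt) × ({i // i ∉ S} → Pt)) → ℝ≥0∞ := fun ab =>
    (∏ i : {i // i ∈ S}, (cube L).indicator 1 (ab.1 i)) *
      ∏ i : {i // i ∉ S}, wt ψ β (ab.2 i - ab.1 (σ i))
  have hG : Measurable G := by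
    refine Measurable.mul ?_ ?_
    · refine Finset.measurable_prod _ (fun i _ => ?_)
      have : Measurable ((cube L).indicator (1 : Pt → ℝ≥0∞)) :=
        measurable_one.indicator (measurableSet_cube L)
      exact this.comp ((measurable_pi_apply i).comp measurable_fst)
    · refine Finset.measurable_prod _ (fun i _ => (measurable_wt hψ β).comp ?_)
      exact ((measurable_pi_apply i).comp measurable_snd).sub
        ((measurable_pi_apply (σ i)).comp measurable_fst)
  have hmp := volume_preserving_piEquivPiSubtypeProd (fun _ : Fin N => Pt) (fun i => i ∈ S)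
  rw [← lintegral_indicator (MeasurableSet.univ_pi (fun _ => measurableSet_cube L))]
  calc ∫⁻ x : Fin N → Pt, (Set.pi Set.univ (fun _ : Fin N => cube L)).indicator
        (fun x => ∏ i : {i // i ∉ S}, wt ψ β (x i - x (σ i))) x
      ≤ ∫⁻ x : Fin N → Pt, G ((MeasurableEquiv.piEquivPiSubtypeProd (fun _ : Fin N => Pt)
          (fun i => i ∈ S)) x) := by
        refine lintegral_mono (fun x => ?_)
        by_cases hx : x ∈ Set.pi Set.univ (fun _ : Fin N => cube L)
        · rw [Set.indicator_of_mem hx]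
          have : ∀ i : {i // i ∈ S}, (cube L).indicator (1 : Pt → ℝ≥0∞) (x i) = 1 := by
            intro i
            rw [Set.indicator_of_mem (hx i (Set.mem_univ _))]
            rfl
          show _ ≤ (∏ i : {i // i ∈ S}, (cube L).indicator (1 : Pt → ℝ≥0∞) (x i)) *
            ∏ i : {i // i ∉ S}, wt ψ β (x i - x (σ i))
          simp_rw [this]
          simp
        · rw [Set.indicator_of_notMem hx]
          exact bot_le
    _ = ∫⁻ ab, G ab := by
        convert hmp.lintegral_comp hG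
        rfl
    _ = ∫⁻ a : {i // i ∈ S} → Pt, ∫⁻ b : {i // i ∉ S} → Pt, G (a, b) := by
        rw [Measure.volume_eq_prod, lintegral_prod _ hG.aemeasurable]
    _ = ∫⁻ a : {i // i ∈ S} → Pt, (∏ i : {i // i ∈ S}, (cube L).indicator 1 (a i)) *
          (∫⁻ y, wt ψ β y) ^ (N - S.card) := by
        refine lintegral_congr (fun a => ?_)
        simp only [G]
        rw [lintegral_const_mul]
        · congr 1
          rw [lintegral_pi_prod (fun i y => wt ψ β (y - a (σ i)))
            (fun i => (measurable_wt hψ β).comp (measurable_id.sub_const _))]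
          simp_rw [lintegral_sub_right_eq_self (fun y => wt ψ β y)]
          rw [Finset.prod_const, Finset.card_univ]
          congr 1
          rw [Fintype.card_subtype_compl, Fintype.card_fin, Fintype.card_coe]
        · refine Finset.measurable_prod _ (fun i _ => (measurable_wt hψ β).comp ?_)
          exact (measurable_pi_apply i).sub_const _
    _ = ENNReal.ofReal (L ^ 3) ^ S.card * (∫⁻ y, wt ψ β y) ^ (N - S.card) := by
        rw [lintegral_mul_const]
        · congr 1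
          rw [lintegral_pi_prod (fun _ => (cube L).indicator 1)
            (fun _ => measurable_one.indicator (measurableSet_cube L))]
          rw [lintegral_indicator_one (measurableSet_cube L), volume_cube L hL,
            Finset.prod_const, Finset.card_univ, Fintype.card_coe]
        · refine Finset.measurable_prod _ (fun i _ => ?_)
          have : Measurable ((cube L).indicator (1 : Pt → ℝ≥0∞)) :=
            measurable_one.indicator (measurableSet_cube L)
          exact this.comp (measurable_pi_apply i)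

/-- `m^k / k! ≤ exp m`. -/
theorem pow_div_factorial_le_exp (a : ℝ) (ha : 0 ≤ a) (k : ℕ) :
    a ^ k / (Nat.factorial k : ℝ) ≤ Real.exp a :=
  Real.pow_div_factorial_le_exp a ha k

/-- The integrated bound, in `ℝ≥0∞`. -/
theorem lintegral_boltzmann_le {ψ : ℝ → ℝ} (hψ : Measurable ψ)
    (hpos : ∀ r, 0 ≤ r → 0 ≤ ψ r) {β : ℝ} (hβ : 0 ≤ β)
    {L : ℝ} (hL : 0 ≤ L) {P : ℕ}
    (hP : ∀ X : Finset Pt, (∀ x ∈ X, x ∈ cube L) →
      (∀ x ∈ X, ∀ y ∈ X, x ≠ y → 1 ≤ dist x y) → X.card ≤ P) (N : ℕ) :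
    ∫⁻ x in Set.pi Set.univ (fun _ : Fin N => cube L),
        ENNReal.ofReal (Real.exp (-β * energy ψ x)) ≤
      ∑ S ∈ (Finset.univ : Finset (Finset (Fin N))).filter (fun S => S.card ≤ P),
        (S.card : ℝ≥0∞) ^ (N - S.card) *
          (ENNReal.ofReal (L ^ 3) ^ S.card * (∫⁻ y, wt ψ β y) ^ (N - S.card)) := by
  classical
  have hmeas : ∀ (S : Finset (Fin N)) (σ : {i // i ∉ S} → {i // i ∈ S}),
      Measurable (fun x : Fin N → Pt => ∏ i : {i // i ∉ S}, wt ψ β (x i - x (σ i))) := by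
    intro S σ
    refine Finset.measurable_prod _ (fun i _ => (measurable_wt hψ β).comp ?_)
    exact (measurable_pi_apply _).sub (measurable_pi_apply _)
  calc ∫⁻ x in Set.pi Set.univ (fun _ : Fin N => cube L),
        ENNReal.ofReal (Real.exp (-β * energy ψ x))
      ≤ ∫⁻ x in Set.pi Set.univ (fun _ : Fin N => cube L),
        ∑ S ∈ (Finset.univ : Finset (Finset (Fin N))).filter (fun S => S.card ≤ P),
        ∑ σ : {i // i ∉ S} → {i // i ∈ S}, ∏ i : {i // i ∉ S}, wt ψ β (x i - x (σ i)) := by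
        refine setLIntegral_mono' (MeasurableSet.univ_pi (fun _ => measurableSet_cube L)) ?_
        intro x hx
        exact boltzmann_le hpos hβ hP x (fun i => hx i (Set.mem_univ _))
    _ = ∑ S ∈ (Finset.univ : Finset (Finset (Fin N))).filter (fun S => S.card ≤ P),
        ∑ σ : {i // i ∉ S} → {i // i ∈ S},
          ∫⁻ x in Set.pi Set.univ (fun _ : Fin N => cube L),
            ∏ i : {i // i ∉ S}, wt ψ β (x i - x (σ i)) := by
        rw [lintegral_finsetSum]
        · refine Finset.sum_congr rfl (fun S _ => ?_)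
          rw [lintegral_finsetSum]
          exact fun σ _ => hmeas S σ
        · exact fun S _ => Finset.measurable_sum _ (fun σ _ => hmeas S σ)
    _ ≤ _ := by
        refine Finset.sum_le_sum (fun S _ => ?_)
        calc ∑ σ : {i // i ∉ S} → {i // i ∈ S},
            ∫⁻ x in Set.pi Set.univ (fun _ : Fin N => cube L),
              ∏ i : {i // i ∉ S}, wt ψ β (x i - x (σ i))
            ≤ ∑ σ : {i // i ∉ S} → {i // i ∈ S},
              (ENNReal.ofReal (L ^ 3) ^ S.card * (∫⁻ y, wt ψ β y) ^ (N - S.card)) :=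
              Finset.sum_le_sum (fun σ _ => lintegral_term_le hψ β hL S σ)
          _ = _ := by
              rw [Finset.sum_const, nsmul_eq_mul]
              congr 1
              rw [Finset.card_univ, Fintype.card_fun, Fintype.card_coe,
                Fintype.card_subtype_compl, Fintype.card_fin, Fintype.card_coe]
              push_cast
              rfl

/-- The sum over subsets. -/
theorem sum_bound (N P : ℕ) {a v : ℝ} (ha : 0 ≤ a) (hv : 0 ≤ v) (hv1 : v ≤ 1) :
    (1 / (Nat.factorial N : ℝ)) *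
      ∑ S ∈ (Finset.univ : Finset (Finset (Fin N))).filter (fun S => S.card ≤ P),
        (S.card : ℝ) ^ (N - S.card) * (a ^ S.card * v ^ (N - S.card)) ≤
      (P + 1) * Real.exp (a + P) * v ^ (N - P) := by
  classical
  have h1 : ∑ S ∈ (Finset.univ : Finset (Finset (Fin N))).filter (fun S => S.card ≤ P),
        (S.card : ℝ) ^ (N - S.card) * (a ^ S.card * v ^ (N - S.card)) =
      ∑ m ∈ Finset.range (N + 1), if m ≤ P then
        (N.choose m : ℝ) * ((m : ℝ) ^ (N - m) * (a ^ m * v ^ (N - m))) else 0 := by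
    rw [Finset.sum_filter]
    have := Finset.sum_powerset_apply_card (fun m => if m ≤ P then
        ((m : ℝ) ^ (N - m) * (a ^ m * v ^ (N - m))) else 0) (x := (Finset.univ : Finset (Fin N)))
    rw [Finset.powerset_univ, Finset.card_univ, Fintype.card_fin] at this
    rw [this]
    refine Finset.sum_congr rfl (fun m _ => ?_)
    split_ifs <;> simp
  have h2 : ∀ m ∈ Finset.range (N + 1), (1 / (Nat.factorial N : ℝ)) * (if m ≤ P then
        (N.choose m : ℝ) * ((m : ℝ) ^ (N - m) * (a ^ m * v ^ (N - m))) else 0) ≤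
      if m ≤ P then Real.exp (a + P) * v ^ (N - P) else 0 := by
    intro m hm
    rw [Finset.mem_range] at hm
    have hmN : m ≤ N := by omega
    split_ifs with hmP
    · have hc : (N.choose m : ℝ) = (Nat.factorial N : ℝ) /
          ((Nat.factorial m : ℝ) * (Nat.factorial (N - m) : ℝ)) := Nat.cast_choose ℝ hmN
      have hN : (Nat.factorial N : ℝ) ≠ 0 := by positivity
      have hm0 : (Nat.factorial m : ℝ) ≠ 0 := by positivity
      have hNm : (Nat.factorial (N - m) : ℝ) ≠ 0 := by positivity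
      have e1 : (1 / (Nat.factorial N : ℝ)) *
          ((N.choose m : ℝ) * ((m : ℝ) ^ (N - m) * (a ^ m * v ^ (N - m)))) =
          (a ^ m / (Nat.factorial m : ℝ)) * ((m : ℝ) ^ (N - m) / (Nat.factorial (N - m) : ℝ)) *
            v ^ (N - m) := by
        rw [hc]; field_simp
      rw [e1]
      have b1 := pow_div_factorial_le_exp a ha m
      have b2 := pow_div_factorial_le_exp (m : ℝ) (by positivity) (N - m)
      have b3 : Real.exp (m : ℝ) ≤ Real.exp P := Real.exp_le_exp.mpr (by exact_mod_cast hmP)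
      have b4 : v ^ (N - m) ≤ v ^ (N - P) := pow_le_pow_of_le_one hv hv1 (by omega)
      rw [Real.exp_add]
      have p1 : 0 ≤ a ^ m / (Nat.factorial m : ℝ) := by positivity
      have p2 : 0 ≤ (m : ℝ) ^ (N - m) / (Nat.factorial (N - m) : ℝ) := by positivity
      calc (a ^ m / (Nat.factorial m : ℝ)) * ((m : ℝ) ^ (N - m) / (Nat.factorial (N - m) : ℝ)) *
            v ^ (N - m) ≤ (Real.exp a * Real.exp P) * v ^ (N - P) := by
            apply mul_le_mul _ b4 (by positivity) (by positivity)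
            exact mul_le_mul b1 (b2.trans b3) p2 (Real.exp_pos _).le
        _ = _ := rfl
    · simp
  rw [h1, Finset.mul_sum]
  refine (Finset.sum_le_sum h2).trans ?_
  rw [← Finset.sum_filter, Finset.sum_const, nsmul_eq_mul, mul_assoc]
  have hcard : (((Finset.range (N + 1)).filter (fun m => m ≤ P)).card : ℝ) ≤ P + 1 := by
    have : (Finset.range (N + 1)).filter (fun m => m ≤ P) ⊆ Finset.range (P + 1) := by
      intro m hm
      rw [Finset.mem_filter] at hm
      rw [Finset.mem_range]; omega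
    have := Finset.card_le_card this
    rw [Finset.card_range] at this
    exact_mod_cast this
  exact mul_le_mul_of_nonneg_right hcard (by positivity)

/-- `∫⁻ wt` is the ordinary integral over the unit ball. -/
theorem lintegral_wt {ψ : ℝ → ℝ} (hψ : Measurable ψ) (hpos : ∀ r, 0 ≤ r → 0 ≤ ψ r)
    {β : ℝ} (hβ : 0 ≤ β) :
    ∫⁻ y, wt ψ β y =
      ENNReal.ofReal (∫ y in Metric.ball (0 : Pt) 1, Real.exp (-β * ψ ‖y‖)) := by
  unfold wt
  rw [lintegral_indicator measurableSet_ball, ofReal_integral_eq_lintegral_ofReal]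
  · refine Measure.integrableOn_of_bounded (M := 1) measure_ball_lt_top.ne ?_ ?_
    · exact (Real.measurable_exp.comp
        ((hψ.comp measurable_norm).const_mul _)).aestronglyMeasurable
    · refine Filter.Eventually.of_forall (fun y => ?_)
      rw [Real.norm_eq_abs, abs_of_pos (Real.exp_pos _), Real.exp_le_one_iff]
      have := hpos ‖y‖ (norm_nonneg _)
      nlinarith
  · exact Filter.Eventually.of_forall (fun y => (Real.exp_pos _).le)

theorem energy_nonneg {ψ : ℝ → ℝ} (hpos : ∀ r, 0 ≤ r → 0 ≤ ψ r) {N : ℕ} (x : Fin N → Pt) :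
    0 ≤ energy ψ x :=
  Finset.sum_nonneg (fun _ _ => hpos _ dist_nonneg)

theorem measurable_energy {ψ : ℝ → ℝ} (hψ : Measurable ψ) (N : ℕ) :
    Measurable (fun x : Fin N → Pt => energy ψ x) := by
  unfold energy
  refine Finset.measurable_sum _ (fun p _ => hψ.comp ?_)
  exact (measurable_pi_apply _).dist (measurable_pi_apply _)

theorem volume_pi_cube_lt_top {L : ℝ} (hL : 0 ≤ L) (N : ℕ) :
    volume (Set.pi Set.univ (fun _ : Fin N => cube L)) < ⊤ := by
  rw [volume_pi_pi]
  refine ENNReal.prod_lt_top (fun _ _ => ?_)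
  rw [volume_cube L hL]
  exact ENNReal.ofReal_lt_top

/-- **Base upper bound.** -/
theorem partitionFn_le {ψ : ℝ → ℝ} (hψ : Measurable ψ)
    (hpos : ∀ r, 0 ≤ r → 0 ≤ ψ r) {β : ℝ} (hβ : 0 ≤ β)
    {L : ℝ} (hL : 0 ≤ L) {P : ℕ}
    (hP : ∀ X : Finset Pt, (∀ x ∈ X, x ∈ cube L) →
      (∀ x ∈ X, ∀ y ∈ X, x ≠ y → 1 ≤ dist x y) → X.card ≤ P)
    (hv1 : ∫ y in Metric.ball (0 : Pt) 1, Real.exp (-β * ψ ‖y‖) ≤ 1) (N : ℕ) :
    partitionFn ψ L N β ≤ (P + 1) * Real.exp (L ^ 3 + P) *
      (∫ y in Metric.ball (0 : Pt) 1, Real.exp (-β * ψ ‖y‖)) ^ (N - P) := by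
  classical
  set v : ℝ := ∫ y in Metric.ball (0 : Pt) 1, Real.exp (-β * ψ ‖y‖) with hv
  have hv0 : 0 ≤ v := integral_nonneg (fun _ => (Real.exp_pos _).le)
  have ha : 0 ≤ L ^ 3 := by positivity
  have hint : ∫ x in Set.pi Set.univ (fun _ : Fin N => cube L),
      Real.exp (-β * energy ψ x) ≤
      ∑ S ∈ (Finset.univ : Finset (Finset (Fin N))).filter (fun S => S.card ≤ P),
        (S.card : ℝ) ^ (N - S.card) * ((L ^ 3) ^ S.card * v ^ (N - S.card)) := by
    have hsum0 : 0 ≤ ∑ S ∈ (Finset.univ : Finset (Finset (Fin N))).filter (fun S => S.card ≤ P),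
        (S.card : ℝ) ^ (N - S.card) * ((L ^ 3) ^ S.card * v ^ (N - S.card)) :=
      Finset.sum_nonneg (fun S _ => by positivity)
    rw [← ENNReal.ofReal_le_ofReal_iff hsum0, ofReal_integral_eq_lintegral_ofReal]
    · refine (lintegral_boltzmann_le hψ hpos hβ hL hP N).trans ?_
      rw [lintegral_wt hψ hpos hβ, ← hv, ENNReal.ofReal_sum_of_nonneg
        (fun S _ => by positivity)]
      refine Finset.sum_le_sum (fun S _ => le_of_eq ?_)
      rw [ENNReal.ofReal_mul (by positivity), ENNReal.ofReal_mul (by positivity),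
        ENNReal.ofReal_pow (Nat.cast_nonneg S.card), ENNReal.ofReal_pow ha,
        ENNReal.ofReal_pow hv0, ENNReal.ofReal_natCast]
    · refine Measure.integrableOn_of_bounded (M := 1) (volume_pi_cube_lt_top hL N).ne ?_ ?_
      · exact (Real.measurable_exp.comp ((measurable_energy hψ N).const_mul _)).aestronglyMeasurable
      · refine Filter.Eventually.of_forall (fun x => ?_)
        rw [Real.norm_eq_abs, abs_of_pos (Real.exp_pos _), Real.exp_le_one_iff]
        have := energy_nonneg hpos x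
        nlinarith
    · exact Filter.Eventually.of_forall (fun y => (Real.exp_pos _).le)
  unfold partitionFn
  refine le_trans (mul_le_mul_of_nonneg_left hint (by positivity)) ?_
  exact sum_bound N P ha hv0 hv1

theorem card_le_packingNumber {L : ℝ} (hbdd : BddAbove (packingSet L)) (X : Finset Pt)
    (h1 : ∀ x ∈ X, x ∈ cube L) (h2 : ∀ x ∈ X, ∀ y ∈ X, x ≠ y → 1 ≤ dist x y) :
    X.card ≤ packingNumber L :=
  le_csSup hbdd ⟨X, rfl, h1, h2⟩

/-- Base upper bound with the packing number. -/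
theorem partitionFn_le_packingNumber {ψ : ℝ → ℝ} (hψ : Measurable ψ)
    (hpos : ∀ r, 0 ≤ r → 0 ≤ ψ r) {β : ℝ} (hβ : 0 ≤ β)
    {L : ℝ} (hL : 0 ≤ L) (hbdd : BddAbove (packingSet L))
    (hv1 : ∫ y in Metric.ball (0 : Pt) 1, Real.exp (-β * ψ ‖y‖) ≤ 1) (N : ℕ) :
    partitionFn ψ L N β ≤ (packingNumber L + 1) * Real.exp (L ^ 3 + packingNumber L) *
      (∫ y in Metric.ball (0 : Pt) 1, Real.exp (-β * ψ ‖y‖)) ^ (N - packingNumber L) :=
  partitionFn_le hψ hpos hβ hL (card_le_packingNumber hbdd) hv1 N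

/-- Positivity of the partition function for a nonnegative potential. -/
theorem partitionFn_pos {ψ : ℝ → ℝ} (hψ : Measurable ψ)
    (hpos : ∀ r, 0 ≤ r → 0 ≤ ψ r) {β : ℝ} (hβ : 0 ≤ β) {L : ℝ} (hL : 0 < L) (N : ℕ) :
    0 < partitionFn ψ L N β := by
  unfold partitionFn
  refine mul_pos (by positivity) ?_
  have hne : (volume.restrict (Set.pi Set.univ (fun _ : Fin N => cube L))) ≠ 0 := by
    rw [Ne, Measure.restrict_eq_zero, volume_pi_pi]
    refine (Finset.prod_ne_zero_iff.mpr (fun _ _ => ?_))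
    rw [volume_cube L hL.le]
    simp only [ne_eq, ENNReal.ofReal_eq_zero, not_le]
    positivity
  have : NeZero (volume.restrict (Set.pi Set.univ (fun _ : Fin N => cube L))) := ⟨hne⟩
  refine integral_exp_pos ?_
  refine Measure.integrableOn_of_bounded (M := 1) (volume_pi_cube_lt_top hL.le N).ne ?_ ?_
  · exact (Real.measurable_exp.comp ((measurable_energy hψ N).const_mul _)).aestronglyMeasurable
  · refine Filter.Eventually.of_forall (fun x => ?_)
    rw [Real.norm_eq_abs, abs_of_pos (Real.exp_pos _), Real.exp_le_one_iff]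
    have := energy_nonneg hpos x
    nlinarith

theorem tendsto_log_packing {p : ℝ}
    (hp : Filter.Tendsto (fun L : ℝ => (packingNumber L : ℝ) / L ^ 3) Filter.atTop (nhds p)) :
    Filter.Tendsto (fun L : ℝ => Real.log (packingNumber L + 1) / L ^ 3)
      Filter.atTop (nhds 0) := by
  have hcube : Filter.Tendsto (fun L : ℝ => L ^ 3) Filter.atTop Filter.atTop :=
    Filter.tendsto_pow_atTop (by norm_num)
  have hinv : Filter.Tendsto (fun L : ℝ => 1 / L ^ 3) Filter.atTop (nhds 0) := by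
    simp only [one_div]
    exact hcube.inv_tendsto_atTop
  -- `log (P + 1) ≤ 2 √(P + 1)`, and `√(P+1)/L^3 → 0`
  have h1 : Filter.Tendsto (fun L : ℝ => 2 * Real.sqrt ((packingNumber L / L ^ 3 + 1 / L ^ 3) *
      (1 / L ^ 3))) Filter.atTop (nhds 0) := by
    have : Filter.Tendsto (fun L : ℝ => 2 * Real.sqrt ((packingNumber L / L ^ 3 + 1 / L ^ 3) *
      (1 / L ^ 3))) Filter.atTop (nhds (2 * Real.sqrt ((p + 0) * 0))) :=
      ((hp.add hinv).mul hinv).sqrt.const_mul 2
    simpa using this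
  refine squeeze_zero' ?_ ?_ h1
  · filter_upwards [Filter.eventually_gt_atTop (0 : ℝ)] with L hL
    exact div_nonneg (Real.log_nonneg (by simp)) (by positivity)
  · filter_upwards [Filter.eventually_gt_atTop (0 : ℝ)] with L hL
    have hL3 : 0 < L ^ 3 := by positivity
    have hP1 : (0 : ℝ) < (packingNumber L : ℝ) + 1 := by positivity
    have hs : Real.log (packingNumber L + 1) ≤ 2 * Real.sqrt (packingNumber L + 1) := by
      have h := Real.log_le_sub_one_of_pos (Real.sqrt_pos.mpr hP1)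
      rw [Real.log_sqrt hP1.le] at h
      linarith
    have e : Real.sqrt (((packingNumber L : ℝ) / L ^ 3 + 1 / L ^ 3) * (1 / L ^ 3)) =
        Real.sqrt (packingNumber L + 1) / L ^ 3 := by
      rw [show ((packingNumber L : ℝ) / L ^ 3 + 1 / L ^ 3) * (1 / L ^ 3) =
        ((packingNumber L : ℝ) + 1) / (L ^ 3) ^ 2 by field_simp,
        Real.sqrt_div hP1.le, Real.sqrt_sq hL3.le]
    rw [e, ← mul_div_assoc]
    exact div_le_div_of_nonneg_right hs hL3.le


/-! ### Clusters: at most `K` points per cluster -/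

/-- A configuration in the cube without strong pair has at most `K * packingNumber L` points. -/
theorem card_good_le {K : ℕ} {θ₂ θ₃ ξ δ M : ℝ} {c : ℝ → ℝ} (hK : KGeom K θ₂ θ₃)
    (hc : CoreType c θ₂ θ₃ ξ δ M) {L : ℝ} (hL : 0 ≤ L) {N : ℕ} (x : Fin N → Pt)
    (hx : ∀ i, x i ∈ cube L) (T : Finset (Fin N))
    (hT : ∀ i ∈ T, ∀ j ∈ T, i ≠ j → ¬ (M ≤ c (dist (x i) (x j)))) :
    T.card ≤ K * packingNumber L := by
  classical
  have hδ := hc.hδ
  have hδ1 := hc.hδ1
  -- distances inside `T`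
  have hdist : ∀ i ∈ T, ∀ j ∈ T, i ≠ j → dist (x i) (x j) < 1 →
      δ / 2 < dist (x i) (x j) ∧ dist (x i) (x j) < δ := by
    intro i hi j hj hij hlt
    have hbad := hT i hi j hj hij
    refine ⟨?_, ?_⟩
    · by_contra h
      exact hbad (hc.big1 _ dist_nonneg (not_lt.mp h))
    · by_contra h
      exact hbad (hc.big2 _ (not_lt.mp h) hlt)
  obtain ⟨S, hS, σ, hσ⟩ := exists_maximal_free
    (fun i j : {i // i ∈ T} => dist (x i) (x j) < 1) (fun i j h => by rwa [dist_comm])
  -- the cluster map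
  let π : {i // i ∈ T} → {i // i ∈ T} := fun i => if h : i ∈ S then i else (σ ⟨i, h⟩ : {i // i ∈ T})
  have hπS : ∀ i, π i ∈ S := by
    intro i
    by_cases h : i ∈ S
    · simp only [π, dif_pos h]; exact h
    · simp only [π, dif_neg h]; exact (σ ⟨i, h⟩).2
  have hπd : ∀ i : {i // i ∈ T}, dist (x i) (x (π i)) < δ := by
    intro i
    by_cases h : i ∈ S
    · simp only [π, dif_pos h]
      rw [dist_self]; exact hδ
    · have h1 : dist (x i) (x (π i)) < 1 := by
        simp only [π, dif_neg h]; exact hσ ⟨i, h⟩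
      have hne : i ≠ π i := by
        intro he
        exact h (he ▸ hπS i)
      exact (hdist i i.2 (π i) (π i).2 (fun he => hne (Subtype.ext he)) h1).2
  have hSP : S.card ≤ packingNumber L := by
    have hinj : Set.InjOn (fun i : {i // i ∈ T} => x i) (S : Set {i // i ∈ T}) := by
      intro i hi j hj hij
      by_contra hne
      have := hS i hi j hj hne
      simp only at hij
      rw [hij, dist_self] at this
      exact this one_pos
    rw [← Finset.card_image_of_injOn hinj]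
    apply card_le_packingNumber (Packing.bddAbove_packingSet hL)
    · intro y hy
      rw [Finset.mem_image] at hy
      obtain ⟨i, _, rfl⟩ := hy
      exact hx i
    · intro y hy z hz hyz
      rw [Finset.mem_image] at hy hz
      obtain ⟨i, hi, rfl⟩ := hy
      obtain ⟨j, hj, rfl⟩ := hz
      exact not_lt.mp (hS i hi j hj (fun h => hyz (h ▸ rfl)))
  have hfib : ∀ s ∈ S, (Finset.univ.filter (fun i => π i = s)).card ≤ K := by
    intro s hs
    by_contra hcon
    push Not at hcon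
    have hcard : K + 1 ≤ (Finset.univ.filter (fun i => π i = s)).card := hcon
    let f := Finset.orderEmbOfCardLe _ hcard
    have hf : ∀ k, π (f k) = s := by
      intro k
      have := Finset.orderEmbOfCardLe_mem _ hcard k
      rw [Finset.mem_filter] at this
      exact this.2
    refine hK.nex (fun k => (1 / δ) • x (f k)) ?_
    intro k l hkl
    have hne : f k ≠ f l := fun h => hkl (f.injective h)
    have hd1 := hπd (f k)
    have hd2 := hπd (f l)
    rw [hf k] at hd1
    rw [hf l] at hd2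
    have hd : dist (x (f k)) (x (f l)) < 1 := by
      have := dist_triangle_right (x (f k)) (x (f l)) (x s)
      linarith
    obtain ⟨h1, h2⟩ := hdist _ (f k).2 _ (f l).2 (fun he => hne (Subtype.ext he)) hd
    rw [dist_smul₀, Real.norm_eq_abs, abs_of_pos (by positivity)]
    constructor
    · rw [one_div_mul_eq_div, lt_div_iff₀ hδ]; linarith
    · rw [one_div_mul_eq_div, div_lt_iff₀ hδ]; linarith
  have hle := Finset.card_le_mul_card_image_of_maps_to (s := (Finset.univ : Finset {i // i ∈ T}))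
    (t := S) (f := π) (fun i _ => hπS i) K hfib
  rw [Finset.card_univ, Fintype.card_coe] at hle
  exact hle.trans (Nat.mul_le_mul_left K hSP)

/-- Linear superstability. -/
theorem energy_ge {K : ℕ} {θ₂ θ₃ ξ δ M : ℝ} {c : ℝ → ℝ} (hK : KGeom K θ₂ θ₃)
    (hc : CoreType c θ₂ θ₃ ξ δ M) {L : ℝ} (hL : 0 ≤ L) {N : ℕ} (x : Fin N → Pt)
    (hx : ∀ i, x i ∈ cube L) :
    M * ((N - K * packingNumber L : ℕ) : ℝ) ≤ energy c x := by
  classical
  obtain ⟨T, hT, τ, hτ⟩ := exists_maximal_free (fun i j : Fin N => M ≤ c (dist (x i) (x j)))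
    (fun i j h => by rwa [dist_comm])
  have hcard := card_good_le hK hc hL x hx T hT
  have h1 := sum_le_energy (fun r _ => hc.nonneg r) x T τ
  refine le_trans ?_ h1
  have h2 : ∑ _i : {i // i ∉ T}, M ≤ ∑ i : {i // i ∉ T}, c (dist (x i) (x (τ i))) :=
    Finset.sum_le_sum (fun i _ => hτ i)
  refine le_trans ?_ h2
  rw [Finset.sum_const, Finset.card_univ, nsmul_eq_mul, mul_comm,
    Fintype.card_subtype_compl, Fintype.card_fin, Fintype.card_coe]
  exact mul_le_mul_of_nonneg_right (by exact_mod_cast Nat.sub_le_sub_left hcard N) hc.hM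

/-- Trading half of the energy. -/
theorem partitionFn_half {c : ℝ → ℝ} (hcm : Measurable c) (hpos : ∀ r, 0 ≤ c r)
    {β : ℝ} (hβ : 0 ≤ β) {L : ℝ} (hL : 0 ≤ L) {N : ℕ} {E : ℝ}
    (hE : ∀ x : Fin N → Pt, (∀ i, x i ∈ cube L) → E ≤ energy c x) :
    partitionFn c L N β ≤ Real.exp (-(β / 2) * E) * partitionFn c L N (β / 2) := by
  have hint : ∀ b : ℝ, 0 ≤ b → IntegrableOn (fun x : Fin N → Pt => Real.exp (-b * energy c x))
      (Set.pi Set.univ (fun _ : Fin N => cube L)) := by
    intro b hb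
    refine Measure.integrableOn_of_bounded (M := 1) (volume_pi_cube_lt_top hL N).ne ?_ ?_
    · exact (Real.measurable_exp.comp ((measurable_energy hcm N).const_mul _)).aestronglyMeasurable
    · refine Filter.Eventually.of_forall (fun x => ?_)
      rw [Real.norm_eq_abs, abs_of_pos (Real.exp_pos _), Real.exp_le_one_iff]
      have := energy_nonneg (fun r _ => hpos r) x
      nlinarith
  unfold partitionFn
  rw [mul_left_comm]
  refine mul_le_mul_of_nonneg_left ?_ (by positivity)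
  rw [← integral_const_mul]
  refine setIntegral_mono_on (hint β hβ) ((hint (β / 2) (by linarith)).const_mul _)
    (MeasurableSet.univ_pi (fun _ => measurableSet_cube L)) ?_
  intro x hx
  rw [← Real.exp_add]
  apply Real.exp_le_exp.mpr
  have := hE x (fun i => hx i (Set.mem_univ _))
  nlinarith

/-- The volume of the unit ball, as a real. -/
noncomputable def V1 : ℝ := (volume (Metric.ball (0 : Pt) 1)).toReal

theorem V1_nonneg : 0 ≤ V1 := ENNReal.toReal_nonneg

theorem volume_ball_toReal {r : ℝ} (hr : 0 ≤ r) :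
    (volume (Metric.ball (0 : Pt) r)).toReal = r ^ 3 * V1 := by
  rw [Measure.addHaar_ball _ _ hr, ENNReal.toReal_mul, ENNReal.toReal_ofReal (by positivity)]
  simp [V1]

/-- The one-particle weight of a cluster. -/
theorem integral_core_le {θ₂ θ₃ ξ δ M : ℝ} {c : ℝ → ℝ}
    (hc : CoreType c θ₂ θ₃ ξ δ M) {β : ℝ} (hβ : 0 ≤ β) :
    ∫ y in Metric.ball (0 : Pt) 1, Real.exp (-β * c ‖y‖) ≤
      δ ^ 3 * V1 + Real.exp (-β * M) * V1 := by
  have hδ := hc.hδ
  have hδ1 := hc.hδ1
  have hfin : volume (Metric.ball (0 : Pt) 1) ≠ ⊤ := measure_ball_lt_top.ne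
  have h1 : IntegrableOn (fun y : Pt => Real.exp (-β * c ‖y‖)) (Metric.ball (0 : Pt) 1) := by
    refine Measure.integrableOn_of_bounded (M := 1) hfin ?_ ?_
    · exact (Real.measurable_exp.comp
        ((hc.meas.comp measurable_norm).const_mul _)).aestronglyMeasurable
    · refine Filter.Eventually.of_forall (fun y => ?_)
      rw [Real.norm_eq_abs, abs_of_pos (Real.exp_pos _), Real.exp_le_one_iff]
      have := hc.nonneg ‖y‖
      nlinarith
  have h2 : IntegrableOn (fun y : Pt => (Metric.ball (0 : Pt) δ).indicator (fun _ => (1 : ℝ)) y)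
      (Metric.ball (0 : Pt) 1) := by
    apply Integrable.integrableOn
    rw [integrable_indicator_iff measurableSet_ball]
    exact integrableOn_const measure_ball_lt_top.ne
  have h3 : IntegrableOn (fun _ : Pt => Real.exp (-β * M)) (Metric.ball (0 : Pt) 1) :=
    integrableOn_const hfin
  calc ∫ y in Metric.ball (0 : Pt) 1, Real.exp (-β * c ‖y‖)
      ≤ ∫ y in Metric.ball (0 : Pt) 1,
        ((Metric.ball (0 : Pt) δ).indicator (fun _ => (1 : ℝ)) y + Real.exp (-β * M)) := by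
        refine setIntegral_mono_on h1 (h2.add h3) measurableSet_ball ?_
        intro y hy
        rw [Metric.mem_ball, dist_zero_right] at hy
        by_cases hyδ : ‖y‖ < δ
        · rw [Set.indicator_of_mem (by rwa [Metric.mem_ball, dist_zero_right])]
          have e1 : Real.exp (-β * c ‖y‖) ≤ 1 := by
            rw [Real.exp_le_one_iff]
            have := hc.nonneg ‖y‖
            nlinarith
          have := Real.exp_pos (-β * M)
          linarith
        · rw [Set.indicator_of_notMem (by rwa [Metric.mem_ball, dist_zero_right]), zero_add]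
          apply Real.exp_le_exp.mpr
          have := hc.big2 ‖y‖ (not_lt.mp hyδ) hy
          nlinarith
    _ = (∫ y in Metric.ball (0 : Pt) 1, (Metric.ball (0 : Pt) δ).indicator (fun _ => (1 : ℝ)) y) +
          ∫ _y in Metric.ball (0 : Pt) 1, Real.exp (-β * M) := integral_add h2 h3
    _ ≤ δ ^ 3 * V1 + Real.exp (-β * M) * V1 := by
        refine add_le_add ?_ (le_of_eq ?_)
        · rw [setIntegral_indicator measurableSet_ball, setIntegral_const, smul_eq_mul, mul_one,
            ← volume_ball_toReal hδ.le]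
          exact ENNReal.toReal_mono measure_ball_lt_top.ne
            (measure_mono Set.inter_subset_right)
        · rw [setIntegral_const, smul_eq_mul, mul_comm]
          rfl

/-- The elementary inequality behind the mean-field pressure. -/
theorem mf_ineq {N P K : ℕ} {Λ C1 h H4 : ℝ} (hK : 1 ≤ K) (hC : 0 ≤ C1) (hΛ : C1 ≤ Λ)
    (hH : Λ * h ≤ H4) :
    Λ * h * N - (Λ - C1) * ((N - P : ℕ) : ℝ) - H4 * ((N - K * P : ℕ) : ℝ) ≤
      Λ * P * max 0 (max h (K * h - (K - 1))) + C1 * K * P := by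
  set m : ℝ := max 0 (max h (K * h - (K - 1))) with hm
  have m0 : 0 ≤ m := le_max_left _ _
  have m1 : h ≤ m := (le_max_left _ _).trans (le_max_right _ _)
  have m2 : K * h - (K - 1) ≤ m := (le_max_right _ _).trans (le_max_right _ _)
  have hΛ0 : 0 ≤ Λ := hC.trans hΛ
  have hKr : (1 : ℝ) ≤ K := by exact_mod_cast hK
  have hPr : (0 : ℝ) ≤ P := Nat.cast_nonneg P
  have hNr : (0 : ℝ) ≤ N := Nat.cast_nonneg N
  have hPKP : P ≤ K * P := Nat.le_mul_of_pos_left P hK
  -- the middle region, as a statement on reals `P ≤ n ≤ K P`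
  have hmid : ∀ n : ℝ, (P : ℝ) ≤ n → n ≤ K * P → Λ * h * n - (Λ - C1) * (n - P) ≤
      Λ * P * m + C1 * K * P := by
    intro n hn1 hn2
    have e1 : C1 * (n - P) ≤ C1 * K * P := by nlinarith
    have e2 : h * n - (n - P) ≤ P * m := by
      by_cases h1 : h ≤ 1
      · nlinarith
      · push Not at h1
        have : h * n - (n - P) ≤ P * (K * h - (K - 1)) := by nlinarith
        exact this.trans (mul_le_mul_of_nonneg_left m2 hPr)
    have e3 := mul_le_mul_of_nonneg_left e2 hΛ0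
    nlinarith
  rcases le_total N P with hNP | hNP
  · have z1 : N - P = 0 := by omega
    have z2 : N - K * P = 0 := by omega
    rw [z1, z2]
    have hNPr : (N : ℝ) ≤ P := by exact_mod_cast hNP
    have e1 : Λ * h * N ≤ Λ * m * N := by
      have := mul_le_mul_of_nonneg_left m1 hΛ0
      exact mul_le_mul_of_nonneg_right this hNr
    have e2 : Λ * m * N ≤ Λ * m * P := mul_le_mul_of_nonneg_left hNPr (by positivity)
    have e3 : 0 ≤ C1 * K * P := by positivity
    simp only [Nat.cast_zero, mul_zero, sub_zero]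
    nlinarith
  · rcases le_total N (K * P) with hNK | hNK
    · have z2 : N - K * P = 0 := by omega
      rw [z2, Nat.cast_sub hNP]
      have := hmid N (by exact_mod_cast hNP) (by exact_mod_cast hNK)
      simpa using this
    · rw [Nat.cast_sub hNP, Nat.cast_sub hNK]
      push_cast
      have hNKr : (K : ℝ) * P ≤ N := by exact_mod_cast hNK
      have h1 := hmid (K * P) (by nlinarith) le_rfl
      have h2 : Λ * h * (N - K * P) ≤ H4 * (N - K * P) :=
        mul_le_mul_of_nonneg_right hH (by linarith)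
      have h3 : 0 ≤ (Λ - C1) * (N - K * P) := mul_nonneg (by linarith) (by linarith)
      nlinarith

theorem stab_zero {c : ℝ → ℝ} (hpos : ∀ r, 0 ≤ c r) : Stab c (fun _ => 0) 0 := by
  classical
  refine ⟨le_rfl, fun ι _ x => ?_⟩
  have h1 : A (fun _ => 0) x = 0 := by simp [A, SS]
  have h2 : 0 ≤ U c x := by
    unfold U SS
    have : (Fintype.card ι : ℝ) * c 0 ≤ ∑ i, ∑ j, c (dist (x i) (x j)) := by
      calc (Fintype.card ι : ℝ) * c 0 = ∑ i : ι, c (dist (x i) (x i)) := by simp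
        _ ≤ ∑ i, ∑ j, c (dist (x i) (x j)) := Finset.sum_le_sum (fun i _ =>
            Finset.single_le_sum (f := fun j => c (dist (x i) (x j)))
              (fun j _ => hpos _) (Finset.mem_univ i))
    linarith
  rw [h1]
  linarith

theorem attrOK_zero : AttrOK (fun _ => 0) where
  meas := measurable_const
  nonneg := fun _ => le_rfl
  bdd := ⟨0, fun _ => le_rfl⟩

/-- The finite-volume estimate for `h' n + log Z`. -/
theorem finite_volume {K : ℕ} {θ₂ θ₃ ξ Λ M : ℝ} {c : ℝ → ℝ} (hK : KGeom K θ₂ θ₃)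
    (hc : CoreType c θ₂ θ₃ ξ (Real.exp (-Λ / 3)) M)
    (hΛ : Real.log (2 * V1 + 1) ≤ Λ) (hM : 4 * Λ ≤ M) {β h : ℝ} (hβ : 1 / 2 ≤ β)
    (hh : Λ * h ≤ M / 4) {L : ℝ} (hL : 0 < L) (N : ℕ) :
    Λ * h * N + Real.log (partitionFn c L N β) ≤
      Λ * packingNumber L * max 0 (max h (K * h - (K - 1))) +
        Real.log (2 * V1 + 1) * K * packingNumber L + L ^ 3 + packingNumber L +
        Real.log (packingNumber L + 1) := by
  set C1 := Real.log (2 * V1 + 1) with hC1
  set P := packingNumber L with hP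
  have hV := V1_nonneg
  have hC10 : 0 ≤ C1 := Real.log_nonneg (by linarith)
  have hM0 := hc.hM
  have hpos : ∀ r, 0 ≤ r → 0 ≤ c r := fun r _ => hc.nonneg r
  -- the weight
  have hv : ∫ y in Metric.ball (0 : Pt) 1, Real.exp (-(β / 2) * c ‖y‖) ≤
      Real.exp (-(Λ - C1)) := by
    refine (integral_core_le hc (by linarith)).trans ?_
    have e1 : Real.exp (-Λ / 3) ^ 3 = Real.exp (-Λ) := by
      rw [← Real.exp_nat_mul]; congr 1; push_cast; ring
    have e2 : Real.exp (-(β / 2) * M) ≤ Real.exp (-Λ) := by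
      apply Real.exp_le_exp.mpr
      nlinarith
    have e3 : Real.exp (-(Λ - C1)) = Real.exp (-Λ) * (2 * V1 + 1) := by
      rw [show -(Λ - C1) = -Λ + C1 by ring, Real.exp_add, hC1, Real.exp_log (by linarith)]
    rw [e1, e3]
    have e4 := Real.exp_pos (-Λ)
    nlinarith
  have hv1 : ∫ y in Metric.ball (0 : Pt) 1, Real.exp (-(β / 2) * c ‖y‖) ≤ 1 :=
    hv.trans (Real.exp_le_one_iff.mpr (by linarith))
  have hv0 : 0 ≤ ∫ y in Metric.ball (0 : Pt) 1, Real.exp (-(β / 2) * c ‖y‖) :=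
    integral_nonneg (fun _ => (Real.exp_pos _).le)
  have hZ1 := partitionFn_half hc.meas hc.nonneg (β := β) (by linarith) hL.le (N := N)
    (fun x hx => energy_ge hK hc hL.le x hx)
  have hZ2 := partitionFn_le_packingNumber hc.meas hpos (β := β / 2) (by linarith) hL.le
    (Packing.bddAbove_packingSet hL.le) hv1 N
  have hZ0 := partitionFn_pos hc.meas hpos (β := β) (by linarith) hL N
  have hZ3 : partitionFn c L N β ≤
      Real.exp (-(β / 2) * (M * ((N - K * P : ℕ) : ℝ))) *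
        ((P + 1) * Real.exp (L ^ 3 + P) * Real.exp (-(Λ - C1)) ^ (N - P)) := by
    refine hZ1.trans (mul_le_mul_of_nonneg_left (hZ2.trans ?_) (Real.exp_pos _).le)
    exact mul_le_mul_of_nonneg_left (pow_le_pow_left₀ hv0 hv _) (by positivity)
  have hlog : Real.log (partitionFn c L N β) ≤
      -(β / 2) * (M * ((N - K * P : ℕ) : ℝ)) +
        (Real.log (P + 1) + (L ^ 3 + P) - (Λ - C1) * ((N - P : ℕ) : ℝ)) := by
    refine (Real.log_le_log hZ0 hZ3).trans (le_of_eq ?_)
    rw [Real.log_mul (Real.exp_ne_zero _) (by positivity), Real.log_exp, ← Real.exp_nat_mul,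
      Real.log_mul (by positivity) (Real.exp_ne_zero _),
      Real.log_mul (by positivity) (Real.exp_ne_zero _), Real.log_exp, Real.log_exp]
    ring
  have hmf := mf_ineq (N := N) (P := P) (K := K) (Λ := Λ) (C1 := C1) (h := h) (H4 := M / 4)
    (by have := hK.two_le; omega) hC10 hΛ hh
  have hb : -(β / 2) * (M * ((N - K * P : ℕ) : ℝ)) ≤ -(M / 4 * ((N - K * P : ℕ) : ℝ)) := by
    have h0 : 0 ≤ M * ((N - K * P : ℕ) : ℝ) := by positivity
    nlinarith
  linarith

/-- **Module I, upper bound for the base pressure.** -/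
theorem baseUpper (hSA : SuperAddStmt) (hPart : PartitionStmt) : BaseUpperStmt := by
  intro K θ₂ θ₃ p η H hK hp hlim hη
  have hV := V1_nonneg
  set C1 := Real.log (2 * V1 + 1) with hC1
  have hC10 : 0 ≤ C1 := Real.log_nonneg (by linarith)
  have hK1 : 1 ≤ K := by have := hK.two_le; omega
  have hKr : (1 : ℝ) ≤ K := by exact_mod_cast hK1
  refine ⟨max ((C1 * K * p + p + 1) / η) (C1 + 1), ?_, ?_⟩
  · exact lt_max_of_lt_right (by linarith)
  intro Λ hΛ
  have hΛ1 : C1 + 1 ≤ Λ := (le_max_right _ _).trans hΛ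
  have hΛ2 : C1 * K * p + p + 1 ≤ Λ * η := by
    have := (le_max_left _ _).trans hΛ
    rwa [div_le_iff₀ hη] at this
  have hΛ0 : 0 < Λ := by linarith
  refine ⟨4 * Λ * (|H| + 1), ?_⟩
  intro M ξ c hM hc β h hβ1 _hβ2 hh
  have hM4 : 4 * Λ ≤ M := by
    have : 0 ≤ Λ * |H| := by positivity
    nlinarith
  have hhM : Λ * h ≤ M / 4 := by
    have h1 : h ≤ |H| := hh.trans (le_abs_self H)
    have h2 := mul_le_mul_of_nonneg_left h1 hΛ0.le
    nlinarith
  set m : ℝ := max 0 (max h (K * h - (K - 1))) with hm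
  have m0 : 0 ≤ m := le_max_left _ _
  have hMF : MF0 p K h = p * m := by
    unfold MF0
    rw [hm, mul_max_of_nonneg _ _ hp.le, mul_max_of_nonneg _ _ hp.le, mul_zero]
  -- the limit bound
  have hstab := stab_zero hc.nonneg
  have hLZ : ∀ (L : ℝ) (n : ℕ), 0 < L →
      LZ c (fun _ => 0) β L n = Real.log (partitionFn c L n β) := by
    intro L n hL
    have := hPart c (fun _ => 0) 0 hc.toCoreOK attrOK_zero hstab β L n (by linarith) hL
    simp only [sub_zero, mul_zero, zero_div] at this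
    exact this.symm
  unfold Pr
  refine ciSup_le ?_
  rintro ⟨q, n⟩
  simp only
  set b : ℝ := (q : ℝ) + 1 with hb
  have hb0 : 0 < b := by positivity
  have hb3 : (q : ℝ) + 3 = b + 2 := by rw [hb]; ring
  rw [hb3]
  -- the bounding sequence
  let Lj : ℕ → ℝ := fun j => ((j : ℝ) + 1) * (b + 2) - 2
  have hLjpos : ∀ j, 0 < Lj j := by
    intro j
    have : (0 : ℝ) ≤ j := Nat.cast_nonneg j
    simp only [Lj]
    nlinarith
  have hLjtop : Tendsto Lj atTop atTop := by
    have h1 : Tendsto (fun j : ℕ => ((j : ℝ) + 1) * (b + 2)) atTop atTop :=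
      (tendsto_atTop_add_const_right _ _ tendsto_natCast_atTop_atTop).atTop_mul_const (by positivity)
    exact tendsto_atTop_add_const_right _ (-2) h1
  have hbound : ∀ j : ℕ, (Λ * h * n + LZ c (fun _ => 0) β b n) / (b + 2) ^ 3 ≤
      (Λ * m + C1 * K + 1) * (packingNumber (Lj j) / Lj j ^ 3) + 1 +
        Real.log (packingNumber (Lj j) + 1) / Lj j ^ 3 := by
    intro j
    have hsa := hSA c (fun _ => 0) 0 β hc.toCoreOK attrOK_zero hstab (by linarith) b (j + 1) hb0
      (by omega) (fun _ => n)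
    simp only [Finset.sum_const, Finset.card_univ, Fintype.card_pi, Fintype.card_fin,
      Finset.prod_const, nsmul_eq_mul, smul_eq_mul] at hsa
    push_cast at hsa
    have hLjdef : ((j : ℝ) + 1) * (b + 2) - 2 = Lj j := rfl
    rw [hLjdef, hLZ _ _ (hLjpos j)] at hsa
    have hfv := finite_volume hK hc (by linarith) hM4 (β := β) (h := h) hβ1 hhM (hLjpos j)
      ((j + 1) ^ 3 * n)
    push_cast at hfv
    have hj0 : (0 : ℝ) < (j : ℝ) + 1 := by positivity
    have hLb : (Lj j + 2) ^ 3 = ((j : ℝ) + 1) ^ 3 * (b + 2) ^ 3 := by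
      simp only [Lj]; ring
    have e1 : (Λ * h * n + LZ c (fun _ => 0) β b n) / (b + 2) ^ 3 =
        (Λ * h * (((j : ℝ) + 1) ^ 3 * n) + ((j : ℝ) + 1) ^ 3 * LZ c (fun _ => 0) β b n) /
          (Lj j + 2) ^ 3 := by
      rw [hLb]; field_simp
    rw [e1]
    set Q : ℝ := (packingNumber (Lj j) : ℝ) with hQ
    have hQ0 : 0 ≤ Q := Nat.cast_nonneg _
    have hX : 0 < Lj j ^ 3 := pow_pos (hLjpos j) 3
    have hX2 : Lj j ^ 3 ≤ (Lj j + 2) ^ 3 :=
      pow_le_pow_left₀ (hLjpos j).le (by linarith) 3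
    have hlogQ : 0 ≤ Real.log (Q + 1) := Real.log_nonneg (by linarith)
    calc (Λ * h * (((j : ℝ) + 1) ^ 3 * n) + ((j : ℝ) + 1) ^ 3 * LZ c (fun _ => 0) β b n) /
          (Lj j + 2) ^ 3
        ≤ (Λ * Q * m + C1 * K * Q + Lj j ^ 3 + Q + Real.log (Q + 1)) / (Lj j + 2) ^ 3 := by
          refine div_le_div_of_nonneg_right ?_ (hX.le.trans hX2)
          refine le_trans (add_le_add_right hsa _) ?_
          exact hfv
      _ ≤ (Λ * Q * m + C1 * K * Q + Lj j ^ 3 + Q + Real.log (Q + 1)) / Lj j ^ 3 :=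
          div_le_div_of_nonneg_left (by positivity) hX hX2
      _ = _ := by
          have hne : Lj j ≠ 0 := (hLjpos j).ne'
          field_simp
          ring
  have hlimR : Tendsto (fun j : ℕ => (Λ * m + C1 * K + 1) *
      (packingNumber (Lj j) / Lj j ^ 3) + 1 +
        Real.log (packingNumber (Lj j) + 1) / Lj j ^ 3) atTop
      (𝓝 ((Λ * m + C1 * K + 1) * p + 1 + 0)) :=
    (((hlim.comp hLjtop).const_mul _).add_const 1).add
      ((tendsto_log_packing hlim).comp hLjtop)
  have hfin := ge_of_tendsto' hlimR hbound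
  rw [hMF]
  nlinarith

end Crest.Agent.R149.BaseUpper
end

-- ▼ part R149/KGeom
section

/-!
# Row 149: the geometric data `KGeomStmt` and `CoreKStmt`
-/

set_option autoImplicit false

open MeasureTheory Crest.ProbabilityR.Continuum Filter Topology
open scoped ENNReal

namespace Crest.Agent.R149.KGeomMod

open Crest.Agent.R149

theorem abs_coord_le (x y : Pt) (k : Fin 3) : |x k - y k| ≤ dist x y := by
  rw [dist_eq_norm]
  have := PiLp.norm_apply_le (x - y) k
  simpa [Real.norm_eq_abs] using this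

theorem dist_le_of_coord (x y : Pt) {r : ℝ} (hr : 0 ≤ r) (h : ∀ k, |x k - y k| ≤ r) :
    dist x y ≤ 2 * r := by
  rw [EuclideanSpace.dist_eq]
  apply Real.sqrt_le_iff.2
  refine ⟨by positivity, ?_⟩
  have : ∀ k : Fin 3, dist (x k) (y k) ^ 2 ≤ r ^ 2 := by
    intro k
    rw [Real.dist_eq]
    exact pow_le_pow_left₀ (abs_nonneg _) (h k) 2
  rw [Fin.sum_univ_three]
  nlinarith [this 0, this 1, this 2, sq_nonneg r]

/-- The property defining `K`. -/
def Adm (K : ℕ) : Prop :=
  ∃ y : Fin K → Pt, ∀ i j, i ≠ j → 1 / 2 < dist (y i) (y j) ∧ dist (y i) (y j) < 1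

theorem adm_two : Adm 2 := by
  refine ⟨fun i => EuclideanSpace.single (0 : Fin 3) ((i : ℕ) * (3 / 4 : ℝ)), ?_⟩
  intro i j hij
  have key : dist (EuclideanSpace.single (0 : Fin 3) ((i : ℕ) * (3 / 4 : ℝ)) : Pt)
      (EuclideanSpace.single (0 : Fin 3) ((j : ℕ) * (3 / 4 : ℝ))) = 3 / 4 := by
    rw [EuclideanSpace.dist_single_same, Real.dist_eq]
    fin_cases i <;> fin_cases j <;> simp_all <;> norm_num
  rw [key]
  norm_num

theorem adm_le {K : ℕ} (h : Adm K) : K ≤ 11 ^ 3 := by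
  obtain ⟨y, hy⟩ := h
  rcases Nat.eq_zero_or_pos K with h0 | h0
  · omega
  set z : Pt := y ⟨0, h0⟩ with hz
  -- the cell map
  let f : Fin K → (Fin 3 → ℤ) := fun i k => ⌊4 * (y i k - z k)⌋
  have hinj : Function.Injective f := by
    intro i j hij
    by_contra hne
    have h1 := (hy i j hne).1
    have h2 : dist (y i) (y j) ≤ 2 * (1 / 4) := by
      apply dist_le_of_coord _ _ (by norm_num)
      intro k
      have h3 : ⌊4 * (y i k - z k)⌋ = ⌊4 * (y j k - z k)⌋ := congrFun hij k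
      have h4 := Int.abs_sub_lt_one_of_floor_eq_floor h3
      have h5 : 4 * (y i k - z k) - 4 * (y j k - z k) = 4 * (y i k - y j k) := by ring
      rw [h5, abs_mul] at h4
      norm_num at h4
      linarith
    linarith
  have hmem : ∀ i, f i ∈ Fintype.piFinset (fun _ : Fin 3 => Finset.Icc (-5 : ℤ) 5) := by
    intro i
    rw [Fintype.mem_piFinset]
    intro k
    have h1 : |y i k - z k| ≤ 1 := by
      refine (abs_coord_le (y i) z k).trans ?_
      by_cases hi : i = ⟨0, h0⟩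
      · rw [hz, hi, dist_self]; norm_num
      · exact (hy i _ hi).2.le
    rw [abs_le] at h1
    rw [Finset.mem_Icc]
    constructor
    · apply Int.le_floor.2
      push_cast
      linarith [h1.1]
    · have : ((⌊4 * (y i k - z k)⌋ : ℤ) : ℝ) ≤ 4 * (y i k - z k) := Int.floor_le _
      have h6 : ((⌊4 * (y i k - z k)⌋ : ℤ) : ℝ) ≤ 5 := by linarith [h1.2]
      exact_mod_cast h6
  have := Finset.card_le_card_of_injOn (s := (Finset.univ : Finset (Fin K))) f
    (fun i _ => hmem i) (fun a _ b _ hab => hinj hab)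
  rw [Finset.card_univ, Fintype.card_fin, Fintype.card_piFinset] at this
  simpa using this

theorem kgeom : KGeomStmt := by
  classical
  obtain ⟨K, hK, hmax⟩ : ∃ K, Adm K ∧ ∀ K', Adm K' → K' ≤ K := by
    refine ⟨Nat.findGreatest Adm (11 ^ 3), ?_, ?_⟩
    · exact Nat.findGreatest_spec (adm_le adm_two) adm_two
    · intro K' hK'
      exact Nat.le_findGreatest (adm_le hK') hK'
  have h2 : 2 ≤ K := hmax 2 adm_two
  obtain ⟨y, hy⟩ := hK
  -- the finite set of pairs
  let P : Finset (Fin K × Fin K) := Finset.univ.filter (fun q => q.1 ≠ q.2)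
  have hP : P.Nonempty := by
    refine ⟨(⟨0, by omega⟩, ⟨1, by omega⟩), ?_⟩
    simp [P]
  let g : Fin K × Fin K → ℝ := fun q => dist (y q.1) (y q.2)
  obtain ⟨a, ha, hamin⟩ := Finset.exists_min_image P g hP
  obtain ⟨b, hb, hbmax⟩ := Finset.exists_max_image P g hP
  have ha' : a.1 ≠ a.2 := by simpa [P] using ha
  have hb' : b.1 ≠ b.2 := by simpa [P] using hb
  have ha1 := (hy a.1 a.2 ha').1
  have hb1 := (hy b.1 b.2 hb').2
  have hab : g a ≤ g b := hamin b hb
  have hga : g a = dist (y a.1) (y a.2) := rfl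
  have hgb : g b = dist (y b.1) (y b.2) := rfl
  refine ⟨K, (1 / 2 + g a) / 2, (g b + 1) / 2, h2, ?_, ?_, ?_, ⟨y, ?_⟩, ?_⟩
  · rw [hga]; linarith
  · rw [← hga] at ha1; rw [← hgb] at hb1; linarith
  · rw [hgb]; linarith
  · intro i j hij
    have hmem : (i, j) ∈ P := by simp [P, hij]
    have h3 := hamin _ hmem
    have h4 := hbmax _ hmem
    have h5 : g (i, j) = dist (y i) (y j) := rfl
    rw [h5] at h3 h4
    constructor
    · rw [← hga] at ha1; linarith
    · rw [← hgb] at hb1; linarith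
  · intro y' hy'
    have := hmax (K + 1) ⟨y', hy'⟩
    omega

theorem coreK : CoreKStmt := by
  intro K θ₂ θ₃ ξ δ M c hK hc x hx
  by_contra hcon
  push Not at hcon
  apply hK.nex (fun i => (1 / δ) • x i)
  intro i j hij
  have hlt := hcon i j hij
  have hδ := hc.hδ
  have h1 : δ / 2 < dist (x i) (x j) := by
    by_contra h
    exact absurd (hc.big1 _ dist_nonneg (not_lt.1 h)) (not_le.2 hlt)
  have h2 : dist (x i) (x j) < δ := by
    by_contra h
    exact absurd (hc.big2 _ (not_lt.1 h) (hx i j)) (not_le.2 hlt)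
  have h3 : dist ((1 / δ) • x i) ((1 / δ) • x j) = (1 / δ) * dist (x i) (x j) := by
    rw [dist_smul₀, Real.norm_of_nonneg (by positivity)]
  rw [h3]
  constructor
  · rw [one_div_mul_eq_div, lt_div_iff₀ hδ]; linarith
  · rw [one_div_mul_eq_div, div_lt_one hδ]; exact h2

end Crest.Agent.R149.KGeomMod

namespace Crest.Agent.R149

theorem kgeom : KGeomStmt := KGeomMod.kgeom

theorem coreK : CoreKStmt := KGeomMod.coreK

end Crest.Agent.R149
end

-- ▼ part R149/AttrProps
section

/-!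
Row 149: properties of the full multi-scale attraction `αi` (module `AttrPropsStmt`).
(helper849)
-/

set_option autoImplicit false

namespace Crest.Agent.R149

open MeasureTheory Metric Set Crest.ProbabilityR.Continuum Filter Topology

namespace AttrP

variable {N : ℕ} {a0 : ℝ}

lemma xk_ge (hN : 4 ≤ N) (k : ℕ) : (4 : ℝ) ^ (k + 1) ≤ (N : ℝ) ^ (2 ^ k) := by
  have hN' : (4 : ℝ) ≤ N := by exact_mod_cast hN
  calc (4 : ℝ) ^ (k + 1) ≤ (N : ℝ) ^ (k + 1) := pow_le_pow_left₀ (by norm_num) hN' _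
    _ ≤ (N : ℝ) ^ (2 ^ k) := by
        apply pow_le_pow_right₀ (by linarith)
        exact Nat.lt_two_pow_self

lemma scR_eq (k : ℕ) : scR N k = ((N : ℝ) ^ (2 ^ k)) ^ 32 := by
  unfold scR; rw [← pow_mul, mul_comm]

lemma scR_ge (hN : 4 ≤ N) (k : ℕ) : 100 ≤ scR N k := by
  rw [scR_eq]
  have h1 : (4 : ℝ) ≤ (N : ℝ) ^ (2 ^ k) := by
    refine le_trans ?_ (xk_ge hN k)
    calc (4 : ℝ) = 4 ^ 1 := by norm_num
      _ ≤ 4 ^ (k + 1) := pow_le_pow_right₀ (by norm_num) (by omega)
  calc (100 : ℝ) ≤ 4 ^ 32 := by norm_num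
    _ ≤ _ := pow_le_pow_left₀ (by norm_num) h1 _

lemma scR_pos (hN : 4 ≤ N) (k : ℕ) : 0 < scR N k := by
  have := scR_ge hN k; linarith

lemma scR_mono (hN : 4 ≤ N) {j k : ℕ} (h : j ≤ k) : scR N j ≤ scR N k := by
  unfold scR
  have hN' : (4 : ℝ) ≤ N := by exact_mod_cast hN
  apply pow_le_pow_right₀ (by linarith)
  exact Nat.mul_le_mul_left _ (Nat.pow_le_pow_right (by norm_num) h)

lemma scA_pos (hN : 4 ≤ N) (ha : 0 < a0) (k : ℕ) : 0 < scA N a0 k := by
  unfold scA
  have hN' : (4 : ℝ) ≤ N := by exact_mod_cast hN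
  split_ifs
  · exact ha
  · have : (0 : ℝ) < N := by linarith
    positivity

lemma scA_nonneg (hN : 4 ≤ N) (ha : 0 < a0) (k : ℕ) : 0 ≤ scA N a0 k := (scA_pos hN ha k).le

lemma scA_succ_le (hN : 4 ≤ N) (k : ℕ) : scA N a0 (k + 1) ≤ (1 / 4) * (1 / 4 : ℝ) ^ (k + 1) := by
  unfold scA
  rw [if_neg (by omega)]
  rw [← pow_succ', one_div, inv_pow]
  apply inv_anti₀ (by positivity)
  exact xk_ge hN (k + 1)

lemma summable_scA_succ (hN : 4 ≤ N) : Summable (fun k => scA N a0 (k + 1)) := by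
  have hN' : (4 : ℝ) ≤ N := by exact_mod_cast hN
  have hs : Summable (fun k : ℕ => (1 / 4) * (1 / 4 : ℝ) ^ (k + 1)) := by
    apply Summable.mul_left
    exact (summable_nat_add_iff 1).2 (summable_geometric_of_lt_one (by norm_num) (by norm_num))
  refine Summable.of_nonneg_of_le (fun k => ?_) (fun k => scA_succ_le hN k) hs
  unfold scA
  rw [if_neg (by omega)]
  positivity

lemma summable_scA (hN : 4 ≤ N) : Summable (scA N a0) :=
  (summable_nat_add_iff 1).1 (summable_scA_succ hN)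

lemma tsum_scA_le (hN : 4 ≤ N) : ∑' k, scA N a0 k ≤ a0 + 1 := by
  rw [(summable_scA hN).tsum_eq_zero_add]
  have h0 : scA N a0 0 = a0 := by simp [scA]
  rw [h0]
  have hs : HasSum (fun k : ℕ => (1 / 4) * (1 / 4 : ℝ) ^ (k + 1)) ((1 / 4) * ((1 / 4) * (1 - 1 / 4)⁻¹)) := by
    apply HasSum.mul_left
    have := (hasSum_geometric_of_lt_one (r := (1 / 4 : ℝ)) (by norm_num) (by norm_num)).mul_left (1 / 4)
    simpa [pow_succ'] using this
  have h1 : ∑' k, scA N a0 (k + 1) ≤ (1 / 4) * ((1 / 4) * (1 - 1 / 4)⁻¹) := by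
    rw [← hs.tsum_eq]
    exact (summable_scA_succ hN).tsum_le_tsum (fun k => scA_succ_le hN k) hs.summable
  have : ((1 / 4 : ℝ) * ((1 / 4) * (1 - 1 / 4)⁻¹)) ≤ 1 := by norm_num
  linarith

lemma wk_nonneg' (R r : ℝ) : 0 ≤ wk R r := kernelProps.nonneg R r

lemma vB_one_pos : 0 < vB 1 := vB_pos one_pos

lemma wk_le_pow {R : ℝ} (hR : 0 < R) (r : ℝ) : wk R r ≤ 1 / (vB 1 * R ^ 3) := by
  have := kernelProps.le R r hR
  rwa [kernelProps.vB_scale R hR.le, mul_comm (R ^ 3)] at this

lemma wk_le_one {R : ℝ} (hR : 1 ≤ R) (r : ℝ) : wk R r ≤ 1 / vB 1 := by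
  refine (wk_le_pow (by linarith) r).trans ?_
  apply one_div_le_one_div_of_le vB_one_pos
  have : 1 ≤ R ^ 3 := one_le_pow₀ hR
  nlinarith [vB_one_pos]

lemma term_nonneg (hN : 4 ≤ N) (ha : 0 < a0) (k : ℕ) (r : ℝ) :
    0 ≤ scA N a0 k * wk (scR N k) r :=
  mul_nonneg (scA_nonneg hN ha k) (wk_nonneg' _ _)

lemma term_le (hN : 4 ≤ N) (ha : 0 < a0) (k : ℕ) (r : ℝ) :
    scA N a0 k * wk (scR N k) r ≤ scA N a0 k * (1 / vB 1) :=
  mul_le_mul_of_nonneg_left (wk_le_one (by linarith [scR_ge hN k]) r) (scA_nonneg hN ha k)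

lemma summable_term (hN : 4 ≤ N) (ha : 0 < a0) (r : ℝ) :
    Summable (fun k => scA N a0 k * wk (scR N k) r) :=
  Summable.of_nonneg_of_le (fun k => term_nonneg hN ha k r) (fun k => term_le hN ha k r)
    ((summable_scA hN).mul_right _)

lemma measurable_wk {R : ℝ} (hR : 0 < R) : Measurable (wk R) := (kernelProps.cont R hR).measurable

lemma αi_nonneg (hN : 4 ≤ N) (ha : 0 < a0) (r : ℝ) : 0 ≤ αi N a0 r :=
  tsum_nonneg fun k => term_nonneg hN ha k r

lemma continuous_αi (hN : 4 ≤ N) (ha : 0 < a0) : Continuous (αi N a0) := by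
  unfold αi
  apply continuous_tsum (u := fun k => scA N a0 k * (1 / vB 1))
  · intro k
    exact continuous_const.mul (kernelProps.cont _ (scR_pos hN k))
  · exact (summable_scA hN).mul_right _
  · intro k r
    rw [Real.norm_eq_abs, abs_of_nonneg (term_nonneg hN ha k r)]
    exact term_le hN ha k r

lemma αi_le (hN : 4 ≤ N) (ha : 0 < a0) (r : ℝ) : αi N a0 r ≤ ∑' k, scA N a0 k * (1 / vB 1) :=
  (summable_term hN ha r).tsum_le_tsum (fun k => term_le hN ha k r)
    ((summable_scA hN).mul_right _)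

lemma αk_le_αi (hN : 4 ≤ N) (ha : 0 < a0) (k : ℕ) (r : ℝ) : αk N a0 k r ≤ αi N a0 r :=
  (summable_term hN ha r).sum_le_tsum _ (fun j _ => term_nonneg hN ha j r)

lemma αk_nonneg (hN : 4 ≤ N) (ha : 0 < a0) (k : ℕ) (r : ℝ) : 0 ≤ αk N a0 k r :=
  Finset.sum_nonneg fun j _ => term_nonneg hN ha j r

lemma okk (hN : 4 ≤ N) (ha : 0 < a0) (k : ℕ) : AttrOK (αk N a0 k) where
  meas := by
    unfold αk
    exact Finset.measurable_sum _ fun j _ =>
      (measurable_wk (scR_pos hN j)).const_mul _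
  nonneg r := αk_nonneg hN ha k r
  bdd := ⟨_, fun r => (αk_le_αi hN ha k r).trans (αi_le hN ha r)⟩

/-! ### the functional `A` -/


lemma A_αk {ι : Type} [Fintype ι] (k : ℕ) (x : ι → Pt) :
    A (αk N a0 k) x = ∑ j ∈ Finset.range k, scA N a0 j * A (wk (scR N j)) x := by
  unfold A SS αk
  rw [Finset.sum_congr rfl fun i _ => Finset.sum_comm, Finset.sum_comm, Finset.sum_div]
  apply Finset.sum_congr rfl
  intro j _
  rw [Finset.sum_congr rfl fun i _ => (Finset.mul_sum _ _ _).symm, ← Finset.mul_sum]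
  ring

lemma hasSum_A_αi (hN : 4 ≤ N) (ha : 0 < a0) {ι : Type} [Fintype ι] (x : ι → Pt) :
    HasSum (fun j => scA N a0 j * A (wk (scR N j)) x) (A (αi N a0) x) := by
  have h1 : HasSum (fun k => ∑ i, ∑ j, scA N a0 k * wk (scR N k) (dist (x i) (x j)))
      (∑ i, ∑ j, αi N a0 (dist (x i) (x j))) :=
    hasSum_sum fun i _ => hasSum_sum fun j _ => (summable_term hN ha _).hasSum
  have h2 := h1.div_const 2
  unfold A SS
  refine h2.congr_fun ?_
  intro k
  rw [Finset.sum_congr rfl fun i _ => (Finset.mul_sum _ _ _).symm, ← Finset.mul_sum]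
  ring

lemma N2_nonneg {ι : Type} [Fintype ι] (s : ℝ) (z : Fin 3 → ℝ) (x : ι → Pt) : 0 ≤ N2 s z x := by
  classical
  unfold N2
  exact Finset.sum_nonneg fun i _ => Finset.sum_nonneg fun j _ => by split_ifs <;> norm_num

lemma A_wk_le (hE2 : E2Stmt) {R : ℝ} (hR : 100 ≤ R) {ι : Type} [Fintype ι] (x : ι → Pt) :
    A (wk R) x ≤ 8 * N2 (1 / 2) 0 x := by
  have hR0 : 0 < R := by linarith
  refine (hE2 R (1 / 2) 0 hR0 (by norm_num) ι x).trans ?_
  apply mul_le_mul_of_nonneg_right _ (N2_nonneg _ _ _)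
  have h1 : (1 + 2 * (1 / 2) / R) ≤ 101 / 100 := by
    have : 2 * (1 / 2) / R ≤ 1 / 100 := by
      rw [div_le_div_iff₀ hR0 (by norm_num)]; linarith
    linarith
  have h0 : 0 ≤ (1 + 2 * (1 / 2) / R) := by positivity
  have h2 : (1 + 2 * (1 / 2) / R) ^ 6 ≤ (101 / 100 : ℝ) ^ 6 := pow_le_pow_left₀ h0 h1 6
  have h3 : (101 / 100 : ℝ) ^ 6 ≤ 2 := by norm_num
  have h4 : (1 + 2 * (1 / 2) / R) ^ 6 ≤ 2 := h2.trans h3
  calc (1 + 2 * (1 / 2) / R) ^ 6 / (2 * (1 / 2) ^ 3) ≤ 2 / (2 * (1 / 2) ^ 3) := by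
        apply div_le_div_of_nonneg_right h4 (by norm_num)
    _ = 8 := by norm_num


lemma bound (hE2 : E2Stmt) (hN : 4 ≤ N) (ha : 0 < a0) : AttrBound (αi N a0) (8 * (a0 + 1)) := by
  refine ⟨by linarith, fun ι _ x => ?_⟩
  have h1 := hasSum_A_αi hN ha x
  rw [← h1.tsum_eq]
  have h2 : ∀ j, scA N a0 j * A (wk (scR N j)) x ≤ scA N a0 j * (8 * N2 (1 / 2) 0 x) := fun j =>
    mul_le_mul_of_nonneg_left (A_wk_le hE2 (scR_ge hN j) x) (scA_nonneg hN ha j)
  refine (h1.summable.tsum_le_tsum h2 ((summable_scA hN).mul_right _)).trans ?_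
  rw [tsum_mul_right]
  have h3 := tsum_scA_le (N := N) (a0 := a0) hN
  have h4 := N2_nonneg (1 / 2) 0 x
  nlinarith

lemma tail (hE2 : E2Stmt) (hN : 4 ≤ N) (ha : 0 < a0) :
    ∃ τ : ℕ → ℝ, (∀ k, 0 ≤ τ k) ∧ Tendsto τ atTop (𝓝 0) ∧
    ∀ (k : ℕ) (ι : Type) [Fintype ι] (x : ι → Pt),
      A (αi N a0) x ≤ A (αk N a0 k) x + τ k * N2 (1 / 2) 0 x := by
  refine ⟨fun k => (∑' j, scA N a0 (j + k)) * 8, ?_, ?_, ?_⟩
  · intro k
    have : 0 ≤ ∑' j, scA N a0 (j + k) := tsum_nonneg fun j => scA_nonneg hN ha _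
    positivity
  · have := (tendsto_sum_nat_add (scA N a0)).mul_const 8
    simpa using this
  · intro k ι _ x
    have h1 := hasSum_A_αi hN ha x
    rw [← h1.tsum_eq, A_αk, ← h1.summable.sum_add_tsum_nat_add k]
    have h2 : ∀ j, scA N a0 (j + k) * A (wk (scR N (j + k))) x
        ≤ scA N a0 (j + k) * (8 * N2 (1 / 2) 0 x) := fun j =>
      mul_le_mul_of_nonneg_left (A_wk_le hE2 (scR_ge hN _) x) (scA_nonneg hN ha _)
    have h3 := ((summable_nat_add_iff k).2 h1.summable).tsum_le_tsum h2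
      (((summable_nat_add_iff k).2 (summable_scA hN)).mul_right _)
    rw [tsum_mul_right] at h3
    linarith

/-! ### decay -/

lemma xk_succ (k : ℕ) : (N : ℝ) ^ (2 ^ (k + 1)) = ((N : ℝ) ^ (2 ^ k)) ^ 2 := by
  rw [← pow_mul, pow_succ]

lemma xk_add_ge (hN : 4 ≤ N) (j i : ℕ) :
    (4 : ℝ) ^ i * (N : ℝ) ^ (2 ^ j) ≤ (N : ℝ) ^ (2 ^ (j + i)) := by
  induction i with
  | zero => simp
  | succ i ih =>
    have h4 : (4 : ℝ) ≤ (N : ℝ) ^ (2 ^ (j + i)) := by
      refine le_trans ?_ (xk_ge hN (j + i))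
      calc (4 : ℝ) = 4 ^ 1 := by norm_num
        _ ≤ 4 ^ (j + i + 1) := pow_le_pow_right₀ (by norm_num) (by omega)
    have : (N : ℝ) ^ (2 ^ (j + (i + 1))) = ((N : ℝ) ^ (2 ^ (j + i))) ^ 2 := by
      rw [← add_assoc, xk_succ]
    rw [this, pow_succ]
    nlinarith

lemma decay (hN : 4 ≤ N) (ha : 0 < a0) :
    ∃ C : ℝ, ∀ r, 1 ≤ r → αi N a0 r ≤ C * r ^ (-(3 + 1 / 32 : ℝ)) := by
  have hN' : (4 : ℝ) ≤ N := by exact_mod_cast hN
  have hN0 : (0 : ℝ) < N := by linarith
  set D : ℝ := (a0 * N + 1) / vB 1 with hD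
  have hD0 : 0 ≤ D := by have := vB_one_pos; positivity
  refine ⟨D * (2 * 2 ^ (3 + 1 / 32 : ℝ)), fun r hr => ?_⟩
  have hr0 : 0 < r := by linarith
  -- termwise bound
  have hterm : ∀ j, scA N a0 j * wk (scR N j) r ≤ D * ((N : ℝ) ^ (2 ^ j))⁻¹ ^ 97 := by
    intro j
    have hx : 0 < (N : ℝ) ^ (2 ^ j) := by positivity
    have h1 : wk (scR N j) r ≤ 1 / (vB 1 * (scR N j) ^ 3) := wk_le_pow (scR_pos hN j) r
    have h2 : scA N a0 j ≤ (a0 * N + 1) * ((N : ℝ) ^ (2 ^ j))⁻¹ := by
      unfold scA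
      split_ifs with hj
      · subst hj
        simp only [pow_zero, pow_one]
        rw [add_mul, mul_assoc, mul_inv_cancel₀ hN0.ne']
        have : 0 ≤ 1 * (N : ℝ)⁻¹ := by positivity
        linarith
      · have : 1 ≤ a0 * N + 1 := by nlinarith
        have h0 : 0 ≤ ((N : ℝ) ^ (2 ^ j))⁻¹ := by positivity
        nlinarith
    calc scA N a0 j * wk (scR N j) r
        ≤ ((a0 * N + 1) * ((N : ℝ) ^ (2 ^ j))⁻¹) * (1 / (vB 1 * (scR N j) ^ 3)) := by
          apply mul_le_mul h2 h1 (wk_nonneg' _ _)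
          positivity
      _ = D * ((N : ℝ) ^ (2 ^ j))⁻¹ ^ 97 := by
          rw [scR_eq, hD]
          have := vB_one_pos.ne'
          field_simp
  -- vanishing
  have hvan : ∀ j, 2 * scR N j ≤ r → scA N a0 j * wk (scR N j) r = 0 := by
    intro j hj
    rw [kernelProps.far _ _ (scR_pos hN j) hj, mul_zero]
  -- first scale exceeding r/2
  have hex : ∃ j, r < 2 * scR N j := by
    obtain ⟨n, hn⟩ := pow_unbounded_of_one_lt r (by norm_num : (1 : ℝ) < 4)
    refine ⟨n, hn.trans_le ?_⟩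
    have h1 := xk_ge hN n
    have h2 : (4 : ℝ) ^ n ≤ 4 ^ (n + 1) := pow_le_pow_right₀ (by norm_num) (by omega)
    have h3 : (N : ℝ) ^ (2 ^ n) ≤ scR N n := by
      rw [scR_eq]
      have : (1 : ℝ) ≤ (N : ℝ) ^ (2 ^ n) := one_le_pow₀ (by linarith)
      exact le_self_pow₀ this (by norm_num)
    have h4 := scR_pos hN n
    linarith
  classical
  set j0 := Nat.find hex with hj0
  have hj0lt : r < 2 * scR N j0 := Nat.find_spec hex
  have hj0min : ∀ j, j < j0 → 2 * scR N j ≤ r := fun j hj => not_lt.1 (Nat.find_min hex hj)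
  set M : ℝ := D * ((N : ℝ) ^ (2 ^ j0))⁻¹ ^ 97 with hM
  have hM0 : 0 ≤ M := by positivity
  have hsum := summable_term hN ha r
  have hsplit : αi N a0 r = ∑' i, scA N a0 (i + j0) * wk (scR N (i + j0)) r := by
    unfold αi
    rw [← hsum.sum_add_tsum_nat_add j0]
    rw [Finset.sum_eq_zero, zero_add]
    intro j hj
    exact hvan j (hj0min j (Finset.mem_range.1 hj))
  have hgeo : HasSum (fun i : ℕ => M * (1 / 2 : ℝ) ^ i) (M * 2) := by
    have := (hasSum_geometric_two).mul_left M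
    simpa using this
  have hle : ∀ i, scA N a0 (i + j0) * wk (scR N (i + j0)) r ≤ M * (1 / 2 : ℝ) ^ i := by
    intro i
    refine (hterm (i + j0)).trans ?_
    rw [hM, mul_assoc]
    apply mul_le_mul_of_nonneg_left _ hD0
    have hx : 0 < (N : ℝ) ^ (2 ^ j0) := by positivity
    have h1 := xk_add_ge hN j0 i
    rw [add_comm j0 i] at h1
    have h2 : ((N : ℝ) ^ (2 ^ (i + j0)))⁻¹ ≤ ((N : ℝ) ^ (2 ^ j0))⁻¹ * (1 / 4) ^ i := by
      rw [one_div, inv_pow, ← mul_inv]
      apply inv_anti₀ (by positivity)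
      linarith
    calc ((N : ℝ) ^ (2 ^ (i + j0)))⁻¹ ^ 97
        ≤ (((N : ℝ) ^ (2 ^ j0))⁻¹ * (1 / 4) ^ i) ^ 97 :=
          pow_le_pow_left₀ (by positivity) h2 _
      _ = ((N : ℝ) ^ (2 ^ j0))⁻¹ ^ 97 * ((1 / 4 : ℝ) ^ i) ^ 97 := by rw [mul_pow]
      _ ≤ ((N : ℝ) ^ (2 ^ j0))⁻¹ ^ 97 * (1 / 2) ^ i := by
          apply mul_le_mul_of_nonneg_left _ (by positivity)
          calc ((1 / 4 : ℝ) ^ i) ^ 97 ≤ ((1 / 4 : ℝ) ^ i) ^ 1 := by
                apply pow_le_pow_of_le_one (by positivity) _ (by norm_num)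
                exact pow_le_one₀ (by norm_num) (by norm_num)
            _ = (1 / 4 : ℝ) ^ i := by rw [pow_one]
            _ ≤ (1 / 2) ^ i := pow_le_pow_left₀ (by norm_num) (by norm_num) _
  have hsum' : Summable (fun i => scA N a0 (i + j0) * wk (scR N (i + j0)) r) :=
    (summable_nat_add_iff j0).2 hsum
  have h5 : αi N a0 r ≤ M * 2 := by
    rw [hsplit, ← hgeo.tsum_eq]
    exact hsum'.tsum_le_tsum hle hgeo.summable
  -- compare x_{j0}^{-97} with r^{-97/32}
  have hxr : ((N : ℝ) ^ (2 ^ j0))⁻¹ ^ 97 ≤ 2 ^ (3 + 1 / 32 : ℝ) * r ^ (-(3 + 1 / 32 : ℝ)) := by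
    set X : ℝ := (N : ℝ) ^ (2 ^ j0) with hX
    have hX0 : 0 < X := by positivity
    have h6 : r < 2 * X ^ 32 := by rw [hX, ← scR_eq]; exact hj0lt
    have h7 : r ^ (3 + 1 / 32 : ℝ) ≤ (2 * X ^ 32) ^ (3 + 1 / 32 : ℝ) :=
      Real.rpow_le_rpow hr0.le h6.le (by norm_num)
    have h8 : (2 * X ^ 32) ^ (3 + 1 / 32 : ℝ) = 2 ^ (3 + 1 / 32 : ℝ) * X ^ 97 := by
      rw [Real.mul_rpow (by norm_num) (by positivity)]
      congr 1
      rw [← Real.rpow_natCast X 32, ← Real.rpow_mul hX0.le, ← Real.rpow_natCast X 97]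
      norm_num
    rw [h8] at h7
    rw [Real.rpow_neg hr0.le, inv_pow]
    have hrp : 0 < r ^ (3 + 1 / 32 : ℝ) := Real.rpow_pos_of_pos hr0 _
    rw [inv_eq_one_div, ← div_eq_mul_inv, div_le_div_iff₀ (by positivity) hrp]
    linarith
  calc αi N a0 r ≤ M * 2 := h5
    _ = D * ((N : ℝ) ^ (2 ^ j0))⁻¹ ^ 97 * 2 := by rw [hM]
    _ ≤ D * (2 ^ (3 + 1 / 32 : ℝ) * r ^ (-(3 + 1 / 32 : ℝ))) * 2 := by
        apply mul_le_mul_of_nonneg_right _ (by norm_num)
        exact mul_le_mul_of_nonneg_left hxr hD0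
    _ = D * (2 * 2 ^ (3 + 1 / 32 : ℝ)) * r ^ (-(3 + 1 / 32 : ℝ)) := by ring

end AttrP

open AttrP in
/-- **Module `AttrPropsStmt`.** -/
theorem attrProps (hE2 : E2Stmt) : AttrPropsStmt := by
  intro N a0 hN ha
  refine
    { ok := ⟨(continuous_αi hN ha).measurable, αi_nonneg hN ha, ⟨_, αi_le hN ha⟩⟩
      okk := okk hN ha
      cont := continuous_αi hN ha
      le := αk_le_αi hN ha
      farR := ?_
      decay := decay hN ha
      pos := ?_
      bound := bound hE2 hN ha
      tail := tail hE2 hN ha }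
  · intro k r hr
    unfold αk
    apply Finset.sum_eq_zero
    intro j hj
    have hjk : j ≤ k := Nat.lt_succ_iff.1 (Finset.mem_range.1 hj)
    rw [kernelProps.far _ _ (scR_pos hN j) (by linarith [scR_mono hN hjk]), mul_zero]
  · have hR := scR_ge hN 0
    have hv := kernelProps.vB_pos _ (scR_pos hN 0)
    have hv1 := vB_one_pos
    have h15 : 0 < scR N 0 - 3 / 2 := by linarith
    refine ⟨a0 * ((scR N 0 - 3 / 2) ^ 3 * vB 1 / (vB (scR N 0)) ^ 2), by positivity, ?_⟩
    intro r hr2 hr3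
    have h1 := kernelProps.pos (scR N 0) r (by linarith) (by linarith) hr3
    have h2 : scA N a0 0 * wk (scR N 0) r ≤ αi N a0 r :=
      (summable_term hN ha r).le_tsum 0 (fun j _ => term_nonneg hN ha j r)
    have h0 : scA N a0 0 = a0 := by simp [scA]
    rw [h0] at h2
    exact (mul_le_mul_of_nonneg_left h1 ha.le).trans h2

end Crest.Agent.R149
end

-- ▼ part R149/Cores12
section

/-!
# Row 149: the two cores (`Core1Stmt`, `Core2Stmt`)
-/

set_option autoImplicit false

open MeasureTheory Crest.ProbabilityR.Continuum Filter Topology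
open scoped ENNReal

namespace Crest.Agent.R149

namespace Cores12

/-- decreasing ramp: `1` up to `a`, `0` from `b` on. -/
noncomputable def dn (a b r : ℝ) : ℝ := max 0 (min 1 ((b - r) / (b - a)))

/-- increasing ramp: `0` up to `a`, `1` from `b` on. -/
noncomputable def up (a b r : ℝ) : ℝ := max 0 (min 1 ((r - a) / (b - a)))

lemma dn_nonneg (a b r : ℝ) : 0 ≤ dn a b r := le_max_left _ _
lemma up_nonneg (a b r : ℝ) : 0 ≤ up a b r := le_max_left _ _
lemma dn_le (a b r : ℝ) : dn a b r ≤ 1 := max_le zero_le_one (min_le_left _ _)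
lemma up_le (a b r : ℝ) : up a b r ≤ 1 := max_le zero_le_one (min_le_left _ _)

lemma dn_one {a b r : ℝ} (h : a < b) (hr : r ≤ a) : dn a b r = 1 := by
  unfold dn
  have : 1 ≤ (b - r) / (b - a) := by
    rw [le_div_iff₀ (by linarith)]; linarith
  rw [min_eq_left this, max_eq_right zero_le_one]

lemma dn_zero {a b r : ℝ} (h : a < b) (hr : b ≤ r) : dn a b r = 0 := by
  unfold dn
  have : (b - r) / (b - a) ≤ 0 := div_nonpos_of_nonpos_of_nonneg (by linarith) (by linarith)
  exact max_eq_left ((min_le_right _ _).trans this)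

lemma up_one {a b r : ℝ} (h : a < b) (hr : b ≤ r) : up a b r = 1 := by
  unfold up
  have : 1 ≤ (r - a) / (b - a) := by
    rw [le_div_iff₀ (by linarith)]; linarith
  rw [min_eq_left this, max_eq_right zero_le_one]

lemma up_zero {a b r : ℝ} (h : a < b) (hr : r ≤ a) : up a b r = 0 := by
  unfold up
  have : (r - a) / (b - a) ≤ 0 := div_nonpos_of_nonpos_of_nonneg (by linarith) (by linarith)
  exact max_eq_left ((min_le_right _ _).trans this)

lemma continuous_dn (a b : ℝ) : Continuous (dn a b) := by unfold dn; fun_prop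
lemma continuous_up (a b : ℝ) : Continuous (up a b) := by unfold up; fun_prop

/-- the bounded continuous core -/
noncomputable def core (θ₂ θ₃ ξ δ M r : ℝ) : ℝ :=
  M * (dn (δ / 2) (θ₂ * δ) r + up (θ₃ * δ) δ r * dn 1 (1 + ξ) r)

lemma lintegral_core_ne_top {c : ℝ → ℝ} {M : ℝ} (h : ∀ r, c r ≤ M) (h2 : ∀ r, 2 ≤ r → c r = 0) :
    ∫⁻ y : Pt, ENNReal.ofReal (c ‖y‖) ≠ ⊤ := by
  have h1 : ∀ y : Pt, ENNReal.ofReal (c ‖y‖) ≤
      (Metric.closedBall (0 : Pt) 2).indicator (fun _ => ENNReal.ofReal M) y := by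
    intro y
    by_cases hy : y ∈ Metric.closedBall (0 : Pt) 2
    · rw [Set.indicator_of_mem hy]
      exact ENNReal.ofReal_le_ofReal (h _)
    · rw [Set.indicator_of_notMem hy]
      have : 2 ≤ ‖y‖ := by
        rw [mem_closedBall_zero_iff, not_le] at hy; exact hy.le
      rw [h2 _ this]; simp
  refine ne_top_of_le_ne_top ?_ (lintegral_mono h1)
  rw [lintegral_indicator Metric.isClosed_closedBall.measurableSet, setLIntegral_const]
  exact ENNReal.mul_ne_top ENNReal.ofReal_ne_top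
    (isCompact_closedBall (0 : Pt) 2).measure_lt_top.ne

section
variable {θ₂ θ₃ ξ δ M : ℝ} (h12 : 1 / 2 < θ₂) (h23 : θ₂ < θ₃) (h31 : θ₃ < 1) (hξ : 0 < ξ)
  (hξ1 : ξ ≤ 1) (hδ : 0 < δ) (hδ1 : δ ≤ 1 / 4) (hM : 0 ≤ M)
include h12 h23 h31 hξ hξ1 hδ hδ1 hM

lemma core_type : CoreType (core θ₂ θ₃ ξ δ M) θ₂ θ₃ ξ δ M ∧
    Continuous (core θ₂ θ₃ ξ δ M) ∧ ∀ r, core θ₂ θ₃ ξ δ M r ≤ M := by
  have hA : δ / 2 < θ₂ * δ := by nlinarith
  have hB : θ₃ * δ < δ := by nlinarith
  have hAB : θ₂ * δ < θ₃ * δ := by nlinarith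
  have hC : (1 : ℝ) < 1 + ξ := by linarith
  have hcont : Continuous (core θ₂ θ₃ ξ δ M) := by
    unfold core
    exact continuous_const.mul ((continuous_dn _ _).add ((continuous_up _ _).mul (continuous_dn _ _)))
  have hle : ∀ r, core θ₂ θ₃ ξ δ M r ≤ M := by
    intro r
    unfold core
    have h : dn (δ / 2) (θ₂ * δ) r + up (θ₃ * δ) δ r * dn 1 (1 + ξ) r ≤ 1 := by
      rcases le_total r (θ₂ * δ) with hr | hr
      · rw [up_zero hB (hr.trans hAB.le)]
        have := dn_le (δ / 2) (θ₂ * δ) r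
        linarith
      · rw [dn_zero hA hr]
        have h1 := up_le (θ₃ * δ) δ r
        have h2 := dn_le 1 (1 + ξ) r
        have h3 := up_nonneg (θ₃ * δ) δ r
        have h4 := dn_nonneg 1 (1 + ξ) r
        nlinarith
    nlinarith
  have hfar' : ∀ r, 1 + ξ ≤ r → core θ₂ θ₃ ξ δ M r = 0 := by
    intro r hr
    unfold core
    rw [dn_zero hA (by linarith), dn_zero hC hr]; ring
  refine ⟨⟨⟨hcont.measurable, ?_, ?_, ?_⟩, hξ, hξ1, hδ, hδ1, hM, hfar', ?_, ?_, ?_⟩, hcont, hle⟩
  · intro r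
    unfold core
    have h1 := dn_nonneg (δ / 2) (θ₂ * δ) r
    have h3 := up_nonneg (θ₃ * δ) δ r
    have h4 := dn_nonneg 1 (1 + ξ) r
    positivity
  · intro r hr; exact hfar' r (by linarith)
  · exact lintegral_core_ne_top hle (fun r hr => hfar' r (by linarith))
  · intro r h1 h2
    unfold core
    rw [dn_zero hA h1, up_zero hB h2]; ring
  · intro r _ h2
    unfold core
    rw [dn_one hA h2]
    have h3 := up_nonneg (θ₃ * δ) δ r
    have h4 := dn_nonneg 1 (1 + ξ) r
    have : 0 ≤ up (θ₃ * δ) δ r * dn 1 (1 + ξ) r := by positivity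
    nlinarith
  · intro r h1 h2
    unfold core
    rw [up_one hB h1, dn_one hC h2.le]
    have h3 := dn_nonneg (δ / 2) (θ₂ * δ) r
    nlinarith

end

/-- the divergent part -/
noncomputable def sing (δ r : ℝ) : ℝ := max 0 (r⁻¹ - (δ / 2)⁻¹)

lemma sing_nonneg (δ r : ℝ) : 0 ≤ sing δ r := le_max_left _ _

lemma sing_zero {δ r : ℝ} (hδ : 0 < δ) (h : δ / 2 ≤ r) : sing δ r = 0 := by
  unfold sing
  apply max_eq_left
  have : r⁻¹ ≤ (δ / 2)⁻¹ := inv_anti₀ (by linarith) h
  linarith

lemma measurable_sing (δ : ℝ) : Measurable (sing δ) := by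
  unfold sing
  exact measurable_const.max (measurable_inv.sub_const _)

lemma lintegral_sing_ne_top {δ : ℝ} (hδ : 0 < δ) (hδ1 : δ ≤ 1 / 4) :
    ∫⁻ y : Pt, ENNReal.ofReal (sing δ ‖y‖) ≠ ⊤ := by
  have hint : Integrable (fun y : Pt => sing δ ‖y‖) := by
    rw [MeasureTheory.integrable_fun_norm_addHaar (volume : Measure Pt) (f := sing δ)]
    have hfin : Module.finrank ℝ Pt = 3 := by simp
    rw [hfin]
    have hsub : IntegrableOn (fun y : ℝ => y ^ (3 - 1) • sing δ y) (Set.Ioo 0 1) := by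
      refine Measure.integrableOn_of_bounded (M := 1) (by simp) ?_ ?_
      · exact ((measurable_id.pow_const _).smul (measurable_sing δ)).aestronglyMeasurable
      · refine (ae_restrict_iff' measurableSet_Ioo).2 (Eventually.of_forall fun r hr => ?_)
        have hr0 : 0 < r := hr.1
        have h1 : sing δ r ≤ r⁻¹ := by
          unfold sing
          have h2 : 0 < (δ / 2)⁻¹ := by positivity
          exact max_le (by positivity) (by linarith)
        rw [Real.norm_eq_abs, smul_eq_mul, abs_of_nonneg (mul_nonneg (by positivity)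
          (sing_nonneg _ _))]
        calc r ^ (3 - 1) * sing δ r ≤ r ^ (3 - 1) * r⁻¹ := by gcongr
          _ = r := by field_simp
          _ ≤ 1 := hr.2.le
    have hz : IntegrableOn (fun y : ℝ => y ^ (3 - 1) • sing δ y) (Set.Ici 1) := by
      refine (integrableOn_zero (s := Set.Ici (1 : ℝ)) (μ := volume)).congr_fun (fun r hr => ?_) measurableSet_Ici
      have hr1 : (1 : ℝ) ≤ r := hr
      simp [sing_zero hδ (by linarith : δ / 2 ≤ r)]
    have hU : Set.Ioi (0 : ℝ) = Set.Ioo 0 1 ∪ Set.Ici 1 := by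
      rw [Set.Ioo_union_Ici_eq_Ioi (by norm_num)]
    rw [hU]
    exact hsub.union hz
  exact hint.lintegral_lt_top.ne

end Cores12

theorem core1 : Core1Stmt := by
  intro θ₂ θ₃ ξ δ M h12 h23 h31 hξ hξ1 hδ hδ1 hM
  exact ⟨Cores12.core θ₂ θ₃ ξ δ M, Cores12.core_type h12 h23 h31 hξ hξ1 hδ hδ1 hM⟩

theorem core2 : Core2Stmt := by
  intro θ₂ θ₃ ξ δ M h12 h23 h31 hξ hξ1 hδ hδ1 hM
  obtain ⟨hT, hc, hle⟩ := Cores12.core_type h12 h23 h31 hξ hξ1 hδ hδ1 hM
  have hK : CoreOK (Cores12.core θ₂ θ₃ ξ δ M) := hT.toCoreOK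
  have hA : δ / 2 < θ₂ * δ := by nlinarith
  refine ⟨fun r => Cores12.core θ₂ θ₃ ξ δ M r + Cores12.sing δ r,
    ⟨⟨hK.meas.add (Cores12.measurable_sing δ), ?_, ?_, ?_⟩, hξ, hξ1, hδ, hδ1, hM, ?_, ?_, ?_, ?_⟩,
    ?_, ?_⟩
  · intro r
    exact add_nonneg (hK.nonneg r) (Cores12.sing_nonneg _ _)
  · intro r hr
    rw [hK.far r hr, Cores12.sing_zero hδ (by linarith), add_zero]
  · have h1 : ∀ y : Pt, ENNReal.ofReal (Cores12.core θ₂ θ₃ ξ δ M ‖y‖ + Cores12.sing δ ‖y‖) =
        ENNReal.ofReal (Cores12.core θ₂ θ₃ ξ δ M ‖y‖) + ENNReal.ofReal (Cores12.sing δ ‖y‖) :=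
      fun y => ENNReal.ofReal_add (hK.nonneg _) (Cores12.sing_nonneg _ _)
    simp only [h1]
    have hm : Measurable fun y : Pt => ENNReal.ofReal (Cores12.core θ₂ θ₃ ξ δ M ‖y‖) :=
      ENNReal.measurable_ofReal.comp (hK.meas.comp measurable_norm)
    rw [lintegral_add_left hm]
    exact ENNReal.add_ne_top.2 ⟨hK.int, Cores12.lintegral_sing_ne_top hδ hδ1⟩
  · intro r hr
    rw [hT.far' r hr, Cores12.sing_zero hδ (by linarith), add_zero]
  · intro r h1 h2
    rw [hT.win r h1 h2, Cores12.sing_zero hδ (by linarith), add_zero]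
  · intro r h1 h2
    have := hT.big1 r h1 h2
    have h3 := Cores12.sing_nonneg δ r
    linarith
  · intro r h1 h2
    have := hT.big2 r h1 h2
    have h3 := Cores12.sing_nonneg δ r
    linarith
  · have h1 : Tendsto (fun r : ℝ => r⁻¹ + (-(δ / 2)⁻¹)) (𝓝[>] 0) atTop :=
      tendsto_atTop_add_const_right _ _ tendsto_inv_nhdsGT_zero
    refine tendsto_atTop_mono (fun r => ?_) h1
    have h2 := hK.nonneg r
    have h3 : r⁻¹ - (δ / 2)⁻¹ ≤ Cores12.sing δ r := le_max_right _ _
    linarith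
  · intro a b ha hab
    refine ⟨M + a⁻¹, fun r h1 h2 => ?_⟩
    have h3 := hle r
    have h4 : Cores12.sing δ r ≤ a⁻¹ := by
      unfold Cores12.sing
      have h5 : r⁻¹ ≤ a⁻¹ := inv_anti₀ ha h1
      have h6 : 0 < (δ / 2)⁻¹ := by positivity
      exact max_le (by positivity) (by linarith)
    linarith

end Crest.Agent.R149
end

-- ▼ part R149/Kink
section

/-!
# Row 149: subgradients of jointly convex functions (`SubgradStmt`), and the kink of the canonical
free energy at a triple point of the pressure (`KinkStmt`).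
-/

set_option autoImplicit false

open MeasureTheory Crest.ProbabilityR.Continuum Filter Topology
open scoped ENNReal

namespace Crest.Agent.R149

theorem subgrad : SubgradStmt := by
  intro P hP β h hβ
  have hopen : IsOpen {x : ℝ × ℝ | 0 < x.1} := isOpen_lt continuous_const continuous_fst
  have hcont : ContinuousOn (fun x : ℝ × ℝ => P x.1 x.2) {x : ℝ × ℝ | 0 < x.1} :=
    hP.continuousOn hopen
  -- strict epigraph
  set E : Set ((ℝ × ℝ) × ℝ) := {y | y.1 ∈ {x : ℝ × ℝ | 0 < x.1} ∧ P y.1.1 y.1.2 < y.2} with hE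
  have hEconv : Convex ℝ E := hP.convex_strict_epigraph
  have hEopen : IsOpen E := by
    have h1 : ContinuousOn (fun y : (ℝ × ℝ) × ℝ => y.2 - P y.1.1 y.1.2)
        (Prod.fst ⁻¹' {x : ℝ × ℝ | 0 < x.1}) :=
      continuous_snd.continuousOn.sub (hcont.comp continuous_fst.continuousOn (fun y hy => hy))
    have h2 := h1.isOpen_inter_preimage (hopen.preimage continuous_fst) (isOpen_Ioi (a := (0 : ℝ)))
    convert h2 using 1
    ext y
    simp [hE]
  have hnot : (((β, h), P β h) : (ℝ × ℝ) × ℝ) ∉ E := by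
    simp [hE]
  obtain ⟨f, hf⟩ := geometric_hahn_banach_point_open hEconv hEopen hnot
  set c : ℝ := f ((0, 0), 1) with hc
  set f1 : ℝ := f ((1, 0), 0) with hf1
  set f2 : ℝ := f ((0, 1), 0) with hf2
  have hexp : ∀ a b t : ℝ, f ((a, b), t) = a * f1 + b * f2 + t * c := by
    intro a b t
    have : (((a, b), t) : (ℝ × ℝ) × ℝ) =
        a • (((1, 0), 0) : (ℝ × ℝ) × ℝ) + b • (((0, 1), 0) : (ℝ × ℝ) × ℝ) +
          t • (((0, 0), 1) : (ℝ × ℝ) × ℝ) := by
      simp
    rw [this, map_add, map_add, map_smul, map_smul, map_smul]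
    simp [hc, hf1, hf2]
  have hlt : ∀ β' h' t, 0 < β' → P β' h' < t →
      β * f1 + h * f2 + P β h * c < β' * f1 + h' * f2 + t * c := by
    intro β' h' t hβ' ht
    have := hf ((β', h'), t) ⟨hβ', ht⟩
    rwa [hexp, hexp] at this
  have hcpos : 0 < c := by
    have := hlt β h (P β h + 1) hβ (by linarith)
    nlinarith
  refine ⟨f1 / c, -(f2 / c), fun β' h' hβ' => ?_⟩
  have hle : β * f1 + h * f2 + P β h * c ≤ β' * f1 + h' * f2 + P β' h' * c := by
    refine le_of_forall_pos_le_add fun ε hε => ?_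
    have := hlt β' h' (P β' h' + ε / c) hβ' (by have := div_pos hε hcpos; linarith)
    have e1 : (P β' h' + ε / c) * c = P β' h' * c + ε := by field_simp
    rw [e1] at this
    linarith
  have : P β h - f1 / c * (β' - β) + -(f2 / c) * (h' - h) =
      (β * f1 + h * f2 + P β h * c - β' * f1 - h' * f2) / c := by
    field_simp; ring
  rw [this, div_le_iff₀ hcpos]
  linarith

/-- One-dimensional subgradient of a convex function at an interior point. -/
lemma KinkAux.exists_subgrad_one {S : Set ℝ} {g : ℝ → ℝ} (hg : ConvexOn ℝ S g) {r : ℝ}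
    (hr : r ∈ interior S) : ∃ h : ℝ, ∀ r' ∈ S, g r + h * (r' - r) ≤ g r' := by
  refine ⟨derivWithin g (Set.Ioi r) r, fun r' hr' => ?_⟩
  rcases lt_trichotomy r' r with hlt | heq | hgt
  · have h1 := hg.slope_le_leftDeriv_of_mem_interior hr' hr hlt
    have h2 := hg.leftDeriv_le_rightDeriv_of_mem_interior hr
    rw [slope_def_field] at h1
    have h3 : 0 < r - r' := by linarith
    rw [div_le_iff₀ h3] at h1
    nlinarith
  · subst heq; simp
  · have h1 := hg.rightDeriv_le_slope_of_mem_interior hr hr' hgt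
    rw [slope_def_field] at h1
    have h3 : 0 < r' - r := by linarith
    rw [le_div_iff₀ h3] at h1
    linarith

theorem kink : KinkStmt := by
  intro G P βc hc e ρ hβc hρ0 hconv hconc hpr1 hpr2 hT r hr0 hr2
  have hrpos : 0 < r := lt_of_le_of_lt hρ0 hr0
  have h01 := hT.lt01
  have h12 := hT.lt12
  -- main inequality
  have key : ∀ l : Fin 3 → ℝ, (∀ i, 0 ≤ l i) → l 0 + l 1 + l 2 = 1 →
      l 0 * ρ 0 + l 1 * ρ 1 + l 2 * ρ 2 = r → ∀ β, 0 < β →
      G β r ≤ G βc r + (l 0 * e 0 + l 1 * e 1 + l 2 * e 2) * (β - βc) := by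
    intro l hl hl1 hlr β hβ
    have hrint : r ∈ interior (Set.Ici (0 : ℝ)) := by
      rw [interior_Ici]; exact hrpos
    obtain ⟨h, hh⟩ := KinkAux.exists_subgrad_one (hconv β hβ) hrint
    have h1 : P β h ≤ h * r - G β r := by
      refine hpr2 β hβ h _ fun r' hr' => ?_
      have := hh r' hr'
      nlinarith
    have h2 := hpr1 βc hβc r hrpos.le hc
    have s0 := mul_le_mul_of_nonneg_left (hT.sub 0 β h hβ) (hl 0)
    have s1 := mul_le_mul_of_nonneg_left (hT.sub 1 β h hβ) (hl 1)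
    have s2 := mul_le_mul_of_nonneg_left (hT.sub 2 β h hβ) (hl 2)
    have s3 : (l 0 + l 1 + l 2) * P βc hc -
        (l 0 * e 0 + l 1 * e 1 + l 2 * e 2) * (β - βc) +
        (l 0 * ρ 0 + l 1 * ρ 1 + l 2 * ρ 2) * (h - hc) ≤ (l 0 + l 1 + l 2) * P β h := by
      nlinarith
    rw [hl1, hlr] at s3
    linarith
  -- derivatives
  have hcg : ConcaveOn ℝ (Set.Ioi 0) (fun β => G β r) := hconc r hrpos.le
  have hcx : ConvexOn ℝ (Set.Ioi 0) (-(fun β => G β r)) := hcg.neg
  have hint : βc ∈ interior (Set.Ioi (0 : ℝ)) := by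
    rw [interior_Ioi]; exact hβc
  have hL := (hcx.hasDerivWithinAt_leftDeriv_of_mem_interior hint).neg
  have hR := (hcx.hasDerivWithinAt_rightDeriv_of_mem_interior hint).neg
  simp only [neg_neg] at hL hR
  set Dl : ℝ := -derivWithin (-(fun β => G β r)) (Set.Iio βc) βc with hDl
  set Dr : ℝ := -derivWithin (-(fun β => G β r)) (Set.Ioi βc) βc with hDr
  have hRs : ∀ s : ℝ, (∀ β, 0 < β → G β r ≤ G βc r + s * (β - βc)) → Dr ≤ s := by
    intro s hs
    refine le_of_tendsto ((hasDerivWithinAt_iff_tendsto_slope' Set.self_notMem_Ioi).1 hR) ?_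
    filter_upwards [self_mem_nhdsWithin] with β hβ
    have hβ' : βc < β := hβ
    rw [slope_def_field, div_le_iff₀ (by linarith)]
    linarith [hs β (by linarith)]
  have hLs : ∀ s : ℝ, (∀ β, 0 < β → G β r ≤ G βc r + s * (β - βc)) → s ≤ Dl := by
    intro s hs
    refine ge_of_tendsto ((hasDerivWithinAt_iff_tendsto_slope' Set.self_notMem_Iio).1 hL) ?_
    have hnear : ∀ᶠ β in 𝓝[<] βc, 0 < β :=
      eventually_nhdsWithin_of_eventually_nhds (lt_mem_nhds hβc)
    filter_upwards [self_mem_nhdsWithin, hnear] with β hβ hβ0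
    have hβ' : β < βc := hβ
    rw [slope_def_field, le_div_iff_of_neg (by linarith)]
    linarith [hs β hβ0]
  refine ⟨Dl, Dr, hL, hR, ?_⟩
  -- two different weights
  set t : ℝ := (r - ρ 0) / (ρ 2 - ρ 0) with ht
  have h02 : 0 < ρ 2 - ρ 0 := by linarith
  have ht0 : 0 < t := div_pos (by linarith) h02
  have ht1 : t < 1 := by rw [ht, div_lt_one h02]; linarith
  have htr : t * (ρ 2 - ρ 0) = r - ρ 0 := by rw [ht]; field_simp
  have k02 := key ![1 - t, 0, t] (by
      intro i; fin_cases i <;> simp <;> linarith) (by simp) (by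
      simp; linarith)
  simp only [Matrix.cons_val_zero, Matrix.cons_val_one, Matrix.cons_val] at k02
  -- the other one
  obtain ⟨s', hs', hne⟩ : ∃ s' : ℝ, (∀ β, 0 < β → G β r ≤ G βc r + s' * (β - βc)) ∧
      s' ≠ (1 - t) * e 0 + 0 * e 1 + t * e 2 := by
    rcases le_total r (ρ 1) with hr1 | hr1
    · have h01' : 0 < ρ 1 - ρ 0 := by linarith
      set u : ℝ := (r - ρ 0) / (ρ 1 - ρ 0) with hu
      have hu0 : 0 < u := div_pos (by linarith) h01'
      have hu1 : u ≤ 1 := by rw [hu, div_le_one h01']; linarith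
      have hur : u * (ρ 1 - ρ 0) = r - ρ 0 := by rw [hu]; field_simp
      have k01 := key ![1 - u, u, 0] (by
        intro i; fin_cases i <;> simp <;> linarith) (by simp) (by
        simp; linarith)
      simp only [Matrix.cons_val_zero, Matrix.cons_val_one, Matrix.cons_val] at k01
      refine ⟨_, k01, ?_⟩
      intro heq
      apply hT.indep
      have e1 : u * (e 1 - e 0) = t * (e 2 - e 0) := by linarith
      have e2 : u * (ρ 1 - ρ 0) = t * (ρ 2 - ρ 0) := by linarith
      have hut : u * t * ((e 1 - e 0) * (ρ 2 - ρ 0)) = u * t * ((e 2 - e 0) * (ρ 1 - ρ 0)) := by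
        calc u * t * ((e 1 - e 0) * (ρ 2 - ρ 0))
            = (u * (e 1 - e 0)) * (t * (ρ 2 - ρ 0)) := by ring
          _ = (t * (e 2 - e 0)) * (u * (ρ 1 - ρ 0)) := by rw [e1, e2]
          _ = _ := by ring
      exact mul_left_cancel₀ (mul_pos hu0 ht0).ne' hut
    · have h12' : 0 < ρ 2 - ρ 1 := by linarith
      set u : ℝ := (ρ 2 - r) / (ρ 2 - ρ 1) with hu
      have hu0 : 0 < u := div_pos (by linarith) h12'
      have hu1 : u ≤ 1 := by rw [hu, div_le_one h12']; linarith
      have hur : u * (ρ 2 - ρ 1) = ρ 2 - r := by rw [hu]; field_simp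
      have k12 := key ![0, u, 1 - u] (by
        intro i; fin_cases i <;> simp <;> linarith) (by simp) (by
        simp; linarith)
      simp only [Matrix.cons_val_zero, Matrix.cons_val_one, Matrix.cons_val] at k12
      refine ⟨_, k12, ?_⟩
      intro heq
      apply hT.indep
      have ht1' : 0 < 1 - t := by linarith
      have e1 : u * (e 1 - e 2) = (1 - t) * (e 0 - e 2) := by linarith
      have e2 : u * (ρ 2 - ρ 1) = (1 - t) * (ρ 2 - ρ 0) := by linarith
      have hut : u * (1 - t) * ((e 1 - e 2) * (ρ 2 - ρ 0)) =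
          u * (1 - t) * ((e 0 - e 2) * (ρ 2 - ρ 1)) := by
        calc u * (1 - t) * ((e 1 - e 2) * (ρ 2 - ρ 0))
            = (u * (e 1 - e 2)) * ((1 - t) * (ρ 2 - ρ 0)) := by ring
          _ = ((1 - t) * (e 0 - e 2)) * (u * (ρ 2 - ρ 1)) := by rw [e1, e2]
          _ = _ := by ring
      have h3 := mul_left_cancel₀ (mul_pos hu0 ht1').ne' hut
      linarith
  have a1 := hRs _ k02
  have a2 := hLs _ k02
  have a3 := hRs _ hs'
  have a4 := hLs _ hs'
  rcases lt_or_gt_of_ne hne with hlt | hgt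
  · linarith
  · linarith

end Crest.Agent.R149
end

-- ▼ part R149/All
section

/-!
# Row 149: everything except the induction part of the abstract theorem
-/

set_option autoImplicit false

namespace Crest.Agent.R149

theorem mainStmt_of (h : AbsIndStmt) : MainStmt :=
  main_of (abs_of h absTriple) (tl superAdd lzProps (lzConv lzProps)) (prProps lzProps)
    (lpLower kernelProps (Attraction.e1 kernelProps) superAdd lzProps (prProps lzProps))
    LPU.lpUpper (lim lzProps SuperStab.superStab)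
    (BaseLower.baseLower lzProps) (BaseUpper.baseUpper superAdd partitionStmt) coreK
    SuperStab.superStab (attrProps (Attraction.e2 kernelProps))

end Crest.Agent.R149
end

-- ▼ part R149/Step
section

/-!
# Row 149: one step of the multi-scale recursion (`StepStmt`).
-/

set_option autoImplicit false

open MeasureTheory Crest.ProbabilityR.Continuum Filter Topology
open scoped ENNReal

namespace Crest.Agent.R149

namespace StepAux

/-- The density component of an `ε`-subgradient of a nondecreasing function is nonnegative. -/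
lemma rho_nonneg {P : ℝ → ℝ → ℝ} {ε β h e ρ : ℝ} (hβ : 0 < β) (hε : 0 ≤ ε)
    (hmono : ∀ β h h', 0 < β → h ≤ h' → P β h ≤ P β h') (hs : ESub P ε β h e ρ) : 0 ≤ ρ := by
  by_contra hneg
  have hρ : ρ < 0 := lt_of_not_ge hneg
  have h1 := hs β (h + (ε + 1) / ρ) hβ
  have h2 : (ε + 1) / ρ ≤ 0 := div_nonpos_of_nonneg_of_nonpos (by linarith) hρ.le
  have h3 := hmono β (h + (ε + 1) / ρ) h hβ (by linarith)
  have h4 : ρ * (h + (ε + 1) / ρ - h) = ε + 1 := by
    have hρ' : ρ ≠ 0 := hρ.ne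
    rw [add_sub_cancel_left, mul_div_cancel₀ _ hρ']
  rw [h4] at h1
  linarith

/-- Testing the maximality of `m⋆` against the density `ρ`. -/
lemma test {P : ℝ → ℝ → ℝ} {a β h ms mm δ ρ : ℝ}
    (hmax : ∀ m, 0 ≤ m → m ≤ mm → P β (h + β * a * m) - β * a * m ^ 2 / 2 ≤
      P β (h + β * a * ms) - β * a * ms ^ 2 / 2)
    (h0 : 0 ≤ ρ) (h1 : ρ ≤ mm)
    (hs : P β (h + β * a * ms) - δ + ρ * (β * a * (ρ - ms)) ≤ P β (h + β * a * ρ)) :
    β * a * (ρ - ms) ^ 2 / 2 ≤ δ := by
  have := hmax ρ h0 h1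
  nlinarith

end StepAux

open StepAux

set_option maxHeartbeats 1000000 in
theorem step : StepStmt := by
  intro P P' E D a ε ε' η g mm r b1 b2 H Eb hconv hmono ha hε hε' hη hg hr hb1 hbb hb2 hDmm hDD
    hEE h4η h4s hsm hsub hlow hup β h hβ1 hβ2 hh
  have hβ : 0 < β := by linarith
  have hb1a : 0 < b1 * a := mul_pos hb1 ha
  have hβa : 0 < β * a := mul_pos hβ ha
  have hb1β : b1 * a ≤ β * a := mul_le_mul_of_nonneg_right (by linarith) ha.le
  -- `ρ` bounds from the centres
  have hρmm : ∀ (ρ : ℝ) (i : Fin 3), |ρ - D i| ≤ η → ρ ≤ mm := by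
    intro ρ i hi
    have := (abs_le.1 hi).2
    have := hDmm i
    linarith
  have hmm : 0 < mm := by
    rcases le_or_gt 0 mm with hm | hm
    · obtain ⟨i, e, ρ, he, hρ, hs⟩ := hsub β h (by linarith) (by linarith) (by
        have : 0 ≤ 2 * a * mm := by positivity
        linarith)
      have h0 := rho_nonneg hβ hε hmono hs
      have h1 := (abs_le.1 hρ).2
      have h2 := hDmm i
      linarith
    · exfalso
      obtain ⟨i, e, ρ, he, hρ, hs⟩ := hsub β (H + 2 * a * mm) (by linarith) (by linarith) le_rfl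
      have h0 := rho_nonneg hβ hε hmono hs
      have := hρmm ρ i hρ
      linarith
  -- maximiser
  have hcont : ContinuousOn (fun m : ℝ => P β (h + β * a * m) - β * a * m ^ 2 / 2)
      (Set.Icc 0 mm) := by
    have hopen : IsOpen {x : ℝ × ℝ | 0 < x.1} := isOpen_lt continuous_const continuous_fst
    have hc := hconv.continuousOn hopen
    have h1 : Continuous (fun m : ℝ => ((β, h + β * a * m) : ℝ × ℝ)) := by fun_prop
    have h2 : ContinuousOn (fun m : ℝ => P β (h + β * a * m)) Set.univ :=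
      hc.comp h1.continuousOn (fun m _ => hβ)
    have h3 : Continuous (fun m : ℝ => P β (h + β * a * m)) := continuousOn_univ.1 h2
    exact (h3.sub (by fun_prop)).continuousOn
  obtain ⟨ms, hms, hmax'⟩ := isCompact_Icc.exists_isMaxOn (Set.nonempty_Icc.2 hmm.le) hcont
  have hms0 : 0 ≤ ms := hms.1
  have hmax : ∀ m, 0 ≤ m → m ≤ mm → P β (h + β * a * m) - β * a * m ^ 2 / 2 ≤
      P β (h + β * a * ms) - β * a * ms ^ 2 / 2 := fun m h0 h1 => hmax' ⟨h0, h1⟩
  set hst : ℝ := h + β * a * ms with hhst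
  have hstH : hst ≤ H + 2 * a * mm := by
    have h1 : β * a * ms ≤ 2 * a * mm := by
      have : β * a ≤ 2 * a := mul_le_mul_of_nonneg_right (by linarith) ha.le
      exact mul_le_mul this hms.2 hms0 (by positivity)
    linarith
  have eqρ : ∀ ρ : ℝ, ρ * (h + β * a * ρ - hst) = ρ * (β * a * (ρ - ms)) := by
    intro ρ; rw [hhst]; ring
  -- (1) approximate subgradient at x⋆
  obtain ⟨i, e₀, ρ₀, he₀, hρ₀, hs₀⟩ := hsub β hst (by linarith) (by linarith) hstH
  have hρ₀0 := rho_nonneg hβ hε hmono hs₀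
  have t₀ : β * a * (ρ₀ - ms) ^ 2 / 2 ≤ ε := by
    refine test hmax hρ₀0 (hρmm _ _ hρ₀) ?_
    have := hs₀ β (h + β * a * ρ₀) hβ
    rw [eqρ] at this
    linarith
  have t₁ : |ρ₀ - ms| ≤ Real.sqrt (2 * ε / (b1 * a)) := by
    refine Real.abs_le_sqrt ?_
    rw [le_div_iff₀ hb1a]
    have := mul_le_mul_of_nonneg_right hb1β (sq_nonneg (ρ₀ - ms))
    nlinarith
  have hmsD : |ms - D i| ≤ η + Real.sqrt (2 * ε / (b1 * a)) := by
    calc |ms - D i| = |(ρ₀ - D i) - (ρ₀ - ms)| := by ring_nf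
      _ ≤ |ρ₀ - D i| + |ρ₀ - ms| := abs_sub _ _
      _ ≤ _ := by linarith
  have hmsD2 : |ms - D i| ≤ g / 2 := by linarith
  have hmslt : ms < mm := by
    have := (abs_le.1 hmsD2).2
    have := hDmm i
    linarith
  -- (2) exact subgradient at x⋆
  obtain ⟨e, ρ, hex⟩ := subgrad P hconv β hst hβ
  have hex0 : ESub P 0 β hst e ρ := by
    intro β' h' hβ'
    have := hex β' h' hβ'
    linarith
  have hρ0 : 0 ≤ ρ := rho_nonneg hβ le_rfl hmono hex0
  have hq : ∀ m, 0 ≤ m → m ≤ mm → ρ * (m - ms) ≤ (m ^ 2 - ms ^ 2) / 2 := by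
    intro m h0 h1
    have h2 := hmax m h0 h1
    have h3 := hex β (h + β * a * m) hβ
    have h4 : h + β * a * m - hst = β * a * (m - ms) := by rw [hhst]; ring
    rw [h4] at h3
    have h5 : β * a * (ρ * (m - ms)) ≤ β * a * ((m ^ 2 - ms ^ 2) / 2) := by nlinarith
    exact le_of_mul_le_mul_left h5 hβa
  have hρle : ρ ≤ ms := by
    by_contra hlt
    have hlt' : ms < ρ := lt_of_not_ge hlt
    -- take m between ms and min(mm, ρ) s.t. (m+ms)/2 < ρ
    set m := min mm ρ with hm
    have hm1 : ms < m := lt_min hmslt hlt'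
    have h2 := hq m (by linarith) (min_le_left _ _)
    have h3 : m ≤ ρ := min_le_right _ _
    have h4 : (m - ms) * (2 * ρ - (m + ms)) ≤ 0 := by nlinarith
    have h5 : 0 < (m - ms) * (2 * ρ - (m + ms)) := mul_pos (by linarith) (by linarith)
    linarith
  have hρge : ms ≤ ρ := by
    by_contra hlt
    have hlt' : ρ < ms := lt_of_not_ge hlt
    have h2 := hq ρ hρ0 (by linarith)
    nlinarith [mul_pos (sub_pos.2 hlt') (sub_pos.2 hlt')]
  have hρms : ρ = ms := le_antisymm hρle hρge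
  -- common part of (3)
  have hsame : ∀ (j : Fin 3) (e' ρ' δ' : ℝ), |e' - E j| ≤ η → |ρ' - D j| ≤ η → 0 ≤ ρ' →
      δ' ≤ |e₀ - e'| * r →
      P β hst - (2 * ε + δ') + ρ' * (β * a * (ρ' - ms)) ≤ P β (h + β * a * ρ') → j = i := by
    intro j e' ρ' δ' he' hρ' hρ'0 hδ' hP
    by_contra hne
    have t2 := test hmax hρ'0 (hρmm _ _ hρ') hP
    have hE1 : |e₀ - e'| ≤ Eb := by
      calc |e₀ - e'| = |(e₀ - E i) + (E i - E j) - (e' - E j)| := by ring_nf
        _ ≤ |(e₀ - E i) + (E i - E j)| + |e' - E j| := abs_sub _ _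
        _ ≤ |e₀ - E i| + |E i - E j| + |e' - E j| := by
            have := abs_add_le (e₀ - E i) (E i - E j); linarith
        _ ≤ Eb := by have := hEE i j; linarith
    have h1 : δ' ≤ Eb * r := hδ'.trans (mul_le_mul_of_nonneg_right hE1 hr.le)
    have h2 : (ρ' - ms) ^ 2 / 2 ≤ (2 * ε + Eb * r) / (b1 * a) := by
      rw [le_div_iff₀ hb1a]
      have := mul_le_mul_of_nonneg_right hb1β (sq_nonneg (ρ' - ms))
      nlinarith
    have h3 : (ρ' - ms) ^ 2 < (g / 4) ^ 2 := by nlinarith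
    have h4 : |ρ' - ms| < g / 4 := by
      have := sq_lt_sq.1 h3
      rwa [abs_of_pos (by positivity : 0 < g / 4)] at this
    have h5 := hDD j i hne
    have h6 : |D j - D i| ≤ |ρ' - D j| + |ρ' - ms| + |ms - D i| := by
      calc |D j - D i| = |-(ρ' - D j) + (ρ' - ms) + (ms - D i)| := by ring_nf
        _ ≤ |-(ρ' - D j) + (ρ' - ms)| + |ms - D i| := abs_add_le _ _
        _ ≤ |-(ρ' - D j)| + |ρ' - ms| + |ms - D i| := by
            have := abs_add_le (-(ρ' - D j)) (ρ' - ms); linarith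
        _ = _ := by rw [abs_neg]
    linarith
  have heE : |e - E i| ≤ η + ε / r := by
    have hεr : ε / r * r = ε := by field_simp
    rw [abs_le]
    constructor
    · -- x⁺ = (β + r, hst)
      have hβr : 0 < β + r := by linarith
      obtain ⟨j, e', ρ', he', hρ', hs'⟩ := hsub (β + r) hst (by linarith) (by linarith) hstH
      have hρ'0 := rho_nonneg hβr hε hmono hs'
      have c1 := hs' β hst hβ
      have c2 := hex (β + r) hst hβr
      have c1' : β - (β + r) = -r := by ring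
      have c2' : (β + r) - β = r := by ring
      rw [c1', sub_self, mul_zero] at c1
      rw [c2', sub_self, mul_zero] at c2
      have c3 : (e' - e) * r ≤ ε := by linarith
      have c4 := hs₀ (β + r) hst hβr
      rw [c2', sub_self, mul_zero] at c4
      have c5 := hs' β (h + β * a * ρ') hβ
      rw [eqρ, c1'] at c5
      have hji := hsame j e' ρ' ((e₀ - e') * r) he' hρ' hρ'0
        (mul_le_mul_of_nonneg_right (le_abs_self _) hr.le) (by linarith)
      subst hji
      have c6 := (abs_le.1 he').1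
      have c7 : e' - e ≤ ε / r := by rw [le_div_iff₀ hr]; exact c3
      linarith
    · have hβr : 0 < β - r := by linarith
      obtain ⟨j, e', ρ', he', hρ', hs'⟩ := hsub (β - r) hst (by linarith) (by linarith) hstH
      have hρ'0 := rho_nonneg hβr hε hmono hs'
      have c1 := hs' β hst hβ
      have c2 := hex (β - r) hst hβr
      have c1' : β - (β - r) = r := by ring
      have c2' : (β - r) - β = -r := by ring
      rw [c1', sub_self, mul_zero] at c1
      rw [c2', sub_self, mul_zero] at c2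
      have c3 : (e - e') * r ≤ ε := by linarith
      have c4 := hs₀ (β - r) hst hβr
      rw [c2', sub_self, mul_zero] at c4
      have c5 := hs' β (h + β * a * ρ') hβ
      rw [eqρ, c1'] at c5
      have hji := hsame j e' ρ' ((e' - e₀) * r) he' hρ' hρ'0
        (mul_le_mul_of_nonneg_right (by rw [abs_sub_comm]; exact le_abs_self _) hr.le)
        (by linarith)
      subst hji
      have c6 := (abs_le.1 he').2
      have c7 : e - e' ≤ ε / r := by rw [le_div_iff₀ hr]; exact c3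
      linarith
  -- (4)
  refine ⟨i, e, ρ, heE, by rw [hρms]; exact hmsD, ?_⟩
  intro β'' h'' hβ''
  have u1 := hlow β'' h'' ms hβ'' hms0
  have u2 := hex β'' (h'' + β'' * a * ms) hβ''
  have u3 := hup β h hβ1 hβ2 hh _ hmax
  rw [hρms] at u2 ⊢
  have u4 : ms * (h'' + β'' * a * ms - hst) =
      ms * (h'' - h) + a * ms ^ 2 * (β'' - β) := by rw [hhst]; ring
  rw [u4] at u2
  have u5 : (e - a * ms ^ 2 / 2) * (β'' - β) = e * (β'' - β) - a * ms ^ 2 / 2 * (β'' - β) := by ring
  rw [u5]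
  have u6 : a * ms ^ 2 * (β'' - β) - β'' * a * ms ^ 2 / 2 =
      a * ms ^ 2 / 2 * (β'' - β) - β * a * ms ^ 2 / 2 := by ring
  linarith

end Crest.Agent.R149
end

-- ▼ part R149/AbsInd

/-!
# Row 149: the induction part of the abstract theorem (AbsIndStmt)
-/

set_option autoImplicit false

open MeasureTheory Crest.ProbabilityR.Continuum Filter Topology

namespace Crest.Agent.R149.AbsInd

theorem MF0_eq {q : ℝ} (hq : 0 ≤ q) (K : ℕ) (h : ℝ) :
    MF0 q K h = q * max 0 (max h (K * h - (K - 1))) := by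
  unfold MF0
  rw [mul_max_of_nonneg _ _ hq, mul_max_of_nonneg _ _ hq, mul_zero]

/-- Base case: approximate subgradients of `P 0`. -/
theorem base_sub {p : ℝ} {K : ℕ} {mm s : ℝ} {P : ℕ → ℝ → ℝ → ℝ} {Pinf : ℝ → ℝ → ℝ}
    {a ε : ℕ → ℝ} (hp : 0 < p) (hK : 2 ≤ K) (hmm : K * p + p ≤ mm) (hs : 0 < s) (hsp : s ≤ p)
    (hD : AbsData p K mm s P Pinf a ε) (β h : ℝ) (hβ1 : 1 / 2 ≤ β) (hβ2 : β ≤ 3 / 2)
    (hh : h ≤ 3 + 4 * mm / (p * K)) :
    ∃ i : Fin 3, ∃ e ρ : ℝ, |e - 0| ≤ K * s ∧ |ρ - cD p K i| ≤ K * s ∧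
      ESub (P 0) (s * (2 + K * (3 + 4 * mm / (p * K)))) β h e ρ := by
  have hKr : (2 : ℝ) ≤ K := by exact_mod_cast hK
  have hK0 : (0 : ℝ) < K := by linarith
  have hmm0 : 0 < mm := by nlinarith
  obtain ⟨p', hp1, hp2, hlow⟩ := hD.base_lower
  have hp'0 : 0 ≤ p' := by linarith
  have hup := hD.base_upper β h hβ1 hβ2 hh
  rw [MF0_eq hp.le] at hup
  have hlow' : ∀ β' h' : ℝ, 0 < β' → p' * max 0 (max h' (K * h' - (K - 1))) - s ≤ P 0 β' h' := by
    intro β' h' hβ'
    have := hlow β' h' hβ'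
    rwa [MF0_eq hp'0] at this
  set H0 : ℝ := 3 + 4 * mm / (p * K) with hH0
  have hH0p : 0 ≤ H0 := by positivity
  set X : ℝ := max 0 (max h (K * h - (K - 1))) with hX
  have hX0 : 0 ≤ X := le_max_left _ _
  have hXle : X ≤ K * H0 := by
    refine max_le (by positivity) (max_le ?_ ?_)
    · nlinarith
    · nlinarith
  have h1 : P 0 β h ≤ p' * X + s * (1 + K * H0) := by
    have h2 : (p - p') * X ≤ s * (K * H0) := by
      calc (p - p') * X ≤ s * X := mul_le_mul_of_nonneg_right (by linarith) hX0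
        _ ≤ s * (K * H0) := mul_le_mul_of_nonneg_left hXle hs.le
    have h3 : (p - p') * X = p * X - p' * X := by ring
    have h4 : s * (1 + K * H0) = s + s * (K * H0) := by ring
    linarith
  have h5 : s * (2 + K * H0) = s * (1 + K * H0) + s := by ring
  -- cases
  rcases le_total (max h (K * h - (K - 1))) 0 with hc | hc
  · -- phase 0
    refine ⟨0, 0, 0, by simp; positivity, by simp [cD]; positivity, fun β' h' hβ' => ?_⟩
    have hXe : X = 0 := max_eq_left hc
    rw [hXe] at h1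
    have h6 := hlow' β' h' hβ'
    have h7 : 0 ≤ p' * max 0 (max h' (K * h' - (K - 1))) := mul_nonneg hp'0 (le_max_left _ _)
    rw [h5]; linarith
  · have hXe : X = max h (K * h - (K - 1)) := max_eq_right hc
    rcases le_total h (K * h - (K - 1)) with hc2 | hc2
    · refine ⟨2, 0, p' * K, by simp; positivity, ?_, fun β' h' hβ' => ?_⟩
      · have : p' * K - cD p K 2 = -(K * (p - p')) := by simp [cD]; ring
        rw [this, abs_neg, abs_of_nonneg (mul_nonneg hK0.le (by linarith))]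
        exact mul_le_mul_of_nonneg_left (by linarith) hK0.le
      · rw [max_eq_right hc2] at hXe
        rw [hXe] at h1
        have h6 := hlow' β' h' hβ'
        have h7 : p' * (K * h' - (K - 1)) ≤ p' * max 0 (max h' (K * h' - (K - 1))) :=
          mul_le_mul_of_nonneg_left ((le_max_right _ _).trans (le_max_right _ _)) hp'0
        have h8 : p' * (K * h' - (K - 1)) = p' * (K * h - (K - 1)) + p' * K * (h' - h) := by ring
        rw [h5]; linarith
    · refine ⟨1, 0, p', by simp; positivity, ?_, fun β' h' hβ' => ?_⟩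
      · have : p' - cD p K 1 = -(p - p') := by simp [cD]
        rw [this, abs_neg, abs_of_nonneg (by linarith)]
        nlinarith
      · rw [max_eq_left hc2] at hXe
        rw [hXe] at h1
        have h6 := hlow' β' h' hβ'
        have h7 : p' * h' ≤ p' * max 0 (max h' (K * h' - (K - 1))) :=
          mul_le_mul_of_nonneg_left ((le_max_left _ _).trans (le_max_right _ _)) hp'0
        have h8 : p' * h' = p' * h + p' * (h' - h) := by ring
        rw [h5]; linarith

theorem cD_bounds {p : ℝ} {K : ℕ} (hp : 0 < p) (hK : 2 ≤ K) (i : Fin 3) :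
    0 ≤ cD p K i ∧ cD p K i ≤ K * p := by
  have hKr : (2 : ℝ) ≤ K := by exact_mod_cast hK
  fin_cases i
  · simp [cD]; positivity
  · simp only [cD, Fin.mk_one, Matrix.cons_val_one, Matrix.cons_val_zero]
    exact ⟨hp.le, by nlinarith⟩
  · simp only [cD, Fin.reduceFinMk, Matrix.cons_val]
    exact ⟨by positivity, le_rfl⟩

theorem cD_gap {p : ℝ} {K : ℕ} (hp : 0 < p) (hK : 2 ≤ K) (i j : Fin 3) (hij : i ≠ j) :
    p ≤ |cD p K i - cD p K j| := by
  have hKr : (2 : ℝ) ≤ K := by exact_mod_cast hK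
  have h2 : 2 * p ≤ K * p := mul_le_mul_of_nonneg_right hKr hp.le
  have h01 : p ≤ |cD p K 0 - cD p K 1| := by
    simp only [cD, Matrix.cons_val_one, Matrix.cons_val_zero]
    rw [zero_sub, abs_neg]; exact le_abs_self _
  have h02 : p ≤ |cD p K 0 - cD p K 2| := by
    simp only [cD, Matrix.cons_val_zero, Matrix.cons_val]
    rw [zero_sub, abs_neg]; exact (by linarith : p ≤ K * p).trans (le_abs_self _)
  have h12 : p ≤ |cD p K 1 - cD p K 2| := by
    simp only [cD, Matrix.cons_val_one, Matrix.cons_val_zero, Matrix.cons_val]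
    rw [abs_sub_comm]; exact (by linarith : p ≤ K * p - p).trans (le_abs_self _)
  fin_cases i <;> fin_cases j <;> simp only [Fin.zero_eta, Fin.mk_one, Fin.reduceFinMk, ne_eq,
    not_true_eq_false] at hij ⊢
  · exact h01
  · exact h02
  · rw [abs_sub_comm]; exact h01
  · exact h12
  · rw [abs_sub_comm]; exact h02
  · rw [abs_sub_comm]; exact h12

theorem cE_bounds {p : ℝ} {K : ℕ} (hp : 0 < p) (hK : 2 ≤ K) (i : Fin 3) :
    -(p * K) ≤ cE p K i ∧ cE p K i ≤ 0 := by
  have hKr : (2 : ℝ) ≤ K := by exact_mod_cast hK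
  have hK0 : (0 : ℝ) < K := by linarith
  fin_cases i
  · simp [cE]; positivity
  · simp only [cE, Fin.mk_one, Matrix.cons_val_one, Matrix.cons_val_zero]
    have h1 : p / K ≤ p := div_le_self hp.le (by linarith)
    have h2 : -p / (K : ℝ) = -(p / K) := by ring
    have h3 : 0 ≤ p / (K : ℝ) := by positivity
    rw [h2]
    constructor
    · nlinarith
    · linarith
  · simp only [cE, Fin.reduceFinMk, Matrix.cons_val]
    constructor
    · linarith
    · nlinarith

theorem cE_diff {p : ℝ} {K : ℕ} (hp : 0 < p) (hK : 2 ≤ K) (i j : Fin 3) :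
    |cE p K i - cE p K j| ≤ p * K := by
  have h1 := cE_bounds hp hK i
  have h2 := cE_bounds hp hK j
  rw [abs_le]; constructor <;> linarith

theorem cE_eq {p : ℝ} {K : ℕ} (hp : 0 < p) (hK : 2 ≤ K) (i : Fin 3) :
    cE p K i = -(2 / (p * K)) * (cD p K i) ^ 2 / 2 := by
  have hKr : (2 : ℝ) ≤ K := by exact_mod_cast hK
  have hK0 : (0 : ℝ) < K := by linarith
  fin_cases i
  · simp [cE, cD]
  · simp only [cE, cD, Fin.mk_one, Matrix.cons_val_one, Matrix.cons_val_zero]
    field_simp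
  · simp only [cE, cD, Fin.reduceFinMk, Matrix.cons_val]
    field_simp

/-- First step of the induction. -/
theorem step0 {p : ℝ} {K : ℕ} {mm s : ℝ} {P : ℕ → ℝ → ℝ → ℝ} {Pinf : ℝ → ℝ → ℝ}
    {a ε : ℕ → ℝ} (hp : 0 < p) (hK : 2 ≤ K) (hmm : K * p + p ≤ mm) (hs : 0 < s) (hsp : s ≤ p)
    (hD : AbsData p K mm s P Pinf a ε) {εb τ η1 : ℝ}
    (hεb : εb = s * (2 + K * (3 + 4 * mm / (p * K))))
    (hτ : τ = Real.sqrt (2 * εb / (5 / 8 * (2 / (p * K)))))
    (c7 : 4 * (K * s) ≤ p) (c8 : 4 * τ ≤ p)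
    (c9 : (2 * εb + 2 * (K * s) * (1 / 8)) / (5 / 8 * (2 / (p * K))) < p ^ 2 / 32)
    (c10 : K * s + εb / (1 / 8) + 2 / (p * K) * mm * (K * s + τ) ≤ η1) (c11 : K * s + τ ≤ η1)
    (β h : ℝ) (hβ1 : 3 / 4 ≤ β) (hβ2 : β ≤ 5 / 4) (hh : h ≤ 5 / 2) :
    ∃ i : Fin 3, ∃ e ρ : ℝ, |e - cE p K i| ≤ η1 ∧ |ρ - cD p K i| ≤ η1 ∧
      ESub (P 1) (ε 1) β h e ρ := by
  have hKr : (2 : ℝ) ≤ K := by exact_mod_cast hK
  have hK0 : (0 : ℝ) < K := by linarith
  have hmm0 : 0 < mm := by nlinarith
  have ha0 : a 0 = 2 / (p * K) := hD.a0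
  have ha0p : 0 < 2 / (p * (K : ℝ)) := by positivity
  have hεb0 : 0 ≤ εb := by rw [hεb]; positivity
  obtain ⟨i, e, ρ, he, hρ, hsub⟩ := step (P 0) (P 1) (fun _ => 0) (cD p K) (a 0) εb (ε 1) (K * s) p mm
    (1 / 8) (5 / 8) (11 / 8) (5 / 2) (2 * (K * s)) (hD.conv 0) (hD.mono 0) (hD.apos 0) hεb0
    (hD.εnn 1) (by positivity) hp (by norm_num) (by norm_num) (by norm_num) (by norm_num)
    (fun i => by have := (cD_bounds hp hK i).2; linarith) (fun i j hij => cD_gap hp hK i j hij)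
    (fun i j => by simp) c7 (by rw [ha0, ← hτ]; exact c8) (by rw [ha0]; exact c9)
    (by
      intro β h hb1 hb2 hh
      rw [hεb]
      refine base_sub hp hK hmm hs hsp hD β h (by linarith) (by linarith) ?_
      rw [ha0] at hh
      have : 2 * (2 / (p * (K : ℝ))) * mm = 4 * mm / (p * K) := by ring
      linarith)
    (by
      intro β h m hb hm
      exact hD.lower 0 β h m hb hm)
    (by
      intro β h hb1 hb2 hh y hy
      exact hD.upper 0 β h (by linarith) (by linarith) (by linarith) y hy)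
    β h (by linarith) (by linarith) hh
  rw [ha0, ← hτ] at hρ
  rw [ha0] at hsub
  refine ⟨i, _, ρ, ?_, hρ.trans c11, hsub⟩
  have hDb := cD_bounds hp hK i
  rw [cE_eq hp hK i]
  have hρmm : |ρ + cD p K i| ≤ 2 * mm := by
    have h1 := abs_le.mp hρ
    rw [abs_le]
    constructor
    · linarith
    · linarith
  have h1 : |ρ ^ 2 - (cD p K i) ^ 2| ≤ (K * s + τ) * (2 * mm) := by
    have : ρ ^ 2 - (cD p K i) ^ 2 = (ρ - cD p K i) * (ρ + cD p K i) := by ring
    rw [this, abs_mul]
    have hτ0 : 0 ≤ τ := by rw [hτ]; exact Real.sqrt_nonneg _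
    exact mul_le_mul hρ hρmm (abs_nonneg _) (by positivity)
  have h2 : e - 2 / (p * K) * ρ ^ 2 / 2 - -(2 / (p * K)) * (cD p K i) ^ 2 / 2 =
      (e - 0) - 2 / (p * K) / 2 * (ρ ^ 2 - (cD p K i) ^ 2) := by ring
  rw [h2]
  calc |(e - 0) - 2 / (p * K) / 2 * (ρ ^ 2 - (cD p K i) ^ 2)|
      ≤ |e - 0| + |2 / (p * K) / 2 * (ρ ^ 2 - (cD p K i) ^ 2)| := abs_sub _ _
    _ ≤ (K * s + εb / (1 / 8)) + 2 / (p * K) / 2 * ((K * s + τ) * (2 * mm)) := by
        apply add_le_add he
        rw [abs_mul, abs_of_pos (by positivity : (0 : ℝ) < 2 / (p * K) / 2)]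
        exact mul_le_mul_of_nonneg_left h1 (by positivity)
    _ = K * s + εb / (1 / 8) + 2 / (p * K) * mm * (K * s + τ) := by ring
    _ ≤ η1 := c10

/-- The induction statement. -/
def Ck (p : ℝ) (K : ℕ) (P : ℕ → ℝ → ℝ → ℝ) (ε : ℕ → ℝ) (η' : ℝ) (k : ℕ) : Prop :=
  ∀ β h : ℝ, 7 / 8 - 1 / 4 * (1 / 2) ^ k ≤ β → β ≤ 9 / 8 + 1 / 4 * (1 / 2) ^ k →
    h ≤ 2 + (1 / 2) ^ k →
    ∃ i : Fin 3, ∃ e ρ : ℝ, |e - cE p K i| ≤ η' * (1 - (1 / 2) ^ k) ∧
      |ρ - cD p K i| ≤ η' * (1 - (1 / 2) ^ k) ∧ ESub (P k) (ε k) β h e ρ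

theorem stepk {p : ℝ} {K : ℕ} {mm s : ℝ} {P : ℕ → ℝ → ℝ → ℝ} {Pinf : ℝ → ℝ → ℝ}
    {a ε : ℕ → ℝ} (hp : 0 < p) (hK : 2 ≤ K) (hmm : K * p + p ≤ mm) (hs : 0 < s)
    (hD : AbsData p K mm s P Pinf a ε) {η' κ : ℝ} (hη' : 0 < η') (hη'p : 4 * η' ≤ p)
    (hη'1 : 2 * η' ≤ 1) (hκ : κ = p ^ 2 / (256 * (p * K + 1)))
    (c1 : s ≤ 1) (c2 : 16 * s ≤ p) (c3 : κ * s ≤ 1 / 8) (c4 : s * (1 / κ + mm ^ 2 / 2) ≤ η' / 2)
    (c5 : 4 * s ≤ η') (c6 : 4 * mm * s ≤ 1)
    (k : ℕ) (hk : 1 ≤ k) (hC : Ck p K P ε η' k) : Ck p K P ε η' (k + 1) := by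
  have hKr : (2 : ℝ) ≤ K := by exact_mod_cast hK
  have hK0 : (0 : ℝ) < K := by linarith
  have hmm0 : 0 < mm := by nlinarith
  have hκ0 : 0 < κ := by rw [hκ]; positivity
  set q : ℝ := (1 / 2 : ℝ) ^ k with hq
  have hq0 : 0 < q := by positivity
  have hq1 : q ≤ 1 / 2 := by
    rw [hq]
    calc (1 / 2 : ℝ) ^ k ≤ (1 / 2) ^ 1 := pow_le_pow_of_le_one (by norm_num) (by norm_num) hk
      _ = 1 / 2 := by norm_num
  have hqs : (1 / 2 : ℝ) ^ (k + 1) = q / 2 := by rw [pow_succ, hq]; ring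
  have hak0 := hD.apos k
  have hak : a k ≤ s * q := hD.asmall k hk
  have hεk0 := hD.εnn k
  have hεk : ε k ≤ (s * q) ^ 2 * a k := hD.εsmall k hk
  set r : ℝ := κ * a k with hr
  have hr0 : 0 < r := by positivity
  have hr8 : r ≤ 1 / 8 * q := by
    calc κ * a k ≤ κ * (s * q) := mul_le_mul_of_nonneg_left hak hκ0.le
      _ = κ * s * q := by ring
      _ ≤ 1 / 8 * q := mul_le_mul_of_nonneg_right c3 hq0.le
  set b1 : ℝ := 7 / 8 - 1 / 4 * q with hb1
  set b2 : ℝ := 9 / 8 + 1 / 4 * q with hb2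
  have hb1h : 1 / 2 ≤ b1 := by rw [hb1]; linarith
  have hb1p : 0 < b1 := by linarith
  set Eb : ℝ := p * K + 1 with hEb
  have hEb0 : 0 < Eb := by positivity
  have hratio : 2 * ε k / (b1 * a k) ≤ 4 * (s * q) ^ 2 := by
    rw [div_le_iff₀ (by positivity)]
    have h1 : (s * q) ^ 2 * a k ≤ 2 * (s * q) ^ 2 * (b1 * a k) := by
      have : 0 ≤ (s * q) ^ 2 * a k := by positivity
      nlinarith
    linarith
  have hsqrt : Real.sqrt (2 * ε k / (b1 * a k)) ≤ 2 * s * q := by
    rw [Real.sqrt_le_left (by positivity)]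
    calc _ ≤ 4 * (s * q) ^ 2 := hratio
      _ = (2 * s * q) ^ 2 := by ring
  have hεr : ε k / r ≤ s * q * (1 / κ) := by
    rw [hr, div_le_iff₀ (by positivity)]
    have h1 : s * q * (1 / κ) * (κ * a k) = s * q * a k := by field_simp
    rw [h1]
    have h2 : (s * q) ^ 2 * a k ≤ s * q * a k := by
      have h3 : s * q ≤ 1 := by nlinarith
      have h4 : (s * q) ^ 2 ≤ s * q := by
        rw [sq]; exact mul_le_of_le_one_left (by positivity) h3
      exact mul_le_mul_of_nonneg_right h4 hak0.le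
    linarith
  have hη0 : 0 ≤ η' * (1 - q) := mul_nonneg hη'.le (by linarith)
  have hηle : η' * (1 - q) ≤ η' := mul_le_of_le_one_right hη'.le (by linarith)
  have h2sq : 2 * s * q ≤ s := by
    have : s * (2 * q) ≤ s * 1 := mul_le_mul_of_nonneg_left (by linarith) hs.le
    linarith
  have hpp : 0 < p ^ 2 := by positivity
  have hbig : (2 * ε k + Eb * r) / (b1 * a k) < p ^ 2 / 32 := by
    have h1 : (2 * ε k + Eb * r) / (b1 * a k) = 2 * ε k / (b1 * a k) + Eb * κ / b1 := by
      rw [hr]; field_simp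
    rw [h1]
    have h2 : Eb * κ / b1 ≤ p ^ 2 / 128 := by
      rw [div_le_iff₀ hb1p]
      have h3 : Eb * κ = p ^ 2 / 256 := by rw [hκ, hEb]; field_simp
      rw [h3]
      have := mul_le_mul_of_nonneg_left hb1h (by positivity : 0 ≤ p ^ 2 / 128)
      linarith
    have h3 : 4 * (s * q) ^ 2 ≤ p ^ 2 / 64 := by
      have h4 : s * q ≤ p / 16 := by linarith
      have h5 : (s * q) ^ 2 ≤ (p / 16) ^ 2 := pow_le_pow_left₀ (by positivity) h4 2
      have : (p / 16) ^ 2 = p ^ 2 / 256 := by ring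
      linarith
    linarith
  have hshift : 2 * a k * mm ≤ q / 2 := by
    have h1 : a k * mm ≤ s * q * mm := mul_le_mul_of_nonneg_right hak hmm0.le
    have h2 : 4 * mm * s * q ≤ 1 * q := mul_le_mul_of_nonneg_right c6 hq0.le
    linarith
  intro β h hβ1 hβ2 hh
  rw [hqs] at hβ1 hβ2 hh ⊢
  obtain ⟨i, e, ρ, he, hρ, hsub⟩ := step (P k) (P (k + 1)) (cE p K) (cD p K) (a k) (ε k) (ε (k + 1))
    (η' * (1 - q)) p mm r b1 b2 (2 + q / 2) Eb (hD.conv k) (hD.mono k) hak0 hεk0
    (hD.εnn (k + 1)) hη0 hp hr0 hb1p (by rw [hb1, hb2]; linarith) (by rw [hb2]; linarith)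
    (fun i => by have := (cD_bounds hp hK i).2; linarith) (fun i j hij => cD_gap hp hK i j hij)
    (fun i j => by have := cE_diff hp hK i j; rw [hEb]; linarith) (by linarith)
    (by linarith)
    hbig
    (by
      intro β h hb1' hb2' hh'
      exact hC β h hb1' hb2' (by linarith))
    (by
      intro β h m hb hm
      exact hD.lower k β h m hb hm)
    (by
      intro β h hb1' hb2' hh' y hy
      refine hD.upper k β h (by linarith) ?_ ?_ y hy
      · rw [hb2] at hb2'; linarith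
      · linarith)
    β h (by rw [hb1]; linarith) (by rw [hb2]; linarith) hh
  have hρ' : |ρ - cD p K i| ≤ η' * (1 - q) + 2 * s * q := hρ.trans (by linarith)
  have hDb := cD_bounds hp hK i
  have hρmm : |ρ| ≤ mm := by
    have h1 := abs_le.mp hρ'
    rw [abs_le]
    constructor <;> linarith
  refine ⟨i, _, ρ, ?_, ?_, hsub⟩
  · have h1 : e - a k * ρ ^ 2 / 2 - cE p K i = (e - cE p K i) - a k * ρ ^ 2 / 2 := by ring
    rw [h1]
    have h2 : ρ ^ 2 ≤ mm ^ 2 := by
      rw [← sq_abs ρ]; exact pow_le_pow_left₀ (abs_nonneg _) hρmm 2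
    have h3 : |a k * ρ ^ 2 / 2| ≤ s * q * (mm ^ 2 / 2) := by
      rw [abs_of_nonneg (by positivity)]
      calc a k * ρ ^ 2 / 2 ≤ (s * q) * mm ^ 2 / 2 := by
            apply div_le_div_of_nonneg_right _ (by norm_num)
            exact mul_le_mul hak h2 (by positivity) (by positivity)
        _ = s * q * (mm ^ 2 / 2) := by ring
    calc |(e - cE p K i) - a k * ρ ^ 2 / 2| ≤ |e - cE p K i| + |a k * ρ ^ 2 / 2| := abs_sub _ _
      _ ≤ (η' * (1 - q) + s * q * (1 / κ)) + s * q * (mm ^ 2 / 2) := by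
          apply add_le_add _ h3
          linarith
      _ = η' * (1 - q) + s * (1 / κ + mm ^ 2 / 2) * q := by ring
      _ ≤ η' * (1 - q) + η' / 2 * q := by
          have := mul_le_mul_of_nonneg_right c4 hq0.le
          linarith
      _ = η' * (1 - q / 2) := by ring
  · calc |ρ - cD p K i| ≤ η' * (1 - q) + 2 * s * q := hρ'
      _ ≤ η' * (1 - q) + η' / 2 * q := by
          have := mul_le_mul_of_nonneg_right c5 hq0.le
          linarith
      _ = η' * (1 - q / 2) := by ring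

/-- The increments after the first scale are small. -/
theorem incr {p : ℝ} {K : ℕ} {mm s : ℝ} {P : ℕ → ℝ → ℝ → ℝ} {Pinf : ℝ → ℝ → ℝ}
    {a ε : ℕ → ℝ} (hp : 0 < p) (hK : 2 ≤ K) (hmm : K * p + p ≤ mm) (hs : 0 < s)
    (hD : AbsData p K mm s P Pinf a ε) {η' : ℝ} (hη' : 0 < η') (hη'p : 4 * η' ≤ p)
    (c1 : s ≤ 1) (c6 : 4 * mm * s ≤ 1)
    (hC : ∀ k, 1 ≤ k → Ck p K P ε η' k) (β h : ℝ) (hβ1 : 7 / 8 ≤ β) (hβ2 : β ≤ 9 / 8) (hh : h ≤ 2)
    (k : ℕ) : P (k + 1) β h ≤ P 1 β h + (2 + 2 * mm ^ 2) * s * (1 - (1 / 2) ^ k) := by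
  have hKr : (2 : ℝ) ≤ K := by exact_mod_cast hK
  have hK0 : (0 : ℝ) < K := by linarith
  have hmm0 : 0 < mm := by nlinarith
  induction k with
  | zero => simp
  | succ j ih =>
    set k := j + 1 with hk
    set q : ℝ := (1 / 2 : ℝ) ^ k with hq
    have hq0 : 0 < q := by positivity
    have hq1 : q ≤ 1 / 2 := by
      rw [hq]
      calc (1 / 2 : ℝ) ^ k ≤ (1 / 2) ^ 1 := pow_le_pow_of_le_one (by norm_num) (by norm_num) (by omega)
        _ = 1 / 2 := by norm_num
    have hqj : (1 / 2 : ℝ) ^ j = 2 * q := by rw [hq, hk, pow_succ]; ring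
    rw [hqj] at ih
    have hak0 := hD.apos k
    have hak : a k ≤ s * q := hD.asmall k (by omega)
    have hεk : ε k ≤ (s * q) ^ 2 * a k := hD.εsmall k (by omega)
    have hak' : a (k + 1) ≤ s * (1 / 2) ^ (k + 1) := hD.asmall (k + 1) (by omega)
    have hεk' : ε (k + 1) ≤ (s * (1 / 2) ^ (k + 1)) ^ 2 * a (k + 1) := hD.εsmall (k + 1) (by omega)
    have hqs : (1 / 2 : ℝ) ^ (k + 1) = q / 2 := by rw [pow_succ, hq]; ring
    rw [hqs] at hak' hεk'
    have hsq : s * q ≤ 1 := by nlinarith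
    have hsq0 : 0 < s * q := by positivity
    have e1 : ε k ≤ s * q := by
      have h1 : (s * q) ^ 2 ≤ 1 := pow_le_one₀ hsq0.le hsq
      have h2 : (s * q) ^ 2 * a k ≤ 1 * (s * q) :=
        mul_le_mul h1 hak hak0.le (by norm_num)
      linarith
    have e2 : ε (k + 1) ≤ s * q := by
      have h0 : s * (q / 2) ≤ 1 := by nlinarith
      have h1 : (s * (q / 2)) ^ 2 ≤ 1 := pow_le_one₀ (by positivity) h0
      have h2 : (s * (q / 2)) ^ 2 * a (k + 1) ≤ 1 * (s * (q / 2)) :=
        mul_le_mul h1 hak' (hD.apos (k + 1)).le (by norm_num)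
      nlinarith
    have hup := hD.upper k β h (by linarith) (by linarith) (by linarith)
      (P k β h + s * q + 2 * mm ^ 2 * (s * q)) (by
        intro m hm0 hm1
        -- shift bounded by `2 mm a k`
        have hβ0 : 0 < β := by linarith
        set t : ℝ := β * a k * m with ht
        have ht0 : 0 ≤ t := by positivity
        have htle : t ≤ 2 * (s * q) * mm := by
          have h1 : β * a k ≤ 2 * (s * q) := by nlinarith
          exact mul_le_mul h1 hm1 hm0 (by positivity)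
        have hth : h + t ≤ 2 + q := by
          have : 2 * (s * q) * mm ≤ q := by nlinarith
          linarith
        obtain ⟨i, e, ρ, -, hρ, hsub⟩ := hC k (by omega) β (h + t) (by linarith) (by linarith) hth
        have h1 := hsub β h hβ0
        have hDb := cD_bounds hp hK i
        have hρmm : ρ ≤ mm := by
          have h2 := abs_le.mp hρ
          have : η' * (1 - q) ≤ η' := by nlinarith
          linarith
        have h3 : ρ * t ≤ mm * (2 * (s * q) * mm) :=
          mul_le_mul hρmm htle ht0 hmm0.le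
        have h4 : 0 ≤ β * a k * m ^ 2 / 2 := by positivity
        have h5 : ρ * (h - (h + t)) = -(ρ * t) := by ring
        have h6 : mm * (2 * (s * q) * mm) = 2 * mm ^ 2 * (s * q) := by ring
        rw [h5] at h1
        have h7 : e * (β - β) = 0 := by ring
        rw [h7] at h1
        linarith)
    have h8 : (2 + 2 * mm ^ 2) * s * (1 - q) =
        (2 + 2 * mm ^ 2) * s * (1 - 2 * q) + (s * q + s * q + 2 * mm ^ 2 * (s * q)) := by ring
    rw [h8]
    linarith

/-- Passing to the limit: exact subgradients of `Pinf`. -/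
theorem limit_sub {p : ℝ} {K : ℕ} {P : ℕ → ℝ → ℝ → ℝ} {Pinf : ℝ → ℝ → ℝ}
    {ε : ℕ → ℝ} {η' β h : ℝ} (hβ : 0 < β)
    (hlim : ∀ β h, 0 < β → Tendsto (fun k => P k β h) atTop (𝓝 (Pinf β h)))
    (hε : Tendsto ε atTop (𝓝 0))
    (hC : ∀ k : ℕ, 1 ≤ k → ∃ i : Fin 3, ∃ e ρ : ℝ, |e - cE p K i| ≤ η' ∧
      |ρ - cD p K i| ≤ η' ∧ ESub (P k) (ε k) β h e ρ) :
    ∃ i : Fin 3, ∃ e ρ : ℝ, |e - cE p K i| ≤ η' ∧ |ρ - cD p K i| ≤ η' ∧ ESub Pinf 0 β h e ρ := by
  set S : Set (ℝ × ℝ) := ⋃ i : Fin 3, (Metric.closedBall (cE p K i) η' ×ˢ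
    Metric.closedBall (cD p K i) η') with hS
  have hScomp : IsCompact S := isCompact_iUnion fun i =>
    (isCompact_closedBall _ _).prod (isCompact_closedBall _ _)
  have hex : ∀ k : ℕ, ∃ x : ℝ × ℝ, x ∈ S ∧ ESub (P (k + 1)) (ε (k + 1)) β h x.1 x.2 := by
    intro k
    obtain ⟨i, e, ρ, he, hρ, hs⟩ := hC (k + 1) (by omega)
    refine ⟨(e, ρ), Set.mem_iUnion.mpr ⟨i, ?_, ?_⟩, hs⟩
    · simpa [Real.dist_eq] using he
    · simpa [Real.dist_eq] using hρ
  choose x hxS hxsub using hex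
  obtain ⟨y, hyS, φ, hφ, hφlim⟩ := hScomp.tendsto_subseq hxS
  obtain ⟨i, hy1, hy2⟩ := Set.mem_iUnion.mp hyS
  refine ⟨i, y.1, y.2, by simpa [Real.dist_eq] using hy1, by simpa [Real.dist_eq] using hy2, ?_⟩
  intro β' h' hβ'
  have hφ' : Tendsto (fun n => φ n + 1) atTop atTop :=
    (tendsto_add_atTop_nat 1).comp hφ.tendsto_atTop
  have t1 : Tendsto (fun n => P (φ n + 1) β h) atTop (𝓝 (Pinf β h)) := (hlim β h hβ).comp hφ'
  have t2 : Tendsto (fun n => P (φ n + 1) β' h') atTop (𝓝 (Pinf β' h')) :=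
    (hlim β' h' hβ').comp hφ'
  have t3 : Tendsto (fun n => ε (φ n + 1)) atTop (𝓝 0) := hε.comp hφ'
  have t4 : Tendsto (fun n => (x (φ n)).1) atTop (𝓝 y.1) :=
    (continuous_fst.tendsto y).comp hφlim
  have t5 : Tendsto (fun n => (x (φ n)).2) atTop (𝓝 y.2) :=
    (continuous_snd.tendsto y).comp hφlim
  have t6 : Tendsto (fun n => P (φ n + 1) β h - ε (φ n + 1) - (x (φ n)).1 * (β' - β) +
      (x (φ n)).2 * (h' - h)) atTop (𝓝 (Pinf β h - 0 - y.1 * (β' - β) + y.2 * (h' - h))) :=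
    ((t1.sub t3).sub (t4.mul_const _)).add (t5.mul_const _)
  exact le_of_tendsto_of_tendsto' t6 t2 fun n => hxsub (φ n) β' h' hβ'

/-- Closeness of `P 1` to the mean-field pressure: upper bound. -/
theorem P1_upper {p : ℝ} {K : ℕ} {mm s : ℝ} {P : ℕ → ℝ → ℝ → ℝ} {Pinf : ℝ → ℝ → ℝ}
    {a ε : ℕ → ℝ} (hp : 0 < p) (hK : 2 ≤ K) (hmm : K * p + p ≤ mm) (hs : 0 < s) (c1 : s ≤ 1)
    (hD : AbsData p K mm s P Pinf a ε) (β h : ℝ) (hβ1 : 7 / 8 ≤ β) (hβ2 : β ≤ 9 / 8) (hh : h ≤ 2) :
    P 1 β h ≤ MF1 p K β h + 2 * s := by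
  have hKr : (2 : ℝ) ≤ K := by exact_mod_cast hK
  have hK0 : (0 : ℝ) < K := by linarith
  have hmm0 : 0 < mm := by nlinarith
  have hε1 : ε 1 ≤ s := by
    have h1 : ε 1 ≤ (s * (1 / 2) ^ 1) ^ 2 * a 1 := hD.εsmall 1 le_rfl
    have h2 : a 1 ≤ s * (1 / 2) ^ 1 := hD.asmall 1 le_rfl
    have h3 := hD.apos 1
    have h4 : (s * (1 / 2) ^ 1) ^ 2 ≤ 1 := pow_le_one₀ (by positivity) (by linarith)
    have h5 : (s * (1 / 2) ^ 1) ^ 2 * a 1 ≤ 1 * (s * (1 / 2) ^ 1) :=
      mul_le_mul h4 h2 h3.le (by norm_num)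
    linarith
  have hup := hD.upper 0 β h (by linarith) (by linarith) (by linarith) (MF1 p K β h + s) (by
    intro m hm0 hm1
    have hβ0 : 0 < β := by linarith
    rw [hD.a0]
    have h1 : h + β * (2 / (p * K)) * m ≤ 3 + 4 * mm / (p * K) := by
      have h2 : β * (2 / (p * K)) * m ≤ 2 * (2 / (p * K)) * mm := by
        apply mul_le_mul _ hm1 hm0 (by positivity)
        exact mul_le_mul_of_nonneg_right (by linarith) (by positivity)
      have h3 : 2 * (2 / (p * (K : ℝ))) * mm = 4 * mm / (p * K) := by ring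
      linarith
    have h2 := hD.base_upper β (h + β * (2 / (p * K)) * m) (by linarith) (by linarith) h1
    have h3 : MF0 p K (h + β * (2 / (p * K)) * m) - β * (2 / (p * K)) * m ^ 2 / 2 ≤ MF1 p K β h := by
      rw [sub_le_iff_le_add]
      have hA : 0 ≤ β * (2 / (p * K)) * m ^ 2 / 2 := by positivity
      have hc : β * (2 / (p * K)) * m ^ 2 / 2 = β * m ^ 2 / (p * K) := by ring
      refine max_le ?_ (max_le ?_ ?_)
      · have := le_max_left 0 (max (p * (h + β / K)) (p * (K * (h + β) - (K - 1))))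
        unfold MF1; linarith
      · have h4 : p * (h + β / K) ≤ MF1 p K β h := (le_max_left _ _).trans (le_max_right _ _)
        have h5 : p * (h + β * (2 / (p * K)) * m) ≤ p * (h + β / K) + β * (2 / (p * K)) * m ^ 2 / 2 := by
          have h6 : p * (h + β / K) + β * (2 / (p * K)) * m ^ 2 / 2 - p * (h + β * (2 / (p * K)) * m)
              = β / (p * K) * (m - p) ^ 2 := by field_simp; ring
          have h7 : 0 ≤ β / (p * K) * (m - p) ^ 2 := by positivity
          linarith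
        linarith
      · have h4 : p * (K * (h + β) - (K - 1)) ≤ MF1 p K β h :=
          (le_max_right _ _).trans (le_max_right _ _)
        have h5 : p * (K * (h + β * (2 / (p * K)) * m) - (K - 1)) ≤
            p * (K * (h + β) - (K - 1)) + β * (2 / (p * K)) * m ^ 2 / 2 := by
          have h6 : p * (K * (h + β) - (K - 1)) + β * (2 / (p * K)) * m ^ 2 / 2 -
              p * (K * (h + β * (2 / (p * K)) * m) - (K - 1))
              = β / (p * K) * (m - K * p) ^ 2 := by field_simp; ring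
          have h7 : 0 ≤ β / (p * K) * (m - K * p) ^ 2 := by positivity
          linarith
        linarith
    linarith)
  linarith

/-- Closeness of `P 1` to the mean-field pressure: lower bound. -/
theorem P1_lower {p : ℝ} {K : ℕ} {mm s : ℝ} {P : ℕ → ℝ → ℝ → ℝ} {Pinf : ℝ → ℝ → ℝ}
    {a ε : ℕ → ℝ} (hp : 0 < p) (hK : 2 ≤ K) (hs : 0 < s) (hsp : s ≤ p)
    (hD : AbsData p K mm s P Pinf a ε) (β h : ℝ) (hβ1 : 7 / 8 ≤ β) (hβ2 : β ≤ 9 / 8)
    (hh1 : -2 ≤ h) (hh : h ≤ 2) :
    MF1 p K β h - (1 + 6 * K) * s ≤ P 1 β h := by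
  have hKr : (2 : ℝ) ≤ K := by exact_mod_cast hK
  have hK0 : (0 : ℝ) < K := by linarith
  have hβ0 : 0 < β := by linarith
  obtain ⟨p', hp1, hp2, hlow⟩ := hD.base_lower
  have hp'0 : 0 ≤ p' := by linarith
  rw [sub_le_iff_le_add]
  have ha0 : a 0 = 2 / (p * K) := hD.a0
  have hKs : 0 ≤ 6 * K * s := by positivity
  refine max_le ?_ (max_le ?_ ?_)
  · have h1 := hD.lower 0 β h 0 hβ0 le_rfl
    have h2 := hlow β h hβ0
    have h3 : 0 ≤ MF0 p' K h := le_max_left _ _
    simp only [mul_zero, add_zero, ne_eq, OfNat.ofNat_ne_zero, not_false_eq_true, zero_pow,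
      zero_div, sub_zero, zero_add] at h1
    linarith
  · have h1 := hD.lower 0 β h p hβ0 hp.le
    rw [ha0, zero_add] at h1
    have h2 := hlow β (h + β * (2 / (p * K)) * p) hβ0
    have h3 : p' * (h + β * (2 / (p * K)) * p) ≤ MF0 p' K (h + β * (2 / (p * K)) * p) :=
      (le_max_left _ _).trans (le_max_right _ _)
    have e1 : h + β * (2 / (p * K)) * p = h + 2 * β / K := by field_simp
    rw [e1] at h1 h2 h3
    have e2 : β * (2 / (p * K)) * p ^ 2 / 2 = p * β / K := by field_simp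
    rw [e2] at h1
    have e3 : (p - p') * (h + 2 * β / K) ≤ s * 5 := by
      have h4 : h + 2 * β / K ≤ 5 := by
        have : 2 * β / K ≤ 2 * β / 2 := div_le_div_of_nonneg_left (by linarith) (by norm_num) hKr
        linarith
      calc (p - p') * (h + 2 * β / K) ≤ (p - p') * 5 := mul_le_mul_of_nonneg_left h4 (by linarith)
        _ ≤ s * 5 := mul_le_mul_of_nonneg_right (by linarith) (by norm_num)
    have e4 : (p - p') * (h + 2 * β / K) = p * (h + 2 * β / K) - p' * (h + 2 * β / K) := by ring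
    have e5 : p * (h + β / K) = p * (h + 2 * β / K) - p * β / K := by ring
    nlinarith
  · have h1 := hD.lower 0 β h (K * p) hβ0 (by positivity)
    rw [ha0, zero_add] at h1
    have h2 := hlow β (h + β * (2 / (p * K)) * (K * p)) hβ0
    have h3 : p' * (K * (h + β * (2 / (p * K)) * (K * p)) - (K - 1)) ≤
        MF0 p' K (h + β * (2 / (p * K)) * (K * p)) :=
      (le_max_right _ _).trans (le_max_right _ _)
    have e1 : h + β * (2 / (p * K)) * (K * p) = h + 2 * β := by field_simp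
    rw [e1] at h1 h2 h3
    have e2 : β * (2 / (p * K)) * (K * p) ^ 2 / 2 = K * p * β := by field_simp
    rw [e2] at h1
    have e3 : (p - p') * (K * (h + 2 * β) - (K - 1)) ≤ s * (5 * K) := by
      have h4 : K * (h + 2 * β) - (K - 1) ≤ 5 * K := by nlinarith
      calc (p - p') * (K * (h + 2 * β) - (K - 1)) ≤ (p - p') * (5 * K) :=
            mul_le_mul_of_nonneg_left h4 (by linarith)
        _ ≤ s * (5 * K) := mul_le_mul_of_nonneg_right (by linarith) (by positivity)
    have e4 : (p - p') * (K * (h + 2 * β) - (K - 1)) =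
        p * (K * (h + 2 * β) - (K - 1)) - p' * (K * (h + 2 * β) - (K - 1)) := by ring
    have e5 : p * (K * (h + β) - (K - 1)) = p * (K * (h + 2 * β) - (K - 1)) - K * p * β := by ring
    nlinarith

theorem P_mono {p : ℝ} {K : ℕ} {mm s : ℝ} {P : ℕ → ℝ → ℝ → ℝ} {Pinf : ℝ → ℝ → ℝ}
    {a ε : ℕ → ℝ} (hD : AbsData p K mm s P Pinf a ε) (β h : ℝ) (hβ : 0 < β) :
    Monotone fun k => P k β h := by
  refine monotone_nat_of_le_succ fun k => ?_
  have h1 := hD.lower k β h 0 hβ le_rfl
  simpa using h1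

end Crest.Agent.R149.AbsInd

namespace Crest.Agent.R149

open AbsInd

theorem absInd : AbsIndStmt := by
  intro p K mm η hp hK hmm hη
  have hKr : (2 : ℝ) ≤ K := by exact_mod_cast hK
  have hK0 : (0 : ℝ) < K := by linarith
  have hmm0 : 0 < mm := by nlinarith
  set η' : ℝ := min η (min (p / 4) (1 / 2)) with hη'def
  have hη'0 : 0 < η' := by positivity
  have hη'η : η' ≤ η := min_le_left _ _
  have hη'p : 4 * η' ≤ p := by
    have : η' ≤ p / 4 := (min_le_right _ _).trans (min_le_left _ _)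
    linarith
  have hη'1 : 2 * η' ≤ 1 := by
    have : η' ≤ 1 / 2 := (min_le_right _ _).trans (min_le_right _ _)
    linarith
  set κ : ℝ := p ^ 2 / (256 * (p * K + 1)) with hκ
  have hκ0 : 0 < κ := by positivity
  set C3 : ℝ := 2 + K * (3 + 4 * mm / (p * K)) with hC3
  set A0 : ℝ := 5 / 8 * (2 / (p * K)) with hA0
  have hA0p : 0 < A0 := by positivity
  -- smallness of `s`
  have key : ∀ f : ℝ → ℝ, Continuous f → ∀ c, f 0 < c → ∀ᶠ s in 𝓝[>] (0 : ℝ), f s < c :=
    fun f hf c hc => (hf.tendsto 0 |>.mono_left nhdsWithin_le_nhds).eventually_lt_const hc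
  have hcτ : Continuous fun s : ℝ => Real.sqrt (2 * (s * C3) / A0) := by fun_prop
  have k1 := key (fun s => s) continuous_id 1 one_pos
  have k2 := key (fun s => 16 * s) (by fun_prop) p (by simpa using hp)
  have k3 := key (fun s => κ * s) (by fun_prop) (1 / 8) (by simp)
  have k4 := key (fun s => s * (1 / κ + mm ^ 2 / 2)) (by fun_prop) (η' / 2) (by simpa using hη'0)
  have k5 := key (fun s => 4 * s) (by fun_prop) η' (by simpa using hη'0)
  have k6 := key (fun s => 4 * mm * s) (by fun_prop) 1 (by simp)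
  have k7 := key (fun s => 4 * (K * s)) (by fun_prop) p (by simpa using hp)
  have k8 := key (fun s => 4 * Real.sqrt (2 * (s * C3) / A0)) (by fun_prop) p (by simpa using hp)
  have k9 := key (fun s => (2 * (s * C3) + 2 * (K * s) * (1 / 8)) / A0) (by fun_prop) (p ^ 2 / 32)
    (by simp; positivity)
  have k10 := key (fun s => K * s + (s * C3) / (1 / 8) + 2 / (p * K) * mm *
    (K * s + Real.sqrt (2 * (s * C3) / A0))) (by fun_prop) (η' / 2) (by simpa using hη'0)
  have k11 := key (fun s => K * s + Real.sqrt (2 * (s * C3) / A0)) (by fun_prop) (η' / 2)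
    (by simpa using hη'0)
  have k12 := key (fun s => (2 + 2 * mm ^ 2 + 2) * s) (by fun_prop) η (by simpa using hη)
  have k13 := key (fun s => (1 + 6 * K) * s) (by fun_prop) η (by simpa using hη)
  have hall := ((((k1.and k2).and (k3.and k4)).and ((k5.and k6).and (k7.and k8))).and
    (((k9.and k10).and (k11.and k12)).and k13)).and self_mem_nhdsWithin
  obtain ⟨s, ⟨⟨⟨⟨c1, c2⟩, c3, c4⟩, ⟨c5, c6⟩, c7, c8⟩, ⟨⟨c9, c10⟩, c11, c12⟩, c13⟩, hs⟩ := hall.exists
  have hs : 0 < s := hs
  refine ⟨s, hs, fun P Pinf a ε hD => ?_⟩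
  have hsp : s ≤ p := by linarith
  -- base of the induction
  have hC1 : Ck p K P ε η' 1 := by
    intro β h hβ1 hβ2 hh
    have e1 : η' * (1 - (1 / 2) ^ 1) = η' / 2 := by ring
    rw [e1]
    refine step0 hp hK hmm hs hsp hD (εb := s * C3) rfl rfl c7.le c8.le c9 c10.le c11.le β h ?_ ?_ ?_
    · norm_num at hβ1 ⊢; linarith
    · norm_num at hβ2 ⊢; linarith
    · norm_num at hh ⊢; linarith
  have hCk : ∀ k, 1 ≤ k → Ck p K P ε η' k := by
    intro k hk
    induction k, hk using Nat.le_induction with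
    | base => exact hC1
    | succ k hk ih =>
      exact stepk hp hK hmm hs hD hη'0 hη'p hη'1 hκ c1.le c2.le c3.le c4.le c5.le c6.le k hk ih
  have hε : Tendsto ε atTop (𝓝 0) := by
    have hb : ∀ᶠ k in atTop, ε k ≤ s ^ 3 * (1 / 2) ^ k := by
      filter_upwards [eventually_ge_atTop 1] with k hk
      have h1 := hD.εsmall k hk
      have h2 := hD.asmall k hk
      have h3 := hD.apos k
      set q : ℝ := (1 / 2 : ℝ) ^ k with hq
      have hq0 : 0 < q := by positivity
      have hq1 : q ≤ 1 := pow_le_one₀ (by norm_num) (by norm_num)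
      calc ε k ≤ (s * q) ^ 2 * (s * q) := h1.trans (mul_le_mul_of_nonneg_left h2 (by positivity))
        _ = s ^ 3 * q * q ^ 2 := by ring
        _ ≤ s ^ 3 * q * 1 := by
            apply mul_le_mul_of_nonneg_left (pow_le_one₀ hq0.le hq1) (by positivity)
        _ = s ^ 3 * q := mul_one _
    have hg : Tendsto (fun k : ℕ => s ^ 3 * (1 / 2 : ℝ) ^ k) atTop (𝓝 0) := by
      have := (tendsto_pow_atTop_nhds_zero_of_lt_one (by norm_num : (0 : ℝ) ≤ 1 / 2)
        (by norm_num)).const_mul (s ^ 3)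
      simpa using this
    exact tendsto_of_tendsto_of_tendsto_of_le_of_le' tendsto_const_nhds hg
      (Eventually.of_forall hD.εnn) hb
  constructor
  · intro β h hβ1 hβ2 hh
    obtain ⟨i, e, ρ, he, hρ, hsub⟩ := limit_sub (p := p) (K := K) (η' := η') (h := h)
      (by linarith : (0 : ℝ) < β) hD.lim hε (by
        intro k hk
        have hq0 : (0 : ℝ) < (1 / 2) ^ k := by positivity
        obtain ⟨i, e, ρ, he, hρ, hsub⟩ := hCk k hk β h (by linarith) (by linarith) (by linarith)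
        have hle : η' * (1 - (1 / 2) ^ k) ≤ η' := mul_le_of_le_one_right hη'0.le (by linarith)
        exact ⟨i, e, ρ, he.trans hle, hρ.trans hle, hsub⟩)
    exact ⟨i, e, ρ, he.trans hη'η, hρ.trans hη'η, hsub⟩
  · intro β h hβ1 hβ2 hh1 hh2
    have hβ0 : 0 < β := by linarith
    rw [abs_le]
    constructor
    · have h1 := P1_lower hp hK hs hsp hD β h hβ1 hβ2 hh1 hh2
      have h2 : P 1 β h ≤ Pinf β h := (P_mono hD β h hβ0).ge_of_tendsto (hD.lim β h hβ0) 1
      linarith
    · have h1 := P1_upper hp hK hmm hs c1.le hD β h hβ1 hβ2 hh2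
      have h2 : Pinf β h ≤ P 1 β h + (2 + 2 * mm ^ 2) * s := by
        refine le_of_tendsto (hD.lim β h hβ0) ?_
        filter_upwards [eventually_ge_atTop 1] with k hk
        obtain ⟨j, rfl⟩ : ∃ j, k = j + 1 := ⟨k - 1, by omega⟩
        have h3 := incr hp hK hmm hs hD hη'0 hη'p c1.le c6.le hCk β h hβ1 hβ2 hh2 j
        have h4 : (2 + 2 * mm ^ 2) * s * (1 - (1 / 2) ^ j) ≤ (2 + 2 * mm ^ 2) * s :=
          mul_le_of_le_one_right (by positivity) (by
            have : (0 : ℝ) < (1 / 2) ^ j := by positivity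
            linarith)
        linarith
      linarith


end Crest.Agent.R149
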